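import Vale.Agent.P308RAM.Stmt

/-!
# From the law of the output of the program to the quasi-polynomial scheme
-/

namespace Vale.Agent.P308RAM

open Vale.Agent.P328RAM Vale.Agent.P308
open scoped ENNReal

/-- the size of the parameters -/
def baseX (n a b : ℕ) : ℕ := n + a + Nat.size b + 2

/-- the pair of integers which is the output -/
def outOf (M : Mem) : ℤ × ℤ := (M 3 0 0, M 3 1 0)

/-- the good event of the pair of integers -/
def goodE (ε Z : ℝ) : Set (ℤ × ℤ) :=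
  {z | (1 - ε) * Z ≤ (z.1 : ℝ) / (z.2 : ℝ) ∧ (z.1 : ℝ) / (z.2 : ℝ) ≤ (1 + ε) * Z}

/-- what the program does: the law of its output is `law`, and it is quasi-polynomial -/
def MainOK (law : ∀ n : ℕ, SimpleGraph (Fin n) → ℕ → ℕ → PMF (ℤ × ℤ)) (prog : Cmd) : Prop :=
  ∃ K : ℕ, ∀ (n : ℕ) (G : SimpleGraph (Fin n)) (a b : ℕ), 1 ≤ a → 1 ≤ b →
    (prog.run (input G a b, 0)).map (fun s => outOf s.1) = law n G a b ∧
    ∀ s ∈ (prog.run (input G a b, 0)).support,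
      s.2 ≤ K * baseX n a b ^ K * 2 ^ (K * (Nat.size n + 1) ^ K)

/-- what the native algorithm does -/
def NativeOK (law : ∀ n : ℕ, SimpleGraph (Fin n) → ℕ → ℕ → PMF (ℤ × ℤ)) : Prop :=
  ∀ (n : ℕ) (G : SimpleGraph (Fin n)) (a b : ℕ), 1 ≤ a → 1 ≤ b →
    ENNReal.ofReal (1 - 1 / (b : ℝ)) ≤
      (law n G a b).toOuterMeasure (goodE (1 / (a : ℝ)) (numPerfect G))

theorem size_le_log {N : ℕ} {y : ℝ} (h : (N : ℝ) ≤ y) (hy : 1 ≤ y) :
    (Nat.size N : ℝ) ≤ 2 * Real.log y + 1 := by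
  have hl : 0 ≤ Real.log y := Real.log_nonneg hy
  rcases Nat.eq_zero_or_pos (Nat.size N) with h0 | h0
  · rw [h0]; push_cast; linarith
  have h1 : ¬ N < 2 ^ (Nat.size N - 1) := by
    intro h2
    have := Nat.size_le.2 h2
    omega
  push Not at h1
  have h2 : ((2 : ℝ) ^ (Nat.size N - 1)) ≤ y := le_trans (by exact_mod_cast h1) h
  have h3 : ((Nat.size N - 1 : ℕ) : ℝ) * Real.log 2 ≤ Real.log y := by
    rw [← Real.log_pow]
    exact Real.log_le_log (by positivity) h2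
  have h4 : ((Nat.size N - 1 : ℕ) : ℝ) = (Nat.size N : ℝ) - 1 := by
    rw [Nat.cast_sub h0]; simp
  have h5 : (1 / 2 : ℝ) < Real.log 2 := by have := Real.log_two_gt_d9; linarith
  rw [h4] at h3
  have h6 : (0 : ℝ) ≤ (Nat.size N : ℝ) - 1 := by
    have : (1 : ℝ) ≤ Nat.size N := by exact_mod_cast h0
    linarith
  nlinarith

/-- the exponent of the final bound -/
def kOf (K : ℕ) : ℕ := 3 * K + K * 2 ^ K

/-- the time bound -/
theorem time_le {K : ℕ} {n : ℕ} {ε δ : ℝ} (hε : 0 < ε) (hδ : 0 < δ)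
    (hδ1 : δ < 1) {t : ℕ}
    (h : t ≤ K * baseX n ⌈1 / ε⌉₊ ⌈1 / δ⌉₊ ^ K * 2 ^ (K * (Nat.size n + 1) ^ K)) :
    (t : ℝ) ≤ Real.exp ((kOf K : ℕ) * (1 + Real.log (n + 1)) ^ kOf K) *
      (1 + 1 / ε + Real.log (1 / δ)) ^ kOf K := by
  have hε' : 0 < 1 / ε := by positivity
  have hδ' : (1 : ℝ) ≤ 1 / δ := by rw [le_div_iff₀ hδ]; linarith
  have hl : 0 ≤ Real.log (1 / δ) := Real.log_nonneg hδ'
  have hn1 : (1 : ℝ) ≤ (n : ℝ) + 1 := by
    have : (0 : ℝ) ≤ n := Nat.cast_nonneg n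
    linarith
  have hL0 : 0 ≤ Real.log ((n : ℝ) + 1) := Real.log_nonneg hn1
  set L : ℝ := 1 + Real.log ((n : ℝ) + 1) with hL
  set Y : ℝ := 1 + 1 / ε + Real.log (1 / δ) with hY
  have hL1 : 1 ≤ L := by linarith
  have hY1 : 1 ≤ Y := by linarith
  have hK0 : (0 : ℝ) ≤ K := Nat.cast_nonneg K
  -- the base
  have hX : (baseX n ⌈1 / ε⌉₊ ⌈1 / δ⌉₊ : ℝ) ≤ 6 * (((n : ℝ) + 1) * Y) := by
    have h4 : (⌈1 / ε⌉₊ : ℝ) ≤ 1 / ε + 1 := (Nat.ceil_lt_add_one hε'.le).le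
    have h5 : (⌈1 / δ⌉₊ : ℝ) ≤ 2 * (1 / δ) := by
      have := (Nat.ceil_lt_add_one (show (0 : ℝ) ≤ 1 / δ by positivity)).le
      linarith
    have h6 := size_le_log h5 (by linarith)
    have h7 : Real.log (2 * (1 / δ)) = Real.log 2 + Real.log (1 / δ) :=
      Real.log_mul (by norm_num) (by positivity)
    have h8 : Real.log 2 < 0.7 := by have := Real.log_two_lt_d9; linarith
    unfold baseX
    push_cast
    rw [h7] at h6
    have h9 : (n : ℝ) * 1 ≤ n * Y := mul_le_mul_of_nonneg_left hY1 (Nat.cast_nonneg n)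
    nlinarith
  have hsz : ((Nat.size n + 1 : ℕ) : ℝ) ≤ 2 * L := by
    have h6 := size_le_log (N := n) (y := (n : ℝ) + 1) (by linarith) hn1
    push_cast
    rw [hL]
    linarith
  have e1 : (K : ℝ) ≤ Real.exp (K * L) := by
    have h1 := Real.add_one_le_exp ((K : ℝ) * L)
    nlinarith
  have e2 : ((baseX n ⌈1 / ε⌉₊ ⌈1 / δ⌉₊ : ℝ)) ^ K ≤ Real.exp (2 * (K * L)) * Y ^ K := by
    have h6 : (6 : ℝ) ≤ Real.exp 2 := by
      have h1 := Real.exp_one_gt_d9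
      have h2 : Real.exp 2 = Real.exp 1 * Real.exp 1 := by rw [← Real.exp_add]; norm_num
      rw [h2]
      nlinarith
    have h7 : (n : ℝ) + 1 = Real.exp (Real.log ((n : ℝ) + 1)) := (Real.exp_log (by linarith)).symm
    have h8 : (baseX n ⌈1 / ε⌉₊ ⌈1 / δ⌉₊ : ℝ) ≤ Real.exp (2 * L) * Y := by
      refine hX.trans ?_
      rw [← mul_assoc]
      refine mul_le_mul_of_nonneg_right ?_ (by linarith)
      calc 6 * ((n : ℝ) + 1) ≤ Real.exp 2 * Real.exp (Real.log ((n : ℝ) + 1)) := by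
            rw [← h7]
            exact mul_le_mul_of_nonneg_right h6 (by linarith)
        _ = Real.exp (2 + Real.log ((n : ℝ) + 1)) := (Real.exp_add _ _).symm
        _ ≤ Real.exp (2 * L) := Real.exp_le_exp.2 (by rw [hL]; linarith)
    calc ((baseX n ⌈1 / ε⌉₊ ⌈1 / δ⌉₊ : ℝ)) ^ K ≤ (Real.exp (2 * L) * Y) ^ K :=
          pow_le_pow_left₀ (Nat.cast_nonneg _) h8 K
      _ = Real.exp (2 * (K * L)) * Y ^ K := by
          rw [mul_pow, ← Real.exp_nat_mul]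
          congr 2
          ring
  have e3 : (2 : ℝ) ^ (K * (Nat.size n + 1) ^ K) ≤ Real.exp (K * 2 ^ K * L ^ K) := by
    have h1 : (2 : ℝ) ≤ Real.exp 1 := by
      have := Real.exp_one_gt_d9
      linarith
    calc (2 : ℝ) ^ (K * (Nat.size n + 1) ^ K) ≤ Real.exp 1 ^ (K * (Nat.size n + 1) ^ K) :=
          pow_le_pow_left₀ (by norm_num) h1 _
      _ = Real.exp (((K * (Nat.size n + 1) ^ K : ℕ) : ℝ) * 1) := (Real.exp_nat_mul _ _).symm
      _ ≤ Real.exp (K * 2 ^ K * L ^ K) := by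
          refine Real.exp_le_exp.2 ?_
          rw [mul_one]
          have h2 : (((Nat.size n + 1 : ℕ) : ℝ)) ^ K ≤ (2 * L) ^ K :=
            pow_le_pow_left₀ (Nat.cast_nonneg _) hsz K
          rw [mul_pow] at h2
          rw [Nat.cast_mul, Nat.cast_pow, mul_assoc]
          exact mul_le_mul_of_nonneg_left h2 hK0
  have h3 : (t : ℝ) ≤ K * ((baseX n ⌈1 / ε⌉₊ ⌈1 / δ⌉₊ : ℝ)) ^ K *
      2 ^ (K * (Nat.size n + 1) ^ K) := by exact_mod_cast h
  have hYK : 0 ≤ Y ^ K := by positivity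
  have hkK : K ≤ kOf K := by unfold kOf; omega
  have hexp : (K : ℝ) * L + 2 * (K * L) + K * 2 ^ K * L ^ K ≤ (kOf K : ℕ) * L ^ kOf K := by
    have h5 : L ^ K ≤ L ^ kOf K := pow_le_pow_right₀ hL1 hkK
    have h6 : (K : ℝ) * L ≤ K * L ^ kOf K := by
      rcases Nat.eq_zero_or_pos K with h0 | h0
      · simp [h0]
      · refine mul_le_mul_of_nonneg_left ?_ hK0
        calc L = L ^ 1 := (pow_one L).symm
          _ ≤ L ^ kOf K := pow_le_pow_right₀ hL1 (by unfold kOf; omega)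
    have h7 : (K : ℝ) * 2 ^ K * L ^ K ≤ K * 2 ^ K * L ^ kOf K :=
      mul_le_mul_of_nonneg_left h5 (by positivity)
    have h8 : ((kOf K : ℕ) : ℝ) = 3 * K + K * 2 ^ K := by unfold kOf; push_cast; ring
    rw [h8]
    nlinarith
  calc (t : ℝ) ≤ K * ((baseX n ⌈1 / ε⌉₊ ⌈1 / δ⌉₊ : ℝ)) ^ K * 2 ^ (K * (Nat.size n + 1) ^ K) := h3
    _ ≤ Real.exp (K * L) * (Real.exp (2 * (K * L)) * Y ^ K) * Real.exp (K * 2 ^ K * L ^ K) := by
        refine mul_le_mul (mul_le_mul e1 e2 (by positivity) (Real.exp_pos _).le) e3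
          (by positivity) (by positivity)
    _ = Real.exp (K * L + 2 * (K * L) + K * 2 ^ K * L ^ K) * Y ^ K := by
        rw [Real.exp_add, Real.exp_add]
        ring
    _ ≤ Real.exp ((kOf K : ℕ) * L ^ kOf K) * Y ^ kOf K := by
        refine mul_le_mul (Real.exp_le_exp.2 hexp) (pow_le_pow_right₀ hY1 hkK) hYK
          (Real.exp_pos _).le

theorem qpras_of {law : ∀ n : ℕ, SimpleGraph (Fin n) → ℕ → ℕ → PMF (ℤ × ℤ)} {prog : Cmd}
    (hM : MainOK law prog) (hN : NativeOK law) : IsQPRAS prog := by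
  obtain ⟨K, hK⟩ := hM
  refine ⟨kOf K, ?_⟩
  intro n G ε δ hε hε1 hδ hδ1
  have hε' : 0 < 1 / ε := by positivity
  have hδ' : (1 : ℝ) ≤ 1 / δ := by rw [le_div_iff₀ hδ]; linarith
  have ha : 1 ≤ ⌈1 / ε⌉₊ := Nat.one_le_ceil_iff.2 hε'
  have hb : 1 ≤ ⌈1 / δ⌉₊ := Nat.one_le_ceil_iff.2 (by linarith)
  obtain ⟨h1, h2⟩ := hK n G ⌈1 / ε⌉₊ ⌈1 / δ⌉₊ ha hb
  constructor
  · intro s hs
    exact time_le hε hδ hδ1 (h2 s hs)
  · have hinv : 1 / (⌈1 / ε⌉₊ : ℝ) ≤ ε := by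
      have h3 : 1 / ε ≤ ⌈1 / ε⌉₊ := Nat.le_ceil _
      rw [div_le_iff₀ (by exact_mod_cast ha)]
      rw [div_le_iff₀ hε] at h3
      linarith
    have hinvD : 1 / (⌈1 / δ⌉₊ : ℝ) ≤ δ := by
      have h3 : 1 / δ ≤ ⌈1 / δ⌉₊ := Nat.le_ceil _
      rw [div_le_iff₀ (by exact_mod_cast hb)]
      rw [div_le_iff₀ hδ] at h3
      linarith
    have h3 := hN n G ⌈1 / ε⌉₊ ⌈1 / δ⌉₊ ha hb
    rw [← h1, PMF.toOuterMeasure_map_apply] at h3
    refine le_trans (ENNReal.ofReal_le_ofReal (by linarith)) (h3.trans ?_)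
    refine (PMF.toOuterMeasure _).mono ?_
    intro s hs
    simp only [Set.mem_preimage, goodE, outOf, Set.mem_ofPred_eq] at hs
    simp only [Set.mem_ofPred_eq, output]
    have hZ0 : (0 : ℝ) ≤ (numPerfect G : ℝ) := Nat.cast_nonneg _
    refine ⟨le_trans ?_ hs.1, hs.2.trans ?_⟩
    · exact mul_le_mul_of_nonneg_right (by linarith) hZ0
    · exact mul_le_mul_of_nonneg_right (by linarith) hZ0

end Vale.Agent.P308RAM
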