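import Vale.Agent.P308RAM.PassC

/-!
# The program for the counters of a round
-/

namespace Vale.Agent.P308RAM

open Vale.Agent.P328RAM Vale.Agent.P308Q PMF

variable {W Λ n : ℕ}

theorem countC_det {M : Mem} {k : ℕ} {e : ℕ × ℕ} (hn : M 0 0 0 = n) (hv : IsV n 5 M)
    (h33 : M 33 0 0 = e.1) (h34 : M 34 0 0 = e.2) (he : e.1 < n + 2) (hc : CntOK n k M)
    (hk : k + 1 ≤ W) :
    Det W Λ countC M (fun M' => CntOK n (k + 1) M' ∧ cntOf n M' = cntU e (obs n 5 M) (cntOf n M) ∧
      Same [10, 11] M M') := by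
  obtain ⟨⟨c1, c2⟩, c3⟩ := hc
  have hα : M 5 (n : ℤ) 0 = ((obs n 5 M (vα n) : ℕ) : ℤ) := by
    have := hv.cell (vα n)
    simpa [vα] using this
  have he1 : M 5 (e.1 : ℤ) 0 = ((obs n 5 M ⟨e.1, he⟩ : ℕ) : ℤ) := hv.cell ⟨e.1, he⟩
  generalize hB : obs n 5 M = B at hα he1 ⊢
  have hkW' : ((k : ℤ) + 1) ≤ W := by exact_mod_cast hk
  have ev : (Expr.sub (.sub (.lit 1) (sqd (.at1 5 en) (.add en (.lit 1))))
      (sqd (.at1 5 (.v 33)) (.v 34))).val M =
      1 - (((B (vα n) : ℕ) : ℤ) - ((n : ℤ) + 1)) * (((B (vα n) : ℕ) : ℤ) - ((n : ℤ) + 1)) -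
        (((B ⟨e.1, he⟩ : ℕ) : ℤ) - (e.2 : ℤ)) * (((B ⟨e.1, he⟩ : ℕ) : ℤ) - (e.2 : ℤ)) := by
    simp only [Expr.val, hn, h33, h34, hα, he1]
  have hcond : (B (vα n) = vβ n ∧
      (∃ u : Fin (n + 2), (u : ℕ) = e.1 ∧ ((B u : Fin (n + 2)) : ℕ) = e.2)) ↔
      0 < (Expr.sub (.sub (.lit 1) (sqd (.at1 5 en) (.add en (.lit 1))))
      (sqd (.at1 5 (.v 33)) (.v 34))).val M := by
    rw [ev]
    constructor
    · rintro ⟨g1, u, hu, g2⟩
      obtain rfl : u = ⟨e.1, he⟩ := Fin.ext hu
      have e1 : ((B (vα n) : ℕ) : ℤ) = (n : ℤ) + 1 := by rw [g1]; simp [vβ]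
      rw [e1, g2]
      simp
    · intro g
      obtain ⟨x, hx⟩ : ∃ x : ℤ, x = ((B (vα n) : ℕ) : ℤ) - ((n : ℤ) + 1) := ⟨_, rfl⟩
      obtain ⟨y, hy⟩ : ∃ y : ℤ, y = ((B ⟨e.1, he⟩ : ℕ) : ℤ) - (e.2 : ℤ) := ⟨_, rfl⟩
      rw [← hx, ← hy] at g
      have k1 : x = 0 := by
        by_contra h
        have := mul_self_nonneg y
        have := mul_self_pos.2 h
        omega
      have k2 : y = 0 := by
        by_contra h
        have := mul_self_nonneg x
        have := mul_self_pos.2 h
        omega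
      refine ⟨?_, ⟨e.1, he⟩, rfl, ?_⟩
      · apply Fin.ext
        show ((B (vα n) : ℕ)) = n + 1
        omega
      · omega
  unfold countC
  -- the counter `11`
  refine Det.seq (R := fun M' => (M' 11 0 0).toNat = cntU e B (cntOf n M) none ∧
    (0 ≤ M' 11 0 0 ∧ M' 11 0 0 ≤ ((k + 1 : ℕ) : ℤ)) ∧ Same [11] M M') ?_ ?_
  · refine Det.when (fun h => ?_) (fun h => ?_)
    · refine Det.setv ?_ ?_
      · simp only [Expr.val]
        rw [abs_of_nonneg (by omega)]
        omega
      · refine ⟨?_, ?_, (Same.refl _ _).write (by simp) _ _ _⟩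
        · simp only [Expr.val, Mem.write_self, cntU, cntOf]
          rw [if_pos (hcond.2 h)]
          omega
        · simp only [Expr.val, Mem.write_self]
          push_cast
          omega
    · refine ⟨?_, ⟨c1, ?_⟩, Same.refl _ _⟩
      · simp only [cntU, cntOf]
        rw [if_neg fun h' => absurd (hcond.1 h') (by omega)]
      · push_cast
        omega
  rintro M1 ⟨g1, g2, g3⟩
  have v1 : (Expr.at1 5 en).val M1 = ((B (vα n) : ℕ) : ℤ) := by
    simp only [Expr.val]
    rw [g3 0 (by decide), g3 5 (by decide), hn, hα]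
  have v2 : (Expr.add (.at1 10 (.at1 5 en)) (.lit 1)).val M1 =
      M 10 ((B (vα n) : ℕ) : ℤ) 0 + 1 := by
    simp only [Expr.val]
    rw [g3 0 (by decide), g3 5 (by decide), g3 10 (by decide), hn, hα]
  have hc3 := c3 (B (vα n))
  refine Det.set ?_ ?_
  · rw [v2, abs_of_nonneg (by omega)]
    omega
  · rw [v1, v2]
    simp only [Expr.val]
    refine ⟨⟨?_, ?_⟩, ?_, ?_⟩
    · rw [Mem.write_arr _ (by decide)]
      exact g2
    · intro u
      by_cases hu : B (vα n) = u
      · subst hu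
        rw [Mem.write_self]
        push_cast
        omega
      · rw [Mem.write_cell, g3 10 (by decide)]
        · have := c3 u
          push_cast
          omega
        · rintro ⟨h5, -⟩
          apply hu
          apply Fin.ext
          omega
    · funext o
      rcases o with _ | u
      · simp only [cntOf]
        rw [Mem.write_arr _ (by decide), g1]
      · simp only [cntOf, cntU]
        by_cases hu : B (vα n) = u
        · rw [if_pos hu]
          subst hu
          rw [Mem.write_self]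
          omega
        · rw [if_neg hu, Mem.write_cell, g3 10 (by decide)]
          rintro ⟨h5, -⟩
          apply hu
          apply Fin.ext
          omega
    · exact (g3.mono (by decide)).write (by decide) _ _ _

private theorem passL_cntL : ∀ a ∈ passL, a ∈ cntL := fun _ h =>
  List.mem_cons_of_mem _ (List.mem_cons_of_mem _ h)

/-- one pass and the counting -/
private theorem cntC_body {M : Mem} {p : Par} {h : ℕ → Ext n} {m i E k : ℕ} {e : ℕ × ℕ}
    (hne : n % 2 = 0)
    (hE : Env0 n p M) (hB : Bnd W Λ n p E) (hh : HistIs h m M) (hi : i ≤ m) (hiR : i < p.R)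
    (h61 : M 61 0 0 = i) (h33 : M 33 0 0 = e.1) (h34 : M 34 0 0 = e.2) (he : e.1 < n + 2)
    (hb : ∀ j u v, |h j u v| ≤ (E : ℤ)) (hc : CntOK n k M) (hk : k + 1 ≤ W) :
    Sim W Λ (.seq passC countC) M (cntOf n)
      ((passK p h i).map fun B => cntU e B (cntOf n M))
      (fun M' => CntOK n (k + 1) M' ∧ Same cntL M M') := by
  rw [← PMF.bind_pure_comp]
  refine Sim.seq (passC_sim hne hE hB hh hi hiR h61 hb) ?_
  rintro M1 ⟨v1, s1⟩
  have hE1 : Env0 n p M1 := hE.same s1 (by decide)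
  have c1 : CntOK n k M1 := by
    unfold CntOK
    rw [s1 11 (by decide), s1 10 (by decide)]
    exact hc
  have e11 : cntOf n M1 = cntOf n M := by
    unfold cntOf
    rw [s1 11 (by decide), s1 10 (by decide)]
  have key := countC_det (W := W) (Λ := Λ) (n := n) (M := M1) (k := k) (e := e) hE1.hn v1
    (by rw [s1 33 (by decide)]; exact h33) (by rw [s1 34 (by decide)]; exact h34) he c1 hk
  refine (key.sim (f := cntOf n) (x := cntU e (obs n 5 M1) (cntOf n M)) ?_).mono ?_
  · rintro M' ⟨g1, g2, g3⟩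
    rw [g2, e11]
  · rintro M' ⟨g1, g2, g3⟩
    exact ⟨g1, (s1.mono passL_cntL).trans (g3.mono (by decide))⟩

theorem cntC_sim {M : Mem} {p : Par} {h : ℕ → Ext n} {m i E : ℕ} {e : ℕ × ℕ} (hne : n % 2 = 0)
    (hE : Env0 n p M) (hB : Bnd W Λ n p E) (hh : HistIs h m M) (hi : i ≤ m) (hiR : i < p.R)
    (h61 : M 61 0 0 = i) (h33 : M 33 0 0 = e.1) (h34 : M 34 0 0 = e.2) (he : e.1 < n + 2)
    (hb : ∀ j u v, |h j u v| ≤ (E : ℤ)) :
    Sim W Λ cntC M (cntOf n) (cntK p e h i) (fun M' => CntOK n p.S M' ∧ Same cntL M M') := by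
  have hnW := hB.nW
  have hnΛ := hB.nΛ
  unfold cntC
  refine Det.seqSim (R := fun M' => M' = M.write 11 0 0 0) (Det.setv (by simp [Expr.val])
    (by simp only [Expr.val])) ?_
  rintro M1 rfl
  have S1 : Same [11] M (M.write 11 0 0 0) := (Same.refl _ _).write (by simp) _ _ _
  have hz := Det.arr1 (W := W) (Λ := Λ) (M := M.write 11 0 0 0) (A := 10) (i := 48)
    (en := .v 12) (e := .lit 0) (n + 2) (fun _ => 0) (by decide) hnΛ hnW (by simp)
    (by
      intro M' hM'
      simp only [Expr.val]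
      rw [hM' 12 (by decide), S1 12 (by decide), hE.hN]
      omega) (by simp [Expr.val])
  refine Det.seqSim hz ?_
  rintro M2 ⟨z1, -, s2⟩
  have S2 : Same [11, 10, 48] M M2 :=
    (S1.mono (by decide)).trans (s2.mono (by decide))
  have z11 : M2 11 0 0 = 0 := by
    rw [s2 11 (by decide), Mem.write_self]
  have c2 : cntOf n M2 = fun _ => 0 := by
    funext o
    rcases o with _ | u
    · simp [cntOf, z11]
    · simp only [cntOf]
      rw [z1 u u.isLt]
      rfl
  have k2 : CntOK n 0 M2 := by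
    refine ⟨by rw [z11]; simp, fun u => ?_⟩
    rw [z1 u u.isLt]
    simp
  have hE2 : Env0 n p M2 := hE.same S2 (by decide)
  unfold cntK
  rw [← c2]
  refine (Sim.rep (f := cntOf n) (fun c => (passK p h i).map fun B => cntU e B c)
    (fun k M' => CntOK n k M' ∧ Same cntL M2 M') p.S ?_ hB.SΛ
    ⟨k2, Same.refl _ _⟩ ?_ (fun M' h => h)).mono ?_
  · simp only [Expr.val]
    rw [hE2.hS, Int.toNat_natCast]
  · rintro k hk M' ⟨g1, g2⟩
    have hSW := hB.SW
    refine (cntC_body (k := k) hne (hE2.same g2 (by decide)) hB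
      (hh.congr (by rw [g2 8 (by decide), S2 8 (by decide)])) hi hiR
      (by rw [g2 61 (by decide), S2 61 (by decide)]; exact h61)
      (by rw [g2 33 (by decide), S2 33 (by decide)]; exact h33)
      (by rw [g2 34 (by decide), S2 34 (by decide)]; exact h34) he hb g1 (by omega)).mono ?_
    rintro M'' ⟨q1, q2⟩
    exact ⟨q1, g2.trans q2⟩
  · rintro M' ⟨q1, q2⟩
    exact ⟨q1, (S2.mono (by decide)).trans q2⟩

end Vale.Agent.P308RAM
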