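import Vale.Agent.P308RAM.SclC

/-!
# The programs for the initial state and the output
-/

namespace Vale.Agent.P308RAM

open Vale.Agent.P328RAM Vale.Agent.P308Q PMF

variable {W Λ n : ℕ}

theorem ini_a0_abs (L u v : ℕ) : |a0 L u v| ≤ (L : ℤ) := by
  unfold a0
  split_ifs
  · simp
  · rw [abs_neg, abs_of_nonneg (by positivity)]

theorem ini_scl_abs (L : ℕ) (u v : Fin (n + 2)) :
    |scl n (a0 L) (fun _ => 0) u v| ≤ (L : ℤ) := by
  unfold scl
  split_ifs
  · simpa using ini_a0_abs L u v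
  · simp

/-- the initial edge exponents -/
theorem ini_a_det {M : Mem} {p : Par} {E : ℕ} (hE : Env0 n p M) (hB : Bnd W Λ n p E) :
    Det W Λ (.for2 40 41 en en (.ite (sqd (.div (.v 40) (.lit 2)) (.div (.v 41) (.lit 2)))
      (.set 4 (.v 40) (.v 41) (.sub (.lit 0) (.v 32))) (.set 4 (.v 40) (.v 41) (.lit 0)))) M
      (fun M' => (∀ u v : ℕ, u < n → v < n → M' 4 u v = a0 p.L u v) ∧ Same [4, 40, 41] M M') := by
  have hnΛ := hB.nΛ
  have hnW := hB.nW
  have hLW := hB.LW
  refine (Det.for2 n n (fun k l M' => (∀ u v : ℕ, u < n → v < n → (u < k ∨ (u = k ∧ v < l)) →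
      M' 4 u v = a0 p.L u v) ∧ Same [4, 40, 41] M M') (by norm_num) (by decide) (by decide)
      (by omega) (by omega) (by omega) (by omega) ?_ ?_ ?_ ?_ ?_ ?_ ?_).mono ?_
  · rintro M' ⟨-, g⟩
    show (M' 0 0 0).toNat = n
    rw [g 0 (by decide), hE.hn]
    exact Int.toNat_natCast _
  · rintro k hk M' ⟨-, g⟩
    show (M' 0 0 0).toNat = n
    rw [g 0 (by decide), hE.hn]
    exact Int.toNat_natCast _
  · rintro k l M' z ⟨g1, g2⟩
    refine ⟨fun u v hu hv h => ?_, g2.write (by simp) _ _ _⟩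
    rw [Mem.write_arr _ (by norm_num)]
    exact g1 u v hu hv h
  · rintro k l M' z ⟨g1, g2⟩
    refine ⟨fun u v hu hv h => ?_, g2.write (by simp) _ _ _⟩
    rw [Mem.write_arr _ (by norm_num)]
    exact g1 u v hu hv h
  · exact ⟨fun u v hu hv h => by omega, Same.refl _ _⟩
  · rintro k hk M' ⟨g1, g2⟩
    exact ⟨fun u v hu hv h => g1 u v hu hv (by omega), g2⟩
  · rintro k hk l hl M' h40 h41 ⟨g1, g2⟩
    have ev : (sqd (.div (.v 40) (.lit 2)) (.div (.v 41) (.lit 2))).val M' =
        (((k / 2 : ℕ) : ℤ) - ((l / 2 : ℕ) : ℤ)) * (((k / 2 : ℕ) : ℤ) - ((l / 2 : ℕ) : ℤ)) := by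
      show (M' 40 0 0 / 2 - M' 41 0 0 / 2) * (M' 40 0 0 / 2 - M' 41 0 0 / 2) = _
      rw [h40, h41]
      push_cast
      rfl
    have e40 : (Expr.v 40).val M' = (k : ℤ) := h40
    have e41 : (Expr.v 41).val M' = (l : ℤ) := h41
    have key : ∀ z : ℤ, z = a0 p.L k l → (∀ u v : ℕ, u < n → v < n →
        (u < k ∨ (u = k ∧ v < l + 1)) → (M'.write 4 (k : ℤ) (l : ℤ) z) 4 u v = a0 p.L u v) ∧
        Same [4, 40, 41] M (M'.write 4 (k : ℤ) (l : ℤ) z) := by
      intro z hz
      refine ⟨fun u v hu hv h => ?_, g2.write (by simp) _ _ _⟩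
      by_cases hc : u = k ∧ v = l
      · obtain ⟨rfl, rfl⟩ := hc
        rw [Mem.write_self]
        exact hz
      · rw [Mem.write_cell]
        · exact g1 u v hu hv (by omega)
        · rintro ⟨c1, c2⟩
          exact hc ⟨by exact_mod_cast c1, by exact_mod_cast c2⟩
    refine Det.ite (fun h => ?_) fun h => ?_
    · rw [ev] at h
      have hne : k / 2 ≠ l / 2 := by
        intro hc
        rw [hc] at h
        simp at h
      have e32 : (Expr.sub (.lit 0) (.v 32)).val M' = -(p.L : ℤ) := by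
        show 0 - M' 32 0 0 = _
        rw [g2 32 (by decide), hE.hL]
        ring
      refine Det.set ?_ ?_
      · rw [e32, abs_neg, abs_of_nonneg (by positivity)]
        exact_mod_cast hLW
      · rw [e32, e40, e41]
        exact key _ (by unfold a0; rw [if_neg hne])
    · rw [ev] at h
      have heq : k / 2 = l / 2 := by
        by_contra hc
        have h1 : ((k / 2 : ℕ) : ℤ) - ((l / 2 : ℕ) : ℤ) ≠ 0 := by
          intro h2
          exact hc (by exact_mod_cast (sub_eq_zero.1 h2))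
        have h2 := mul_self_pos.2 h1
        omega
      refine Det.set (by simp [Expr.val]) ?_
      rw [e40, e41]
      exact key _ (by unfold a0; rw [if_pos heq]; rfl)
  · rintro M' ⟨g1, g2⟩
    exact ⟨fun u v hu hv => g1 u v hu hv (Or.inl hu), g2⟩

/-- the history after `k` stages of the initialization -/
def iniH (n L : ℕ) (M : Mem) (k : ℕ) : ℕ → Ext n := fun j =>
  if j < k then scl n (a0 L) (fun _ => 0) else
    fun u v => M 8 ((j : ℤ) * ((n : ℤ) + 2) + ((u : ℕ) : ℤ)) ((v : ℕ) : ℤ)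

theorem iniH_lt {L : ℕ} {M : Mem} {k j : ℕ} (h : j < k) :
    iniH n L M k j = scl n (a0 L) (fun _ => 0) := if_pos h

theorem iniH_ge {L : ℕ} {M : Mem} {k j : ℕ} (h : ¬ j < k) :
    iniH n L M k j = fun u v : Fin (n + 2) =>
      M 8 ((j : ℤ) * ((n : ℤ) + 2) + ((u : ℕ) : ℤ)) ((v : ℕ) : ℤ) :=
  if_neg h

/-- the initial history -/
theorem ini_hist_det {M : Mem} {p : Par} {E : ℕ} (hE : Env0 n p M) (hB : Bnd W Λ n p E)
    (ha : ∀ u v : ℕ, u < n → v < n → M 4 u v = a0 p.L u v) (h7 : ∀ i j, M 7 i j = 0) :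
    Det W Λ (.forL 60 (.add (.v 23) (.lit 1)) (sclC (.v 60))) M
      (fun M' => HistIs (fun _ => scl n (a0 p.L) (fun _ => 0)) p.R M' ∧
        Same [8, 40, 41, 60] M M') := by
  have hnΛ := hB.nΛ
  have hnW := hB.nW
  have hLW := hB.LW
  have hRΛ := hB.RΛ
  have hRW := hB.RW
  refine Det.forL (fun k M' => HistIs (iniH n p.L M k) p.R M' ∧
      Same [8, 40, 41, 60] M M') (p.R + 1) ?_ hRΛ hRW (by decide) ?_ ?_ ?_ ?_
  · show ((M.write 60 0 0 0) 23 0 0 + 1).toNat = p.R + 1
    rw [Mem.write_arr _ (by norm_num), hE.hR]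
    omega
  · rintro k M' z ⟨g1, g2⟩
    exact ⟨g1.congr (Mem.write_arr _ (by norm_num) _ _ _), g2.write (by simp) _ _ _⟩
  · refine ⟨?_, Same.refl _ _⟩
    intro j hj u v
    rw [iniH_ge (Nat.not_lt_zero j)]
  · rintro k hk M' h60 ⟨g1, g2⟩
    refine (sclC_det (W := W) (Λ := Λ) (M := M') (m := p.R) (j := k) (je := .v 60) (a := a0 p.L)
      (y := fun _ => 0) ?_ ?_ (by omega) g1 ?_ ?_ ?_ hnΛ hnW ?_).mono ?_
    · rw [g2 0 (by decide)]
      exact hE.hn
    · rw [g2 12 (by decide)]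
      exact hE.hN
    · intro M2 hM2
      show M2 60 0 0 = (k : ℤ)
      rw [hM2 60 (by decide)]
      exact h60
    · intro u v hu hv
      rw [g2 4 (by decide)]
      exact ha u v hu hv
    · intro u hu
      rw [g2 7 (by decide)]
      exact h7 _ _
    · intro u v
      refine (ini_scl_abs p.L u v).trans ?_
      exact_mod_cast hLW
    · rintro M2 ⟨f1, f2⟩
      refine ⟨?_, g2.trans (f2.mono (by decide))⟩
      intro j hj u v
      rw [f1 j hj u v]
      by_cases hjk : j = k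
      · subst hjk
        rw [Function.update_self, iniH_lt (Nat.lt_succ_self j)]
      · rw [Function.update_of_ne hjk]
        by_cases hlt : j < k
        · have hlt' : j < k + 1 := by omega
          rw [iniH_lt hlt, iniH_lt hlt']
        · have hlt' : ¬ j < k + 1 := by omega
          rw [iniH_ge hlt, iniH_ge hlt']
  · rintro M' - ⟨g1, g2⟩
    refine ⟨?_, g2⟩
    intro j hj u v
    have hlt' : j < p.R + 1 := by omega
    rw [g1 j hj u v, iniH_lt hlt']

theorem initC_det {M : Mem} {p : Par} {E : ℕ} (hE : Env0 n p M) (hB : Bnd W Λ n p E)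
    (hEE : p.L + 3 * p.R ≤ E) (h7 : ∀ i j, M 7 i j = 0) (h37 : M 37 0 0 = 0) :
    Det W Λ initC M (fun M' => obsA n p M' = init n p.L ∧ AlB p 0 (obsA n p M') ∧ NN0 M' ∧
      Same [4, 8, 35, 36, 40, 41, 60] M M') := by
  have hnW := hB.nW
  have hW1 : (1 : ℤ) ≤ W := by
    have : 1 ≤ W := by omega
    exact_mod_cast this
  unfold initC
  refine Det.seq (ini_a_det hE hB) ?_
  rintro M1 ⟨a1, a2⟩
  refine Det.seq (R := fun M' => M' = M1.write 35 0 0 1) (Det.setv (by simpa [Expr.val] using hW1)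
    rfl) ?_
  rintro M2 hM2
  refine Det.seq (R := fun M' => M' = M2.write 36 0 0 1) (Det.setv (by simpa [Expr.val] using hW1)
    rfl) ?_
  rintro M3 hM3
  have s3 : Same [4, 35, 36, 40, 41] M M3 := by
    rw [hM3, hM2]
    exact (((a2.mono (by decide)).write (by simp) _ _ _).write (by simp) _ _ _)
  have a3 : ∀ u v : ℕ, u < n → v < n → M3 4 u v = a0 p.L u v := by
    intro u v hu hv
    rw [hM3, hM2, Mem.write_arr _ (by norm_num), Mem.write_arr _ (by norm_num)]
    exact a1 u v hu hv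
  have b35 : M3 35 0 0 = 1 := by
    rw [hM3, hM2, Mem.write_arr _ (by norm_num), Mem.write_self]
  have b36 : M3 36 0 0 = 1 := by
    rw [hM3, Mem.write_self]
  refine (ini_hist_det (hE.same s3 (by decide)) hB a3 ?_).mono ?_
  · intro i j
    rw [s3 7 (by decide)]
    exact h7 i j
  rintro M4 ⟨f1, f2⟩
  have s4 : Same [4, 8, 35, 36, 40, 41, 60] M M4 :=
    (s3.mono (by decide)).trans (f2.mono (by decide))
  have c35 : M4 35 0 0 = 1 := by
    rw [f2 35 (by decide)]
    exact b35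
  have c36 : M4 36 0 0 = 1 := by
    rw [f2 36 (by decide)]
    exact b36
  have c37 : M4 37 0 0 = 0 := by
    rw [s4 37 (by decide)]
    exact h37
  have hobs : obsA n p M4 = init n p.L := by
    unfold obsA init
    congr 1
    · funext j
      by_cases hj : j ≤ p.R
      · rw [if_pos hj]
        funext u v
        exact f1 j hj u v
      · rw [if_neg hj]
    · funext u v
      by_cases huv : u < n ∧ v < n
      · rw [if_pos huv, f2 4 (by decide)]
        exact a3 u v huv.1 huv.2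
      · rw [if_neg huv]
    · funext u
      by_cases hu : u < n
      · rw [if_pos hu, s4 7 (by decide)]
        exact h7 _ _
      · rw [if_neg hu]
    · rw [c37]
      rfl
    · rw [c35]
      rfl
    · rw [c36]
      rfl
  refine ⟨hobs, ?_, ⟨?_, ?_, ?_⟩, s4⟩
  · rw [hobs]
    refine ⟨fun j u v => ?_, fun u v => ?_, fun u => ?_, ?_, ?_, ?_⟩
    · refine (ini_scl_abs p.L u v).trans ?_
      exact_mod_cast (by omega : p.L ≤ p.L + 3 * p.R)
    · refine (ini_a0_abs p.L u v).trans ?_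
      exact_mod_cast (by omega : p.L ≤ p.L + 0)
    · simp [init]
    · simp [init]
    · simp [init]
    · simp [init]
  · rw [c37]
  · rw [c35]
    norm_num
  · rw [c36]
    norm_num

theorem outC_det {M : Mem} {p : Par} (hW : 1 ≤ W) (h0 : NN0 M) :
    Det W Λ outC M (fun M' => (M' 3 0 0, M' 3 1 0) = outV (obsA n p M)) := by
  have hW1 : (1 : ℤ) ≤ W := by exact_mod_cast hW
  have hnum : (((obsA n p M).num : ℕ) : ℤ) = M 35 0 0 := Int.toNat_of_nonneg h0.num
  have hden : (((obsA n p M).den : ℕ) : ℤ) = M 36 0 0 := Int.toNat_of_nonneg h0.den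
  have ev : (Expr.sub (.v 36) (.mul (.lit 2) (.v 35))).val M = M 36 0 0 - 2 * M 35 0 0 := rfl
  refine Det.bdd fun hM => ?_
  unfold outC
  refine Det.ite (fun h => ?_) fun h => ?_
  · rw [ev] at h
    have hlt : 2 * (obsA n p M).num < (obsA n p M).den := by omega
    refine Det.seq (R := fun M' => M' 3 0 0 = 0) (Det.set (by simp [Expr.val]) ?_) ?_
    · show (M.write 3 0 0 0) 3 0 0 = 0
      rw [Mem.write_self]
    rintro M1 h1
    refine Det.set (by simpa [Expr.val] using hW1) ?_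
    show ((M1.write 3 1 0 1) 3 0 0, (M1.write 3 1 0 1) 3 1 0) = _
    unfold outV
    rw [if_pos hlt, Mem.write_self, Mem.write_cell _ _ (by norm_num), h1]
  · rw [ev] at h
    have hlt : ¬ 2 * (obsA n p M).num < (obsA n p M).den := by omega
    refine Det.seq (R := fun M' => M' 3 0 0 = M 35 0 0 ∧ M' 36 0 0 = M 36 0 0)
      (Det.set (hM 35 0 0) ⟨?_, ?_⟩) ?_
    · show (M.write 3 0 0 (M 35 0 0)) 3 0 0 = _
      rw [Mem.write_self]
    · show (M.write 3 0 0 (M 35 0 0)) 36 0 0 = _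
      rw [Mem.write_arr _ (by norm_num)]
    rintro M1 ⟨h1, h2⟩
    refine Det.set ?_ ?_
    · show |M1 36 0 0| ≤ (W : ℤ)
      rw [h2]
      exact hM 36 0 0
    · show ((M1.write 3 1 0 (M1 36 0 0)) 3 0 0, (M1.write 3 1 0 (M1 36 0 0)) 3 1 0) = _
      unfold outV
      rw [if_neg hlt, Mem.write_self, Mem.write_cell _ _ (by norm_num), h1, h2, hnum, hden]

end Vale.Agent.P308RAM
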