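import Vale.Agent.P308RAM.RoundC

/-!
# The program for all rounds
-/

namespace Vale.Agent.P308RAM

open Vale.Agent.P328RAM Vale.Agent.P308Q PMF

variable {W Λ n : ℕ}

theorem mainC_sim {M : Mem} {p : Par} {G : SimpleGraph (Fin n)} {E : ℕ} (hne : n % 2 = 0)
    (hE : Env0 n p M) (hB : Bnd W Λ n p E) (hG : AdjIs G M) (hS : 1 ≤ p.S)
    (hEE : p.L + 3 * p.R ≤ E) (hW : (4 * p.S) ^ p.R ≤ W)
    (hA : AlB p 0 (obsA n p M)) (h0 : NN0 M) :
    Sim W Λ mainC M (obsA n p) (seqBind (fun i => roundK p G i) p.R (obsA n p M))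
      (fun M' => AlB p p.R (obsA n p M') ∧ NN0 M') := by
  have hRΛ := hB.RΛ
  have hRW := hB.RW
  have q61 : (61 : ℕ) ∉ roundL := by decide
  have hwr : ∀ (M' : Mem) (z : ℤ), obsA n p (M'.write 61 0 0 z) = obsA n p M' := fun M' z =>
    rnd_obsA (Mem.write_arr _ (by norm_num) _ _ _) (Mem.write_arr _ (by norm_num) _ _ _)
      (Mem.write_arr _ (by norm_num) _ _ _) (Mem.write_arr _ (by norm_num) _ _ _)
      (Mem.write_arr _ (by norm_num) _ _ _) (Mem.write_arr _ (by norm_num) _ _ _)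
  unfold mainC
  refine Sim.forL (fun i => roundK p G i)
    (fun i M' => AlB p i (obsA n p M') ∧ NN0 M' ∧ Same (61 :: roundL) M M') p.R ?_ (by omega)
    (by omega) (fun h => q61 (roundC_Wr _ h)) hwr ?_ ⟨hA, h0, Same.refl _ _⟩ ?_
    (fun M' _ h => ⟨h.1, h.2.1⟩)
  · show (((M.write 61 0 0 0) 23 0 0)).toNat = p.R
    rw [Mem.write_arr _ (by norm_num), hE.hR]
    exact Int.toNat_natCast _
  · rintro i M' z ⟨g1, g2, g3⟩
    refine ⟨?_, ⟨?_, ?_, ?_⟩, g3.write (by simp) _ _ _⟩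
    · rw [hwr]
      exact g1
    · rw [Mem.write_arr _ (by norm_num)]
      exact g2.q
    · rw [Mem.write_arr _ (by norm_num)]
      exact g2.num
    · rw [Mem.write_arr _ (by norm_num)]
      exact g2.den
  · rintro i hi M' h61 ⟨g1, g2, g3⟩
    have hG' : AdjIs G M' := by
      intro u v
      rw [g3 1 (by decide)]
      exact hG u v
    refine (roundC_sim (E := E) hne (hE.same g3 (by decide)) hB hG' hS hEE hW hi h61 g1
      g2).mono ?_
    rintro M2 ⟨f1, f2, f3⟩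
    exact ⟨f1, f2, g3.trans (f3.mono fun a ha => List.mem_cons_of_mem _ ha)⟩

end Vale.Agent.P308RAM
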