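import Vale.Agent.P308RAM.Spec

/-!
# The program for the parameters
-/

set_option linter.unusedSectionVars false

namespace Vale.Agent.P308RAM

open Vale.Agent.P328RAM Vale.Agent.P308Q PMF

variable {W Λ n : ℕ}

/-- `s := e ^ k` -/
def powC (s : ℕ) (e : Expr) (k : ℕ) : Cmd := .fold s 57 (.lit k) (.lit 1) (.mul (.v s) e)

/-- the constants of the parameters -/
structure Kc where
  /-- constant -/
  k1 : ℕ
  /-- constant -/
  k2 : ℕ
  /-- constant -/
  k3 : ℕ
  /-- constant -/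
  k4 : ℕ
  /-- constant -/
  k5 : ℕ
  /-- constant -/
  k6 : ℕ

/-- the parameters -/
def Kc.par (k : Kc) (n a b : ℕ) : Par := parOf k.k1 k.k2 k.k3 k.k4 k.k5 k.k6 n a b

/-- the parameters -/
def parC (k : Kc) : Cmd :=
  .seq (.setv 52 (.add (.add (.add (.v 0) (.get 0 (.lit 1) (.lit 0)))
    (.size (.get 0 (.lit 2) (.lit 0)))) (.lit 2)))
  (.seq (.setv 12 (.add (.v 0) (.lit 2)))
  (.seq (.setv 13 (.size (.v 12)))
  (.seq (.setv 55 (.mul (.mul (.v 13) (.v 13)) (.mul (.v 13) (.v 13))))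
  (.seq (.setv 56 (.mul (.lit k.k3) (.v 55)))
  (.seq (.fold 53 57 (.v 56) (.lit 1) (.mul (.v 53) (.lit 2)))
  (.seq (.setv 14 (.mul (.lit 12) (.v 13)))
  (.seq (.setv 18 (.add (.mul (.lit k.k1) (.v 55)) (.mul (.lit k.k2) (.size (.v 52)))))
  (.seq (powC 58 (.v 52) k.k4) (.seq (.setv 19 (.mul (.v 53) (.v 58)))
  (.seq (powC 22 (.v 52) k.k5) (.seq (powC 23 (.v 52) k.k6) (.seq (powC 32 (.v 52) 3)
    (.setv 17 (.mul (.lit 2) (.v 23)))))))))))))))

/-- the sum of the constants -/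
def kap (k : Kc) : ℕ := k.k1 + k.k2 + k.k3 + k.k4 + k.k5 + k.k6 + 8

/-- the base of the parameters -/
def bX (n a b : ℕ) : ℕ := n + a + Nat.size b + 2

/-- the quasi-polynomial factor -/
def bY (k3 n : ℕ) : ℕ := 2 ^ (k3 * Nat.size (n + 2) ^ 4)

/-- the bound of all parameters -/
def bZ (k : Kc) (n a b : ℕ) : ℕ := bX n a b ^ kap k * bY k.k3 n

theorem bX_ge (n a b : ℕ) : 2 ≤ bX n a b := by unfold bX; omega

theorem bY_pos (k n : ℕ) : 1 ≤ bY k n := Nat.one_le_two_pow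

theorem size_le_self (n : ℕ) : Nat.size n ≤ n := Nat.size_le.2 (Nat.lt_pow_self (by norm_num))

theorem pow_mul_le_bZ {k : Kc} {n a b j : ℕ} (hj : j ≤ kap k) :
    bX n a b ^ j * bY k.k3 n ≤ bZ k n a b :=
  Nat.mul_le_mul_right _ (Nat.pow_le_pow_right (by have := bX_ge n a b; omega) hj)

theorem pow_le_bZ {k : Kc} {n a b j : ℕ} (hj : j ≤ kap k) : bX n a b ^ j ≤ bZ k n a b :=
  le_trans (Nat.le_mul_of_pos_right _ (bY_pos _ _)) (pow_mul_le_bZ hj)

theorem lit_le_pow {c n a b : ℕ} : c ≤ bX n a b ^ c :=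
  (Nat.lt_pow_self (by have := bX_ge n a b; omega)).le

/-- power of a natural number -/
theorem powC_det {M : Mem} {s : ℕ} {e : Expr} {k : ℕ} (z : ℕ) (hs : s ≠ 57)
    (hk : k ≤ Λ) (hkW : k ≤ W) (hz : 1 ≤ z) (hW : z ^ k ≤ W)
    (he : ∀ M', Same [s, 57] M M' → e.val M' = (z : ℤ)) :
    Det W Λ (powC s e k) M (fun M' => M' s 0 0 = ((z ^ k : ℕ) : ℤ) ∧ Same [s, 57] M M') := by
  have h := Det.pow (W := W) (Λ := Λ) (M := M) (s := s) (i := 57) (en := .lit k) (e := e) k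
    (z : ℤ) hs hk hkW ?_ (by intro M' _; simp [Expr.val]) he
  · refine h.mono ?_
    rintro M' ⟨h1, h2⟩
    exact ⟨by rw [h1]; push_cast; rfl, h2⟩
  · intro j hj
    rw [abs_of_nonneg (by positivity)]
    have : z ^ j ≤ z ^ k := Nat.pow_le_pow_right hz hj
    exact_mod_cast this.trans hW

/-- `s := e` for a natural number -/
theorem setv_det {M : Mem} {s : ℕ} {e : Expr} (v : ℕ) (hv : e.val M = (v : ℤ)) (hW : v ≤ W) :
    Det W Λ (.setv s e) M (fun M' => M' s 0 0 = (v : ℤ) ∧ Same [s] M M') := by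
  refine Det.setv ?_ ?_
  · rw [hv, abs_of_nonneg (by positivity)]
    exact_mod_cast hW
  · rw [hv]
    exact ⟨by simp, (Same.refl _ _).write (by simp) _ _ _⟩

/-- the arrays changed by `parC` -/
def parL : List ℕ := [12, 13, 14, 17, 18, 19, 22, 23, 32, 52, 53, 55, 56, 57, 58]

section Bounds

variable (k : Kc) (n a b : ℕ)

theorem sz_le : Nat.size (n + 2) ≤ bX n a b := by
  have := size_le_self (n + 2)
  unfold bX
  omega

theorem sz4_le : Nat.size (n + 2) ^ 4 ≤ bX n a b ^ 4 := Nat.pow_le_pow_left (sz_le n a b) 4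

theorem H_le : 12 * Nat.size (n + 2) ≤ bX n a b ^ 5 := by
  have h1 := sz_le n a b
  have h2 := bX_ge n a b
  have h3 : 2 ^ 4 ≤ bX n a b ^ 4 := Nat.pow_le_pow_left h2 4
  calc 12 * Nat.size (n + 2) ≤ bX n a b ^ 4 * bX n a b := Nat.mul_le_mul (by omega) h1
    _ = bX n a b ^ 5 := (pow_succ _ _).symm

theorem g_le : k.k1 * Nat.size (n + 2) ^ 4 + k.k2 * Nat.size (bX n a b) ≤
    bX n a b ^ (k.k1 + k.k2 + 5) := by
  have h2 := bX_ge n a b
  have h0 : 0 < bX n a b := by omega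
  have h4 : k.k1 * Nat.size (n + 2) ^ 4 ≤ bX n a b ^ (k.k1 + 4) := by
    rw [pow_add]
    exact Nat.mul_le_mul lit_le_pow (sz4_le n a b)
  have h5 : k.k2 * Nat.size (bX n a b) ≤ bX n a b ^ (k.k2 + 1) := by
    rw [pow_add, pow_one]
    exact Nat.mul_le_mul lit_le_pow (size_le_self _)
  have h6 : bX n a b ^ (k.k1 + 4) ≤ bX n a b ^ (k.k1 + k.k2 + 4) :=
    Nat.pow_le_pow_right h0 (by omega)
  have h7 : bX n a b ^ (k.k2 + 1) ≤ bX n a b ^ (k.k1 + k.k2 + 4) :=
    Nat.pow_le_pow_right h0 (by omega)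
  have h8 : bX n a b ^ (k.k1 + k.k2 + 5) = bX n a b ^ (k.k1 + k.k2 + 4) * bX n a b := pow_succ _ _
  have h9 := Nat.mul_le_mul_left (bX n a b ^ (k.k1 + k.k2 + 4)) h2
  rw [h8]
  omega

theorem k3_le : k.k3 * Nat.size (n + 2) ^ 4 ≤ bZ k n a b := by
  refine le_trans (Nat.lt_two_pow_self).le ?_
  have := pow_mul_le_bZ (k := k) (n := n) (a := a) (b := b) (j := 0) (Nat.zero_le _)
  rw [pow_zero, one_mul] at this
  exact this

end Bounds

theorem parC_det {M : Mem} {k : Kc} {a b : ℕ} (h0 : M 0 0 0 = n) (h1 : M 0 1 0 = a)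
    (h2 : M 0 2 0 = b) (hΛ : bZ k n a b ≤ Λ) (hW : bZ k n a b ≤ W) :
    Det W Λ (parC k) M (fun M' => Env0 n (k.par n a b) M' ∧ Same parL M M') := by
  have hX2 := bX_ge n a b
  have hY1 := bY_pos k.k3 n
  have gs := sz_le n a b
  have gs4 := sz4_le n a b
  have gH := H_le n a b
  have gg := g_le k n a b
  have gk3 := k3_le k n a b
  set X := bX n a b with hX
  set Y := bY k.k3 n with hY
  have hxz : ∀ {j : ℕ}, j ≤ kap k → X ^ j ≤ bZ k n a b := fun hj => pow_le_bZ hj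
  have hxyz : ∀ {j : ℕ}, j ≤ kap k → X ^ j * Y ≤ bZ k n a b := fun hj => pow_mul_le_bZ hj
  have hlit : ∀ {j : ℕ}, j ≤ kap k → j ≤ bZ k n a b := fun hj => lit_le_pow.trans (hxz hj)
  have hn2 : n + 2 ≤ X := by rw [hX]; unfold bX; omega
  have hXZ : X ≤ bZ k n a b := by
    have := hxz (j := 1) (by unfold kap; omega)
    simpa using this
  have hYZ : Y ≤ bZ k n a b := by
    have := hxyz (j := 0) (Nat.zero_le _)
    simpa using this
  -- 52
  refine Det.seq (R := fun M' => M' 52 0 0 = (X : ℤ) ∧ Same [52] M M')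
    (setv_det X ?_ (hXZ.trans hW)) ?_
  · simp only [Expr.val, h0, h1, h2]
    rw [hX]
    unfold bX
    push_cast
    simp
  rintro M1 ⟨a52, s1⟩
  have b0 : M1 0 0 0 = n := by rw [s1 0 (by simp)]; exact h0
  -- 12
  refine Det.seq (R := fun M' => M' 12 0 0 = ((n + 2 : ℕ) : ℤ) ∧ Same [12] M1 M')
    (setv_det _ ?_ ((hn2.trans hXZ).trans hW)) ?_
  · simp only [Expr.val, b0]
    push_cast
    rfl
  rintro M2 ⟨a12, s2⟩
  -- 13
  refine Det.seq (R := fun M' => M' 13 0 0 = ((Nat.size (n + 2) : ℕ) : ℤ) ∧ Same [13] M2 M')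
    (setv_det _ ?_ ((gs.trans hXZ).trans hW)) ?_
  · simp only [Expr.val, a12, Int.natAbs_natCast]
  rintro M3 ⟨a13, s3⟩
  -- 55
  refine Det.seq (R := fun M' => M' 55 0 0 = ((Nat.size (n + 2) ^ 4 : ℕ) : ℤ) ∧ Same [55] M3 M')
    (setv_det _ ?_ ((gs4.trans (hxz (by unfold kap; omega))).trans hW)) ?_
  · simp only [Expr.val, a13]
    push_cast
    ring
  rintro M4 ⟨a55, s4⟩
  have b13 : M4 13 0 0 = ((Nat.size (n + 2) : ℕ) : ℤ) := by rw [s4 13 (by simp)]; exact a13
  -- 56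
  refine Det.seq (R := fun M' => M' 56 0 0 = ((k.k3 * Nat.size (n + 2) ^ 4 : ℕ) : ℤ) ∧
    Same [56] M4 M') (setv_det _ ?_ (gk3.trans hW)) ?_
  · simp only [Expr.val, a55]
    push_cast
    ring
  rintro M5 ⟨a56, s5⟩
  -- 53
  refine Det.seq (R := fun M' => M' 53 0 0 = (Y : ℤ) ∧ Same [53, 57] M5 M') ?_ ?_
  · have h := Det.pow (W := W) (Λ := Λ) (M := M5) (s := 53) (i := 57) (en := .v 56)
      (e := .lit 2) (k.k3 * Nat.size (n + 2) ^ 4) 2 (by norm_num) (gk3.trans hΛ)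
      (gk3.trans hW) ?_ ?_ (by intro M' _; simp [Expr.val])
    · refine h.mono ?_
      rintro M' ⟨g1, g2⟩
      exact ⟨by rw [g1, hY]; unfold bY; push_cast; rfl, g2⟩
    · intro j hj
      rw [abs_of_nonneg (by positivity)]
      have h3 : 2 ^ j ≤ Y := by rw [hY]; exact Nat.pow_le_pow_right (by norm_num) hj
      exact_mod_cast h3.trans (hYZ.trans hW)
    · intro M' h
      simp only [Expr.val]
      rw [h 56 (by simp), a56]
      exact Int.toNat_natCast _
  rintro M6 ⟨a53, s6⟩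
  have t6 : Same [55, 56, 53, 57] M3 M6 :=
    ((s4.mono (by simp)).trans (s5.mono (by simp))).trans (s6.mono (by simp))
  have c13 : M6 13 0 0 = ((Nat.size (n + 2) : ℕ) : ℤ) := by rw [t6 13 (by simp)]; exact a13
  have c55 : M6 55 0 0 = ((Nat.size (n + 2) ^ 4 : ℕ) : ℤ) := by
    rw [s6 55 (by simp), s5 55 (by simp)]; exact a55
  have c52 : M6 52 0 0 = (X : ℤ) := by
    rw [t6 52 (by simp), s3 52 (by simp), s2 52 (by simp)]; exact a52
  -- 14
  refine Det.seq (R := fun M' => M' 14 0 0 = ((12 * Nat.size (n + 2) : ℕ) : ℤ) ∧ Same [14] M6 M')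
    (setv_det _ ?_ ((gH.trans (hxz (by unfold kap; omega))).trans hW)) ?_
  · simp only [Expr.val, c13]
    push_cast
    ring
  rintro M7 ⟨a14, s7⟩
  have d55 : M7 55 0 0 = ((Nat.size (n + 2) ^ 4 : ℕ) : ℤ) := by rw [s7 55 (by simp)]; exact c55
  have d52 : M7 52 0 0 = (X : ℤ) := by rw [s7 52 (by simp)]; exact c52
  -- 18
  refine Det.seq (R := fun M' => M' 18 0 0 =
      ((k.k1 * Nat.size (n + 2) ^ 4 + k.k2 * Nat.size X : ℕ) : ℤ) ∧ Same [18] M7 M')
    (setv_det _ ?_ ((gg.trans (hxz (by unfold kap; omega))).trans hW)) ?_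
  · simp only [Expr.val, d55, d52, Int.natAbs_natCast]
    push_cast
    ring
  rintro M8 ⟨a18, s8⟩
  have e52 : M8 52 0 0 = (X : ℤ) := by rw [s8 52 (by simp)]; exact d52
  -- 58
  refine Det.seq (powC_det (M := M8) (s := 58) (e := .v 52) (k := k.k4) X
    (by norm_num) ((hlit (by unfold kap; omega)).trans hΛ) ((hlit (by unfold kap; omega)).trans hW)
    (by omega) ((hxz (by unfold kap; omega)).trans hW) (fun M' h => by
      simp only [Expr.val]; rw [h 52 (by simp)]; exact e52)) ?_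
  rintro M9 ⟨a58, s9⟩
  have t9 : Same [14, 18, 58, 57] M6 M9 :=
    ((s7.mono (by simp)).trans (s8.mono (by simp))).trans (s9.mono (by simp))
  have b53 : M9 53 0 0 = (Y : ℤ) := by rw [t9 53 (by simp)]; exact a53
  -- 19
  refine Det.seq (R := fun M' => M' 19 0 0 = ((Y * X ^ k.k4 : ℕ) : ℤ) ∧ Same [19] M9 M')
    (setv_det _ ?_ ?_) ?_
  · simp only [Expr.val, a58, b53]
    push_cast
    ring
  · rw [mul_comm]
    exact (hxyz (by unfold kap; omega)).trans hW
  rintro M10 ⟨a19, s10⟩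
  have f52 : M10 52 0 0 = (X : ℤ) := by rw [s10 52 (by simp), s9 52 (by simp)]; exact e52
  -- 22
  refine Det.seq (powC_det (M := M10) (s := 22) (e := .v 52) (k := k.k5) X
    (by norm_num) ((hlit (by unfold kap; omega)).trans hΛ) ((hlit (by unfold kap; omega)).trans hW)
    (by omega) ((hxz (by unfold kap; omega)).trans hW) (fun M' h => by
      simp only [Expr.val]; rw [h 52 (by simp)]; exact f52)) ?_
  rintro M11 ⟨a22, s11⟩
  have g52 : M11 52 0 0 = (X : ℤ) := by rw [s11 52 (by simp)]; exact f52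
  -- 23
  refine Det.seq (powC_det (M := M11) (s := 23) (e := .v 52) (k := k.k6) X
    (by norm_num) ((hlit (by unfold kap; omega)).trans hΛ) ((hlit (by unfold kap; omega)).trans hW)
    (by omega) ((hxz (by unfold kap; omega)).trans hW) (fun M' h => by
      simp only [Expr.val]; rw [h 52 (by simp)]; exact g52)) ?_
  rintro M12 ⟨a23, s12⟩
  have h52 : M12 52 0 0 = (X : ℤ) := by rw [s12 52 (by simp)]; exact g52
  -- 32
  refine Det.seq (powC_det (M := M12) (s := 32) (e := .v 52) (k := 3) X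
    (by norm_num) ((hlit (by unfold kap; omega)).trans hΛ) ((hlit (by unfold kap; omega)).trans hW)
    (by omega) ((hxz (by unfold kap; omega)).trans hW) (fun M' h => by
      simp only [Expr.val]; rw [h 52 (by simp)]; exact h52)) ?_
  rintro M13 ⟨a32, s13⟩
  have b23 : M13 23 0 0 = ((X ^ k.k6 : ℕ) : ℤ) := by rw [s13 23 (by simp)]; exact a23
  -- 17
  have hB2 : 2 * X ^ k.k6 ≤ bZ k n a b := by
    calc 2 * X ^ k.k6 ≤ X * X ^ k.k6 := Nat.mul_le_mul_right _ hX2
      _ = X ^ (k.k6 + 1) := by rw [pow_succ]; ring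
      _ ≤ _ := hxz (by unfold kap; omega)
  refine (setv_det (M := M13) (s := 17) (2 * X ^ k.k6) ?_ (hB2.trans hW)).mono ?_
  · simp only [Expr.val, b23]
    push_cast
    ring
  rintro M14 ⟨a17, s14⟩
  have t14 : Same parL M M14 :=
    (((((((((s1.mono (by simp [parL])).trans (s2.mono (by simp [parL]))).trans
      (s3.mono (by simp [parL]))).trans (t6.mono (by simp [parL]))).trans
      (t9.mono (by simp [parL]))).trans (s10.mono (by simp [parL]))).trans
      (s11.mono (by simp [parL]))).trans (s12.mono (by simp [parL]))).trans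
      (s13.mono (by simp [parL]))).trans (s14.mono (by simp [parL]))
  refine ⟨⟨?_, ?_, ?_, ?_, ?_, ?_, ?_, ?_, ?_, ?_⟩, t14⟩
  · rw [t14 0 (by simp [parL])]; exact h0
  · rw [s14 12 (by simp), s13 12 (by simp), s12 12 (by simp), s11 12 (by simp), s10 12 (by simp),
      t9 12 (by simp), t6 12 (by simp), s3 12 (by simp), a12]
    push_cast; rfl
  · rw [s14 13 (by simp), s13 13 (by simp), s12 13 (by simp), s11 13 (by simp), s10 13 (by simp),
      t9 13 (by simp), c13]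
    rfl
  · rw [s14 14 (by simp), s13 14 (by simp), s12 14 (by simp), s11 14 (by simp), s10 14 (by simp),
      s9 14 (by simp), s8 14 (by simp), a14]
    rfl
  · rw [a17]; rfl
  · rw [s14 18 (by simp), s13 18 (by simp), s12 18 (by simp), s11 18 (by simp), s10 18 (by simp),
      s9 18 (by simp), a18]
    rfl
  · rw [s14 19 (by simp), s13 19 (by simp), s12 19 (by simp), s11 19 (by simp), a19]
    rfl
  · rw [s14 22 (by simp), s13 22 (by simp), s12 22 (by simp), a22]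
    rfl
  · rw [s14 23 (by simp), b23]
    rfl
  · rw [s14 32 (by simp), a32]
    rfl

end Vale.Agent.P308RAM
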