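import Vale.Agent.P308RAM.Bridge
import Vale.Agent.P308RAM.ParC
import Vale.Agent.P308RAM.MainC
import Vale.Agent.P308RAM.InitC

/-!
# The whole program
-/

set_option linter.unusedSectionVars false

namespace Vale.Agent.P308RAM

open Vale.Agent.P328RAM Vale.Agent.P308Q PMF

variable {W Λ n : ℕ}

/-- output `0 / 1` -/
def out01C : Cmd := .seq (.set 3 (.lit 0) (.lit 0) (.lit 0)) (.set 3 (.lit 1) (.lit 0) (.lit 1))

/-- the whole program -/
def progC (k : Kc) : Cmd :=
  .seq (parC k) (.ite (.sub (.v 0) (.mul (.lit 2) (.div (.v 0) (.lit 2)))) out01C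
    (.seq initC (.seq mainC outC)))

section Bounds

variable (k : Kc) (n a b : ℕ)

/-- the bound of the scaled exponents -/
def bE : ℕ := (k.par n a b).L + 3 * (k.par n a b).R

theorem two_mul_pow_le (j : ℕ) : 2 * bX n a b ^ j ≤ bX n a b ^ (j + 1) := by
  rw [pow_succ, mul_comm]
  exact Nat.mul_le_mul_left _ (bX_ge n a b)

theorem pow_le_pow' {i j : ℕ} (h : i ≤ j) : bX n a b ^ i ≤ bX n a b ^ j :=
  Nat.pow_le_pow_right (by have := bX_ge n a b; omega) h

theorem bE_le : bE k n a b ≤ bX n a b ^ (k.k6 + 5) := by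
  have h1 : (k.par n a b).L = bX n a b ^ 3 := rfl
  have h2 : (k.par n a b).R = bX n a b ^ k.k6 := rfl
  have h3 := pow_le_pow' n a b (i := 3) (j := k.k6 + 3) (by omega)
  have h4 := pow_le_pow' n a b (i := k.k6) (j := k.k6 + 3) (by omega)
  have h5 := two_mul_pow_le n a b (k.k6 + 3)
  have h6 := two_mul_pow_le n a b (k.k6 + 4)
  unfold bE
  rw [h1, h2]
  have h7 : bX n a b ^ (k.k6 + 3 + 1) = bX n a b ^ (k.k6 + 4) := rfl
  have h8 : bX n a b ^ (k.k6 + 4 + 1) = bX n a b ^ (k.k6 + 5) := rfl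
  omega

theorem dB_le : 2 * ((n + 2) * bE k n a b + (k.par n a b).B * (n + 2) + (k.par n a b).g) ≤
    bZ k n a b := by
  have hn : n + 2 ≤ bX n a b := by unfold bX; omega
  have h1 : (n + 2) * bE k n a b ≤ bX n a b ^ (kap k - 2) := by
    calc (n + 2) * bE k n a b ≤ bX n a b * bX n a b ^ (k.k6 + 5) :=
          Nat.mul_le_mul hn (bE_le k n a b)
      _ = bX n a b ^ (k.k6 + 6) := by rw [← pow_succ']
      _ ≤ _ := pow_le_pow' n a b (by unfold kap; omega)
  have h2 : (k.par n a b).B * (n + 2) ≤ bX n a b ^ (kap k - 3) := by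
    have h3 : (k.par n a b).B = 2 * bX n a b ^ k.k6 := rfl
    rw [h3]
    calc 2 * bX n a b ^ k.k6 * (n + 2) ≤ bX n a b ^ (k.k6 + 1) * bX n a b :=
          Nat.mul_le_mul (two_mul_pow_le n a b _) hn
      _ = bX n a b ^ (k.k6 + 2) := by rw [← pow_succ]
      _ ≤ _ := pow_le_pow' n a b (by unfold kap; omega)
  have h4 : (k.par n a b).g ≤ bX n a b ^ (kap k - 3) :=
    (g_le k n a b).trans (pow_le_pow' n a b (by unfold kap; omega))
  have h5 := two_mul_pow_le n a b (kap k - 3)
  have h6 := two_mul_pow_le n a b (kap k - 2)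
  have h7 := two_mul_pow_le n a b (kap k - 1)
  have e1 : kap k - 3 + 1 = kap k - 2 := by unfold kap; omega
  have e2 : kap k - 2 + 1 = kap k - 1 := by unfold kap; omega
  have e3 : kap k - 1 + 1 = kap k := by unfold kap; omega
  rw [e1] at h5
  rw [e2] at h6
  rw [e3] at h7
  have h8 := pow_le_bZ (k := k) (n := n) (a := a) (b := b) (j := kap k) le_rfl
  omega

theorem numB_le : (4 * (k.par n a b).S) ^ (k.par n a b).R ≤ 2 ^ bZ k n a b := by
  have h1 : (k.par n a b).S = bX n a b ^ k.k5 := rfl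
  have h2 : (k.par n a b).R = bX n a b ^ k.k6 := rfl
  rw [h1, h2]
  have h3 : 4 * bX n a b ^ k.k5 ≤ 2 ^ (4 * bX n a b ^ k.k5) := Nat.lt_two_pow_self.le
  calc (4 * bX n a b ^ k.k5) ^ bX n a b ^ k.k6
      ≤ (2 ^ (4 * bX n a b ^ k.k5)) ^ bX n a b ^ k.k6 := Nat.pow_le_pow_left h3 _
    _ = 2 ^ (4 * bX n a b ^ k.k5 * bX n a b ^ k.k6) := by rw [← pow_mul]
    _ ≤ 2 ^ bZ k n a b := by
        refine Nat.pow_le_pow_right (by norm_num) ?_
        have h4 := two_mul_pow_le n a b k.k5
        have h5 := two_mul_pow_le n a b (k.k5 + 1)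
        calc 4 * bX n a b ^ k.k5 * bX n a b ^ k.k6
            ≤ bX n a b ^ (k.k5 + 1 + 1) * bX n a b ^ k.k6 := Nat.mul_le_mul_right _ (by omega)
          _ = bX n a b ^ (k.k5 + 2 + k.k6) := by rw [← pow_add]
          _ ≤ _ := pow_le_bZ (by unfold kap; omega)

theorem bnd : Bnd (2 ^ bZ k n a b) (bZ k n a b) n (k.par n a b) (bE k n a b) := by
  have hW : bZ k n a b ≤ 2 ^ bZ k n a b := Nat.lt_two_pow_self.le
  have hn : n + 2 ≤ bX n a b := by unfold bX; omega
  have hX : bX n a b ≤ bZ k n a b := by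
    have := pow_le_bZ (k := k) (n := n) (a := a) (b := b) (j := 1) (by unfold kap; omega)
    simpa using this
  have hR1 : (k.par n a b).R + 1 ≤ bZ k n a b := by
    have h2 : (k.par n a b).R = bX n a b ^ k.k6 := rfl
    have h3 : 1 ≤ bX n a b ^ k.k6 := Nat.one_le_pow _ _ (by have := bX_ge n a b; omega)
    have h4 := two_mul_pow_le n a b k.k6
    have h5 := pow_le_bZ (k := k) (n := n) (a := a) (b := b) (j := k.k6 + 1) (by unfold kap; omega)
    omega
  have hd := dB_le k n a b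
  have hBn : (k.par n a b).Bn ≤ bZ k n a b := (sz_le n a b).trans hX
  have hT : (k.par n a b).T ≤ bZ k n a b := by
    have h2 : (k.par n a b).T = bY k.k3 n * bX n a b ^ k.k4 := rfl
    rw [h2, mul_comm]
    exact pow_mul_le_bZ (by unfold kap; omega)
  have hS : (k.par n a b).S ≤ bZ k n a b := pow_le_bZ (by unfold kap; omega)
  have hH : (k.par n a b).H ≤ bZ k n a b := (H_le n a b).trans (pow_le_bZ (by unfold kap; omega))
  have hB : (k.par n a b).B ≤ bZ k n a b :=
    (two_mul_pow_le n a b k.k6).trans (pow_le_bZ (by unfold kap; omega))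
  have hg : (k.par n a b).g ≤ bZ k n a b := (g_le k n a b).trans (pow_le_bZ (by unfold kap; omega))
  have hL : (k.par n a b).L ≤ bZ k n a b := pow_le_bZ (by unfold kap; omega)
  have hE : bE k n a b ≤ bZ k n a b := (bE_le k n a b).trans (pow_le_bZ (by unfold kap; omega))
  exact ⟨hn.trans hX, (hn.trans hX).trans hW, hBn, Nat.pow_le_pow_right (by norm_num) hBn,
    hH.trans hW, hB, hB.trans hW, hg.trans hW, hT, hS, hS.trans hW, hR1, hR1.trans hW,
    hL.trans hW, hE.trans hW, hd, Nat.pow_le_pow_right (by norm_num) hd⟩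

end Bounds

theorem input_bdd {G : SimpleGraph (Fin n)} (k : Kc) (a b : ℕ) :
    Bdd (2 ^ bZ k n a b) (input G a b) := by
  have hX : bX n a b ≤ bZ k n a b := by
    have := pow_le_bZ (k := k) (n := n) (a := a) (b := b) (j := 1) (by unfold kap; omega)
    simpa using this
  have hW : 2 ^ bX n a b ≤ 2 ^ bZ k n a b := Nat.pow_le_pow_right (by norm_num) hX
  have h1 : n ≤ 2 ^ bX n a b := by
    have : bX n a b < 2 ^ bX n a b := Nat.lt_two_pow_self
    have h2 : n ≤ bX n a b := by unfold bX; omega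
    omega
  have h2 : a ≤ 2 ^ bX n a b := by
    have : bX n a b < 2 ^ bX n a b := Nat.lt_two_pow_self
    have h2 : a ≤ bX n a b := by unfold bX; omega
    omega
  have h3 : b ≤ 2 ^ bX n a b := by
    have h4 := Nat.lt_size_self b
    have h5 : 2 ^ Nat.size b ≤ 2 ^ bX n a b :=
      Nat.pow_le_pow_right (by norm_num) (by unfold bX; omega)
    omega
  have h4 : 1 ≤ 2 ^ bX n a b := Nat.one_le_two_pow
  intro c i j
  have hc : ∀ z : ℕ, z ≤ 2 ^ bX n a b → |(z : ℤ)| ≤ ((2 ^ bZ k n a b : ℕ) : ℤ) := by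
    intro z hz
    rw [abs_of_nonneg (by positivity)]
    exact_mod_cast hz.trans hW
  have h0' : |(0 : ℤ)| ≤ ((2 ^ bZ k n a b : ℕ) : ℤ) := hc 0 (Nat.zero_le _)
  have h1' : |(1 : ℤ)| ≤ ((2 ^ bZ k n a b : ℕ) : ℤ) := hc 1 h4
  unfold input
  split_ifs
  · exact hc _ h1
  · exact hc _ h2
  · exact hc _ h3
  · exact h0'
  · exact h0'
  · exact h1'
  · exact h0'
  · exact h0'

theorem progC_sim {k : Kc} {a b : ℕ} (G : SimpleGraph (Fin n)) :
    Sim (2 ^ bZ k n a b) (bZ k n a b) (progC k) (input G a b) outOf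
      (mainK (k.par n a b) G) (fun _ => True) := by
  have hB := bnd k n a b
  have h1W : 1 ≤ 2 ^ bZ k n a b := Nat.one_le_two_pow
  refine Det.seqSim (parC_det (M := input G a b) (k := k) (a := a) (b := b) (by simp [input])
    (by simp [input]) (by simp [input]) le_rfl Nat.lt_two_pow_self.le) ?_
  rintro M ⟨hE, hM⟩
  have h1 : M 1 = input G a b 1 := hM 1 (by simp [parL])
  have h7 : M 7 = input G a b 7 := hM 7 (by simp [parL])
  have h37 : M 37 = input G a b 37 := hM 37 (by simp [parL])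
  have hv : (Expr.sub (.v 0) (.mul (.lit 2) (.div (.v 0) (.lit 2)))).val M =
      ((n % 2 : ℕ) : ℤ) := by
    simp only [Expr.val, hE.hn]
    omega
  unfold mainK
  refine Sim.ite ?_ ?_
  · intro h
    rw [hv] at h
    rw [if_pos (by omega)]
    refine Det.sim (Q := fun M' => outOf M' = (0, 1) ∧ True) (Det.seq
      (R := fun M' => M' = M.write 3 0 0 0) (Det.set (by simp [Expr.val]) (by simp [Expr.val])) ?_)
      (fun M' h => h.1) |>.mono fun _ _ => trivial
    rintro M' rfl
    refine Det.set ?_ ?_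
    · simp only [Expr.val, abs_one]
      exact_mod_cast h1W
    · simp [Expr.val, outOf, Mem.write]
  · intro h
    rw [hv] at h
    have hne : n % 2 = 0 := by omega
    rw [if_neg (by omega)]
    refine Det.seqSim (initC_det (E := bE k n a b) hE hB le_rfl (fun i j => by rw [h7]; simp [input])
      (by rw [h37]; simp [input])) ?_
    rintro M1 ⟨e1, e2, e3, e4⟩
    have hE1 : Env0 n (k.par n a b) M1 := hE.same e4 (by simp)
    have hG : AdjIs G M1 := by
      have h11 : M1 1 = input G a b 1 := by rw [e4 1 (by simp)]; exact h1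
      intro u v
      rw [h11]
      unfold input
      constructor
      · intro huv
        rw [if_neg (by norm_num), if_pos rfl, if_pos ⟨u, v, rfl, rfl, huv⟩]
      · intro huv
        rw [if_neg (by norm_num), if_pos rfl, if_neg]
        rintro ⟨u', v', hu, hv', h3⟩
        have e5 : u' = u := by ext; exact_mod_cast hu
        have e6 : v' = v := by ext; exact_mod_cast hv'
        rw [e5, e6] at h3
        exact huv h3
    have hS : 1 ≤ (k.par n a b).S := Nat.one_le_pow _ _ (by have := bX_ge n a b; unfold bX at this; omega)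
    have hmain := mainC_sim (M := M1) (p := k.par n a b) (G := G) (E := bE k n a b) hne hE1 hB hG hS
      le_rfl (numB_le k n a b) e2 e3
    rw [e1] at hmain
    refine Sim.seq hmain (κ := fun x => PMF.pure (outV x)) ?_
    rintro M2 ⟨_, f2⟩
    exact ((outC_det (p := k.par n a b) h1W f2).sim (f := outOf) (x := outV (obsA n (k.par n a b) M2))
      (fun M' h => h)).mono fun _ _ => trivial

theorem size_add_two (n : ℕ) : Nat.size (n + 2) ≤ Nat.size n + 2 := by
  refine Nat.size_le.2 ?_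
  have h1 := Nat.lt_size_self n
  have h2 : 1 ≤ 2 ^ Nat.size n := Nat.one_le_two_pow
  have h3 : 2 ^ (Nat.size n + 2) = 4 * 2 ^ Nat.size n := by rw [pow_add]; ring
  omega

theorem bits_two_pow (z : ℕ) : bits (((2 ^ z : ℕ) : ℤ)) = z + 2 := by
  unfold bits
  rw [Int.natAbs_natCast, Nat.size_pow]

theorem time_bound (k : Kc) (n a b : ℕ) (c : Cmd) :
    c.T (2 ^ bZ k n a b) (bZ k n a b) ≤
      (c.K * 2 ^ (c.depth + 2) + kap k * (c.depth + 2) + 16 * k.k3 * (c.depth + 2) + 4) *
        baseX n a b ^ (c.K * 2 ^ (c.depth + 2) + kap k * (c.depth + 2) +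
          16 * k.k3 * (c.depth + 2) + 4) *
        2 ^ ((c.K * 2 ^ (c.depth + 2) + kap k * (c.depth + 2) + 16 * k.k3 * (c.depth + 2) + 4) *
          (Nat.size n + 1) ^ (c.K * 2 ^ (c.depth + 2) + kap k * (c.depth + 2) +
            16 * k.k3 * (c.depth + 2) + 4)) := by
  have hbase : baseX n a b = bX n a b := rfl
  rw [hbase]
  set d := c.depth + 2 with hd
  set K := c.K * 2 ^ d + kap k * d + 16 * k.k3 * d + 4 with hK
  have hX2 := bX_ge n a b
  set X := bX n a b with hX
  set Z := bZ k n a b with hZ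
  have hXZ : X ≤ Z := by
    have := pow_le_bZ (k := k) (n := n) (a := a) (b := b) (j := 1) (by unfold kap; omega)
    simpa using this
  have h1 : c.T (2 ^ Z) Z ≤ c.K * (2 * Z) ^ d := by
    refine (c.T_le (2 ^ Z) Z).trans ?_
    rw [bits_two_pow, hd, pow_add, mul_comm ((2 * Z) ^ c.depth)]
    exact Nat.mul_le_mul_left _ (Nat.mul_le_mul (Nat.pow_le_pow_left (by omega) _)
      (Nat.pow_le_pow_left (by omega) _))
  have h2 : Z ^ d = X ^ (kap k * d) * 2 ^ (k.k3 * Nat.size (n + 2) ^ 4 * d) := by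
    rw [hZ]
    unfold bZ bY
    rw [mul_pow, ← pow_mul, ← pow_mul]
  have h3 : k.k3 * Nat.size (n + 2) ^ 4 * d ≤ K * (Nat.size n + 1) ^ K := by
    have h4 : Nat.size (n + 2) ^ 4 ≤ 16 * (Nat.size n + 1) ^ 4 := by
      have h5 := size_add_two n
      calc Nat.size (n + 2) ^ 4 ≤ (2 * (Nat.size n + 1)) ^ 4 := Nat.pow_le_pow_left (by omega) 4
        _ = 16 * (Nat.size n + 1) ^ 4 := by rw [mul_pow]; norm_num
    have h5 : (Nat.size n + 1) ^ 4 ≤ (Nat.size n + 1) ^ K :=
      Nat.pow_le_pow_right (by omega) (by omega)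
    calc k.k3 * Nat.size (n + 2) ^ 4 * d ≤ k.k3 * (16 * (Nat.size n + 1) ^ 4) * d :=
          Nat.mul_le_mul_right _ (Nat.mul_le_mul_left _ h4)
      _ = 16 * k.k3 * d * (Nat.size n + 1) ^ 4 := by ring
      _ ≤ K * (Nat.size n + 1) ^ K := Nat.mul_le_mul (by omega) h5
  calc c.T (2 ^ Z) Z ≤ c.K * (2 * Z) ^ d := h1
    _ = c.K * 2 ^ d * (X ^ (kap k * d) * 2 ^ (k.k3 * Nat.size (n + 2) ^ 4 * d)) := by
        rw [mul_pow, h2]; ring
    _ ≤ K * (X ^ K * 2 ^ (K * (Nat.size n + 1) ^ K)) :=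
        Nat.mul_le_mul (by omega) (Nat.mul_le_mul
          (Nat.pow_le_pow_right (by omega) (by omega)) (Nat.pow_le_pow_right (by norm_num) h3))
    _ = K * X ^ K * 2 ^ (K * (Nat.size n + 1) ^ K) := by ring

theorem mainOK (k : Kc) : MainOK (fun n G a b => lawX k.k1 k.k2 k.k3 k.k4 k.k5 k.k6 n G a b)
    (progC k) := by
  refine ⟨(progC k).K * 2 ^ ((progC k).depth + 2) + kap k * ((progC k).depth + 2) +
    16 * k.k3 * ((progC k).depth + 2) + 4, ?_⟩
  intro n G a b _ _
  obtain ⟨h1, h2⟩ := progC_sim (k := k) (a := a) (b := b) G (input_bdd k a b) 0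
  refine ⟨h1, fun s hs => ?_⟩
  have h3 := (h2 s hs).2.2
  rw [Nat.zero_add] at h3
  exact h3.trans (time_bound k n a b (progC k))

end Vale.Agent.P308RAM
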