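import Vale.Agent.P308RAM.FinalC
import Vale.Agent.P308Q.Native

/-!
# The quasi-polynomial randomized approximation scheme for perfect matchings of all graphs
-/

namespace Vale.Agent.P308RAM

/-- There is a quasi-polynomial randomized approximation scheme for the number of perfect
matchings of all finite graphs. -/
theorem qpras : ∃ prog : Vale.Agent.P328RAM.Cmd, IsQPRAS prog :=
  ⟨progC ⟨2600, 100, 6000, 500, 50, 12⟩, qpras_of (mainOK _) P308Q.nativeOK⟩

end Vale.Agent.P308RAM
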