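import Vale.Agent.P308RAM.Spec

/-!
# The program for the set of holes
-/

namespace Vale.Agent.P308RAM

open Vale.Agent.P328RAM Vale.Agent.P308Q PMF

variable {W Λ n : ℕ}

/-- the array `20` contains the indicator of the set `U` -/
def IndIs (U : Finset (Fin (n + 2))) (M : Mem) : Prop :=
  ∀ u : Fin (n + 2), M 20 (u : ℕ) 0 = if u ∈ U then 1 else 0

private theorem holesC_card (U : Finset (Fin (n + 2))) (k : ℕ) (hk : k < n + 2) :
    (U.filter fun u : Fin (n + 2) => (u : ℕ) < k + 1).card =
      (U.filter fun u : Fin (n + 2) => (u : ℕ) < k).card + if (⟨k, hk⟩ : Fin (n + 2)) ∈ U then 1 else 0 := by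
  split_ifs with h
  · have h1 : (U.filter fun u : Fin (n + 2) => (u : ℕ) < k + 1) =
        insert (⟨k, hk⟩ : Fin (n + 2)) (U.filter fun u : Fin (n + 2) => (u : ℕ) < k) := by
      ext u
      simp only [Finset.mem_filter, Finset.mem_insert]
      constructor
      · rintro ⟨h1, h2⟩
        rcases Nat.lt_succ_iff_lt_or_eq.1 h2 with h3 | h3
        · exact Or.inr ⟨h1, h3⟩
        · exact Or.inl (Fin.ext h3)
      · rintro (h1 | ⟨h1, h2⟩)
        · subst h1
          exact ⟨h, Nat.lt_succ_self _⟩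
        · exact ⟨h1, by omega⟩
    rw [h1, Finset.card_insert_of_notMem]
    simp
  · rw [add_zero]
    congr 1
    ext u
    simp only [Finset.mem_filter]
    constructor
    · rintro ⟨h1, h2⟩
      rcases Nat.lt_succ_iff_lt_or_eq.1 h2 with h3 | h3
      · exact ⟨h1, h3⟩
      · exfalso
        apply h
        have : u = ⟨k, hk⟩ := Fin.ext h3
        rwa [this] at h1
    · rintro ⟨h1, h2⟩
      exact ⟨h1, by omega⟩

theorem holesC_det {M : Mem} {A : ℕ} (hA : A ∉ [20, 28, 48]) (hN : M 12 0 0 = (n : ℤ) + 2)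
    (hv : IsV n A M) (hnΛ : n + 2 ≤ Λ) (hnW : n + 2 ≤ W) :
    Det W Λ (holesC A) M (fun M' => IndIs (holes (obs n A M)) M' ∧
      M' 28 0 0 = (holes (obs n A M)).card ∧ Same [20, 28, 48] M M') := by
  set U := holes (obs n A M) with hU
  have hW1 : (1 : ℤ) ≤ W := by
    have : 1 ≤ W := by omega
    exact_mod_cast this
  have hW0 : (0 : ℤ) ≤ W := by linarith
  have hcardle : ∀ k, ((U.filter fun u : Fin (n + 2) => (u : ℕ) < k).card : ℤ) ≤ W := by
    intro k
    have h1 : (U.filter fun u : Fin (n + 2) => (u : ℕ) < k).card ≤ n + 2 := by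
      refine (Finset.card_le_univ _).trans ?_
      rw [Fintype.card_fin]
    have h2 : (U.filter fun u : Fin (n + 2) => (u : ℕ) < k).card ≤ W := h1.trans hnW
    exact_mod_cast h2
  unfold holesC
  refine Det.seq (R := fun M' => M' 28 0 0 = 0 ∧ Same [20, 28, 48] M M')
    (Det.setv (by simp [Expr.val]) ?_) ?_
  · exact ⟨by simp [Expr.val], (Same.refl _ _).write (by simp) _ _ _⟩
  rintro M1 ⟨h28, hs1⟩
  refine Det.forL (fun k M' => (∀ u : Fin (n + 2), (u : ℕ) < k → M' 20 (u : ℕ) 0 =
      if u ∈ U then 1 else 0) ∧ M' 28 0 0 = (U.filter fun u : Fin (n + 2) => (u : ℕ) < k).card ∧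
      Same [20, 28, 48] M M') (n + 2) ?_ hnΛ hnW ?_ ?_ ?_ ?_ ?_
  · have h1 : (Expr.v 12).val (M1.write 48 0 0 0) = M1 12 0 0 := by
      show (M1.write 48 0 0 0) 12 0 0 = _
      rw [Mem.write_arr _ (by norm_num)]
    rw [h1, hs1 12 (by simp), hN]
    omega
  · simp [Cmd.setv]
  · rintro l M' z ⟨g1, g2, g3⟩
    refine ⟨fun u hu => ?_, ?_, g3.write (by simp) _ _ _⟩
    · rw [Mem.write_arr _ (by norm_num)]
      exact g1 u hu
    · rw [Mem.write_arr _ (by norm_num)]
      exact g2
  · refine ⟨fun u hu => absurd hu (Nat.not_lt_zero _), ?_, hs1⟩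
    rw [h28]
    simp
  · rintro k hk M' h48 ⟨g1, g2, g3⟩
    have h5 : M' A = M A := g3 A hA
    have hcell := hv.cell ⟨k, hk⟩
    have hval : (sqd (.at1 A (.v 48)) (.v 48)).val M' =
        (((obs n A M ⟨k, hk⟩ : ℕ) : ℤ) - k) * (((obs n A M ⟨k, hk⟩ : ℕ) : ℤ) - k) := by
      show (M' A (M' 48 0 0) 0 - M' 48 0 0) * (M' A (M' 48 0 0) 0 - M' 48 0 0) = _
      rw [h48, h5]
      have : M A ((k : ℕ) : ℤ) 0 = ((obs n A M ⟨k, hk⟩ : ℕ) : ℤ) := hcell
      rw [this]
    have hmem : (⟨k, hk⟩ : Fin (n + 2)) ∈ U ↔ ((obs n A M ⟨k, hk⟩ : ℕ) : ℤ) = k := by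
      rw [hU]
      unfold holes
      rw [Finset.mem_filter]
      constructor
      · rintro ⟨-, h⟩
        rw [h]
      · intro h
        refine ⟨Finset.mem_univ _, Fin.ext ?_⟩
        exact_mod_cast h
    have e48 : (Expr.v 48).val M' = (k : ℤ) := h48
    refine Det.ite (fun h => ?_) fun h => ?_
    · rw [hval] at h
      have hne : ¬ (⟨k, hk⟩ : Fin (n + 2)) ∈ U := by
        rw [hmem]
        intro h0
        rw [h0, sub_self, zero_mul] at h
        exact lt_irrefl _ h
      refine Det.set (by simp [Expr.val]) ⟨?_, ?_, g3.write (by simp) _ _ _⟩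
      · intro u hu
        have e0 : (Expr.lit 0).val M' = 0 := rfl
        rw [e48, e0]
        by_cases huk : (u : ℕ) = k
        · have hu2 : u = ⟨k, hk⟩ := Fin.ext huk
          rw [if_neg (by rw [hu2]; exact hne), hu2]
          simp
        · rw [Mem.write_cell _ _ (by rintro ⟨h1, -⟩; exact huk (by exact_mod_cast h1))]
          exact g1 u (by omega)
      · rw [Mem.write_arr _ (by norm_num), g2, holesC_card U k hk, if_neg hne, add_zero]
    · rw [hval] at h
      have hme : (⟨k, hk⟩ : Fin (n + 2)) ∈ U := by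
        rw [hmem]
        have h1 : (((obs n A M ⟨k, hk⟩ : ℕ) : ℤ) - k) = 0 := by
          by_contra h2
          have := mul_self_pos.2 h2
          linarith
        linarith
      refine Det.seq (R := fun M'' => (∀ u : Fin (n + 2), (u : ℕ) < k + 1 → M'' 20 (u : ℕ) 0 =
        if u ∈ U then 1 else 0) ∧ M'' 28 0 0 = (U.filter fun u : Fin (n + 2) => (u : ℕ) < k).card ∧
        Same [20, 28, 48] M M'') ?_ ?_
      · refine Det.set (by simpa [Expr.val] using hW1) ⟨?_, ?_, g3.write (by simp) _ _ _⟩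
        · intro u hu
          have e0 : (Expr.lit 0).val M' = 0 := rfl
          have e1 : (Expr.lit 1).val M' = 1 := rfl
          rw [e48, e0, e1]
          by_cases huk : (u : ℕ) = k
          · have hu2 : u = ⟨k, hk⟩ := Fin.ext huk
            rw [if_pos (by rw [hu2]; exact hme), hu2]
            simp
          · rw [Mem.write_cell _ _ (by rintro ⟨h1, -⟩; exact huk (by exact_mod_cast h1))]
            exact g1 u (by omega)
        · rw [Mem.write_arr _ (by norm_num), g2]
      · rintro M2 ⟨q1, q2, q3⟩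
        have hv28 : (Expr.add (.v 28) (.lit 1)).val M2 =
            ((U.filter fun u : Fin (n + 2) => (u : ℕ) < k + 1).card : ℤ) := by
          show M2 28 0 0 + 1 = _
          rw [q2, holesC_card U k hk, if_pos hme]
          push_cast
          rfl
        refine Det.setv ?_ ?_
        · rw [hv28, abs_of_nonneg (by positivity)]
          exact hcardle _
        · rw [hv28]
          refine ⟨fun u hu => ?_, by simp, q3.write (by simp) _ _ _⟩
          rw [Mem.write_arr _ (by norm_num)]
          exact q1 u hu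
  · rintro M' _ ⟨g1, g2, g3⟩
    refine ⟨fun u => g1 u u.isLt, ?_, g3⟩
    rw [g2]
    congr 2
    ext u
    simp only [Finset.mem_filter, and_iff_left_iff_imp]
    intro _
    exact u.isLt

end Vale.Agent.P308RAM
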