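import Vale.Agent.P308RAM.StageC

/-!
# The program for one pass
-/

namespace Vale.Agent.P308RAM

open Vale.Agent.P328RAM Vale.Agent.P308Q PMF

variable {W Λ n : ℕ}

/-- the value stored by `m0C` -/
private theorem m0C_val (k : ℕ) :
    ((k : ℤ) + 1) - 2 * ((k : ℤ) - 2 * ((k : ℤ) / 2)) =
      ((if k % 2 = 0 then k + 1 else k - 1 : ℕ) : ℤ) := by
  split_ifs with h <;> omega

theorem m0C_det {M : Mem} (hne : n % 2 = 0) (hN : M 12 0 0 = (n : ℤ) + 2)
    (hnΛ : n + 2 ≤ Λ) (hnW : n + 2 ≤ W) :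
    Det W Λ m0C M (fun M' => IsV n 5 M' ∧ obs n 5 M' = M0 n ∧ Same [5, 48] M M') := by
  have hlt : ∀ k : ℕ, k < n + 2 → (if k % 2 = 0 then k + 1 else k - 1) < n + 2 := by
    intro k hk
    split_ifs with h <;> omega
  have key := Det.arr1 (W := W) (Λ := Λ) (M := M) (A := 5) (i := 48) (en := .v 12)
    (e := .sub (.add (.v 48) (.lit 1)) (.mul (.lit 2) (.sub (.v 48) (.mul (.lit 2)
      (.div (.v 48) (.lit 2)))))) (n + 2)
    (fun k => ((if k % 2 = 0 then k + 1 else k - 1 : ℕ) : ℤ)) (by decide) hnΛ hnW ?_ ?_ ?_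
  · refine key.mono ?_
    rintro M' ⟨h1, -, h3⟩
    refine ⟨?_, ?_, h3⟩
    · intro u
      rw [h1 u u.isLt]
      have := hlt u u.isLt
      constructor
      · positivity
      · exact_mod_cast this
    · funext u
      unfold obs vert M0
      rw [h1 u u.isLt]
      simp only [Int.toNat_natCast]
      rw [dif_pos (hlt u u.isLt), dif_pos (hlt u u.isLt)]
  · intro k hk
    have := hlt k hk
    rw [abs_of_nonneg (by positivity)]
    exact_mod_cast (show (if k % 2 = 0 then k + 1 else k - 1) ≤ W by omega)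
  · intro M' hM'
    simp only [Expr.val]
    rw [hM' 12 (by decide), hN]
    omega
  · intro k hk M' hM' h48 _
    simp only [Expr.val]
    rw [h48, m0C_val]

theorem passC_Wr : ∀ a ∈ passC.Wr, a ∈ passL := by
  intro a ha
  simp only [passC, m0C, Cmd.Wr_seq, Cmd.Wr_set, Cmd.Wr_forL, List.mem_append,
    List.mem_cons, List.not_mem_nil, or_false] at ha
  rcases ha with h | h | h | h
  · rcases h with h | h | h <;> subst h <;> decide
  · subst h; decide
  · exact List.mem_cons_of_mem _ (stageC_Wr a h)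
  · subst h; decide

private theorem stageL_passL : ∀ a ∈ stageL, a ∈ passL := fun _ h => List.mem_cons_of_mem _ h

theorem passC_sim {M : Mem} {p : Par} {h : ℕ → Ext n} {m i E : ℕ} (hne : n % 2 = 0)
    (hE : Env0 n p M) (hB : Bnd W Λ n p E) (hh : HistIs h m M) (hi : i ≤ m) (hiR : i < p.R)
    (h61 : M 61 0 0 = i) (hb : ∀ j u v, |h j u v| ≤ (E : ℤ)) :
    Sim W Λ passC M (obs n 5) (passK p h i) (fun M' => IsV n 5 M' ∧ Same passL M M') := by
  have hRΛ := hB.RΛ
  have hRW := hB.RW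
  unfold passC passK
  refine Det.seqSim (m0C_det hne hE.hN hB.nΛ hB.nW) ?_
  rintro M1 ⟨v1, o1, s1⟩
  rw [← o1]
  have S1 : Same passL M M1 := s1.mono (by decide)
  refine Sim.forL (fun j => stageK p (h j)) (fun _ M' => IsV n 5 M' ∧ Same passL M M') (i + 1)
    ?_ (by omega) (by omega) ?_ ?_ ?_ ⟨v1, S1⟩ ?_ (fun M' _ h => h)
  · simp only [Expr.val]
    rw [Mem.write_arr _ (by decide), S1 61 (by decide), h61]
    omega
  · exact fun h => absurd (stageC_Wr 60 h) (by decide)
  · intro M' z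
    exact obs_congr (Mem.write_arr _ (by decide) _ _ _)
  · rintro l M' z ⟨g1, g2⟩
    exact ⟨IsV_congr (Mem.write_arr _ (by decide) _ _ _) g1, g2.write (by decide) _ _ _⟩
  · rintro l hl M' h60 ⟨g1, g2⟩
    have hE' : Env0 n p M' := hE.same g2 (by decide)
    have hh' : HistIs h m M' := hh.congr (g2 8 (by decide))
    refine (stageC_sim hE' hB hh' (by omega) h60 (hb l) g1).mono ?_
    rintro M'' ⟨q1, q2⟩
    exact ⟨q1, g2.trans (q2.mono stageL_passL)⟩

end Vale.Agent.P308RAM
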