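import Vale.Agent.P308RAM.SigC

/-!
# The program for the exponent of a state
-/

namespace Vale.Agent.P308RAM

open Vale.Agent.P328RAM Vale.Agent.P308Q PMF

variable {W Λ n : ℕ}

/-- partial sums of the exponents -/
private def psum (b : Ext n) (x : Stt n) (k : ℕ) : ℤ :=
  ∑ v : Fin (n + 2), if (v : ℕ) < k then (if v < x v then b v (x v) else 0) else 0

private theorem psum_abs {b : Ext n} {E : ℕ} (hb : ∀ u v, |b u v| ≤ (E : ℤ)) (x : Stt n) (k : ℕ) :
    |psum b x k| ≤ ((n : ℤ) + 2) * E := by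
  unfold psum
  refine (Finset.abs_sum_le_sum_abs _ _).trans ?_
  refine (Finset.sum_le_sum (g := fun _ => (E : ℤ)) ?_).trans ?_
  · intro v _
    split_ifs
    · exact hb _ _
    · simp
    · simp
  · simp

private theorem psum_zero (b : Ext n) (x : Stt n) : psum b x 0 = 0 := by
  unfold psum
  simp

private theorem psum_last (b : Ext n) (x : Stt n) :
    psum b x (n + 2) = ∑ v, if v < x v then b v (x v) else 0 := by
  unfold psum
  refine Finset.sum_congr rfl fun v _ => ?_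
  rw [if_pos v.isLt]

private theorem psum_succ (b : Ext n) (x : Stt n) (k : ℕ) (hk : k < n + 2) :
    psum b x (k + 1) = psum b x k +
      if (⟨k, hk⟩ : Fin (n + 2)) < x ⟨k, hk⟩ then b ⟨k, hk⟩ (x ⟨k, hk⟩) else 0 := by
  unfold psum
  have h1 : (if (⟨k, hk⟩ : Fin (n + 2)) < x ⟨k, hk⟩ then b ⟨k, hk⟩ (x ⟨k, hk⟩) else 0) =
      ∑ v : Fin (n + 2), if v = ⟨k, hk⟩ then (if v < x v then b v (x v) else 0) else 0 := by
    rw [Finset.sum_ite_eq' Finset.univ (⟨k, hk⟩ : Fin (n + 2))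
      (fun v => if v < x v then b v (x v) else 0), if_pos (Finset.mem_univ _)]
  rw [h1, ← Finset.sum_add_distrib]
  refine Finset.sum_congr rfl fun v _ => ?_
  by_cases hv : v = ⟨k, hk⟩
  · subst hv
    simp
  · have hv2 : (v : ℕ) ≠ k := fun h => hv (Fin.ext h)
    rw [if_neg hv, add_zero]
    by_cases hlt : (v : ℕ) < k
    · rw [if_pos hlt, if_pos (by omega)]
    · rw [if_neg hlt, if_neg (by omega)]

theorem phi_le {p : Par} {b s : Ext n} {E : ℕ} (hb : ∀ u v, |b u v| ≤ (E : ℤ)) (x : Stt n) :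
    |phi p b s x| ≤ (((n + 2) * E + p.B * (n + 2) + p.g : ℕ) : ℤ) := by
  have h1 := psum_abs hb x (n + 2)
  rw [psum_last] at h1
  have h2 : ((sigF p.B s (holes x) : ℕ) : ℤ) ≤ ((p.B * (n + 2) : ℕ) : ℤ) := by
    exact_mod_cast sigF_le p.B s (holes x)
  have h3 : (0 : ℤ) ≤ ((sigF p.B s (holes x) : ℕ) : ℤ) := Int.natCast_nonneg _
  have h4 : (0 : ℤ) ≤ (p.g : ℤ) := Int.natCast_nonneg _
  have h5 : (0 : ℤ) ≤ ((p.B * (n + 2) : ℕ) : ℤ) := Int.natCast_nonneg _
  unfold phi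
  rw [abs_le] at h1 ⊢
  push_cast at h1 h2 h5 ⊢
  obtain ⟨h6, h7⟩ := h1
  split_ifs
  · constructor <;> linarith
  · constructor <;> linarith

theorem phiC_det {M : Mem} {p : Par} {h : ℕ → Ext n} {m j E A : ℕ} {s : Ext n}
    (hA : A = 5 ∨ A = 6) (hE : Env0 n p M) (hB : Bnd W Λ n p E) (hh : HistIs h m M) (hj : j ≤ m)
    (h60 : M 60 0 0 = j) (hs : TabIs 9 s M) (hb : ∀ u v, |h j u v| ≤ (E : ℤ)) (hv : IsV n A M) :
    Det W Λ (phiC A) M (fun M' => M' 38 0 0 = phi p (h j) s (obs n A M) ∧ Same phiL M M') := by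
  have hA1 : A ∉ phiL := by
    rcases hA with rfl | rfl <;> decide
  have hAh : A ∉ [20, 28, 48] := by
    rcases hA with rfl | rfl <;> decide
  set x := obs n A M with hx
  set U := holes x with hU
  -- numeric bounds
  have hD : ((n + 2) * E + p.B * (n + 2) + p.g : ℕ) ≤ W := by
    have h1 := hB.dW
    have h2 : 2 * ((n + 2) * E + p.B * (n + 2) + p.g) <
        2 ^ (2 * ((n + 2) * E + p.B * (n + 2) + p.g)) := Nat.lt_two_pow_self
    omega
  have hDz : ((n : ℤ) + 2) * E + p.B * ((n : ℤ) + 2) + p.g ≤ W := by exact_mod_cast hD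
  have hBn : p.B * (n + 2) ≤ W := by omega
  have hsig0 : (0 : ℤ) ≤ ((sigF p.B s U : ℕ) : ℤ) := Int.natCast_nonneg _
  have hsig1 : ((sigF p.B s U : ℕ) : ℤ) ≤ p.B * ((n : ℤ) + 2) := by
    exact_mod_cast sigF_le p.B s U
  have hg0 : (0 : ℤ) ≤ (p.g : ℤ) := Int.natCast_nonneg _
  have hE0 : (0 : ℤ) ≤ ((n : ℤ) + 2) * E := by positivity
  have hB0 : (0 : ℤ) ≤ p.B * ((n : ℤ) + 2) := by positivity
  unfold phiC
  -- holes
  refine Det.seq (holesC_det hAh hE.hN hv hB.nΛ hB.nW) ?_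
  rintro M1 ⟨i1, c1, s1⟩
  have s1' : Same phiL M M1 := s1.mono (by decide)
  -- the pairing weight
  refine Det.seq (sigC_det (B := p.B) (s := s) (U := U) ?_ ?_ ?_ i1 hB.nΛ hB.nW hB.BΛ hB.BW hBn) ?_
  · rw [s1 12 (by decide)]
    exact hE.hN
  · rw [s1 17 (by decide)]
    exact hE.hB
  · exact hs.congr (s1 9 (by decide))
  rintro M2 ⟨v2, s2⟩
  have s2' : Same phiL M M2 := s1'.trans (s2.mono (by decide))
  have c2 : M2 28 0 0 = (U.card : ℤ) := by
    rw [s2 28 (by decide)]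
    exact c1
  -- copy
  refine Det.seq (R := fun M' => M' 38 0 0 = ((sigF p.B s U : ℕ) : ℤ) ∧ M' 28 0 0 = (U.card : ℤ) ∧
    Same phiL M M') ?_ ?_
  · have e21 : (Expr.v 21).val M2 = ((sigF p.B s U : ℕ) : ℤ) := v2
    refine Det.setv ?_ ⟨?_, ?_, s2'.write (by decide) _ _ _⟩
    · rw [e21, abs_of_nonneg hsig0]
      linarith
    · rw [e21]
      simp
    · rw [Mem.write_arr _ (by norm_num)]
      exact c2
  rintro M3 ⟨v3, c3, s3⟩
  -- the hole factor
  refine Det.seq (R := fun M' => M' 38 0 0 = ((sigF p.B s U : ℕ) : ℤ) -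
    (if U = ∅ then 0 else (p.g : ℤ)) ∧ Same phiL M M') ?_ ?_
  · have e28 : (Expr.v 28).val M3 = (U.card : ℤ) := c3
    refine Det.when (fun hpos => ?_) fun hle => ?_
    · rw [e28] at hpos
      have hne : U ≠ ∅ := by
        intro h0
        rw [h0] at hpos
        simp at hpos
      have e38 : (Expr.sub (.v 38) (.v 18)).val M3 = ((sigF p.B s U : ℕ) : ℤ) - p.g := by
        show M3 38 0 0 - M3 18 0 0 = _
        rw [v3, s3 18 (by decide), hE.hg]
      refine Det.setv ?_ ⟨?_, s3.write (by decide) _ _ _⟩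
      · rw [e38, abs_le]
        constructor <;> linarith
      · rw [e38, if_neg hne]
        simp
    · rw [e28] at hle
      have h0 : U = ∅ := by
        rw [← Finset.card_eq_zero]
        omega
      rw [if_pos h0, sub_zero]
      exact ⟨v3, s3⟩
  rintro M4 ⟨v4, s4⟩
  have hlow : -(p.g : ℤ) ≤ ((sigF p.B s U : ℕ) : ℤ) - (if U = ∅ then 0 else (p.g : ℤ)) := by
    split_ifs <;> linarith
  have hhigh : ((sigF p.B s U : ℕ) : ℤ) - (if U = ∅ then 0 else (p.g : ℤ)) ≤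
      p.B * ((n : ℤ) + 2) := by
    split_ifs <;> linarith
  -- the sum
  refine Det.forL (fun k M' => M' 38 0 0 = psum (h j) x k + (((sigF p.B s U : ℕ) : ℤ) -
      (if U = ∅ then 0 else (p.g : ℤ))) ∧ Same phiL M M') (n + 2) ?_ hB.nΛ hB.nW ?_ ?_ ?_ ?_ ?_
  · have h1 : (Expr.v 12).val (M4.write 49 0 0 0) = M4 12 0 0 := by
      show (M4.write 49 0 0 0) 12 0 0 = _
      rw [Mem.write_arr _ (by norm_num)]
    rw [h1, s4 12 (by decide), hE.hN]
    omega
  · simp
  · rintro l M' z ⟨g1, g2⟩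
    refine ⟨?_, g2.write (by decide) _ _ _⟩
    rw [Mem.write_arr _ (by norm_num)]
    exact g1
  · refine ⟨?_, s4⟩
    rw [psum_zero, zero_add]
    exact v4
  · rintro k hk M' h49 ⟨g1, g2⟩
    have hcell : M' A (k : ℤ) 0 = ((x ⟨k, hk⟩ : ℕ) : ℤ) := by
      rw [g2 A hA1]
      exact hv.cell ⟨k, hk⟩
    have hval : (Expr.sub (.at1 A (.v 49)) (.v 49)).val M' = ((x ⟨k, hk⟩ : ℕ) : ℤ) - k := by
      show M' A (M' 49 0 0) 0 - M' 49 0 0 = _
      rw [h49, hcell]
    have hlt : (⟨k, hk⟩ : Fin (n + 2)) < x ⟨k, hk⟩ ↔ (0 : ℤ) < ((x ⟨k, hk⟩ : ℕ) : ℤ) - k := by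
      rw [Fin.lt_def]
      simp only
      omega
    refine Det.when (fun hpos => ?_) fun hle => ?_
    · rw [hval, ← hlt] at hpos
      have e38 : (Expr.add (.v 38) (.get 8 (hrow (.v 60) (.v 49)) (.at1 A (.v 49)))).val M' =
          psum (h j) x (k + 1) + (((sigF p.B s U : ℕ) : ℤ) -
            (if U = ∅ then 0 else (p.g : ℤ))) := by
        show M' 38 0 0 + M' 8 (M' 60 0 0 * M' 12 0 0 + M' 49 0 0) (M' A (M' 49 0 0) 0) = _
        rw [g1, h49, hcell, g2 60 (by decide), h60, g2 12 (by decide), hE.hN, g2 8 (by decide)]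
        have h8 := hh j hj ⟨k, hk⟩ (x ⟨k, hk⟩)
        simp only at h8
        rw [h8, psum_succ _ _ k hk, if_pos hpos]
        ring
      refine Det.setv ?_ ⟨?_, g2.write (by decide) _ _ _⟩
      · have h1 := psum_abs hb x (k + 1)
        rw [abs_le] at h1
        rw [e38, abs_le]
        constructor <;> linarith
      · rw [e38]
        simp
    · rw [hval] at hle
      refine ⟨?_, g2⟩
      rw [psum_succ _ _ k hk, if_neg (by rw [hlt]; omega), add_zero]
      exact g1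
  · rintro M' - ⟨g1, g2⟩
    refine ⟨?_, g2⟩
    rw [g1, psum_last]
    unfold phi
    ring

end Vale.Agent.P308RAM
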