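import Vale.Agent.P308RAM.SclC

/-!
# The program for the update after a round
-/

set_option linter.unusedSectionVars false

namespace Vale.Agent.P308RAM

open Vale.Agent.P328RAM Vale.Agent.P308Q PMF

variable {W Λ n : ℕ}

/-! ### the counters as integers -/

theorem upd_cnt_some {k : ℕ} {M : Mem} (hc : CntOK n k M) (u : Fin (n + 2)) :
    M 10 (u : ℕ) 0 = ((cntOf n M (some u) : ℕ) : ℤ) := by
  simp only [cntOf]
  rw [Int.toNat_of_nonneg (hc.2 u).1]

theorem upd_cnt_none {k : ℕ} {M : Mem} (hc : CntOK n k M) :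
    M 11 0 0 = ((cntOf n M none : ℕ) : ℤ) := by
  simp only [cntOf]
  rw [Int.toNat_of_nonneg hc.1.1]

theorem upd_cnt_le {k : ℕ} {M : Mem} (hc : CntOK n k M) (o : Option (Fin (n + 2))) :
    cntOf n M o ≤ k := by
  cases o with
  | none =>
      have h1 := upd_cnt_none hc
      have h2 := hc.1.2
      rw [h1] at h2
      exact_mod_cast h2
  | some u =>
      have h1 := upd_cnt_some hc u
      have h2 := (hc.2 u).2
      rw [h1] at h2
      exact_mod_cast h2

theorem upd_cnt_beta {k : ℕ} {M : Mem} (hc : CntOK n k M) :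
    M 10 ((n : ℤ) + 1) 0 = ((cntOf n M (some (vβ n)) : ℕ) : ℤ) := by
  have h := upd_cnt_some hc (vβ n)
  have h2 : (((vβ n : Fin (n + 2)) : ℕ) : ℤ) = (n : ℤ) + 1 := by
    simp [vβ]
  rw [h2] at h
  exact h

theorem upd_cnt_vert {k : ℕ} {M : Mem} (hc : CntOK n k M) {u : ℕ} (hu : u < n) :
    M 10 (u : ℤ) 0 = ((cntOf n M (some ⟨u, by omega⟩) : ℕ) : ℤ) :=
  upd_cnt_some hc ⟨u, by omega⟩

theorem dy_abs (c : Cnt n) (u : ℕ) : |dy c u| ≤ 1 := by
  unfold dy
  split_ifs <;> simp

theorem dyC_det {M : Mem} {p : Par} {i k : ℕ} (hE : Env0 n p M) (hnΛ : n + 2 ≤ Λ)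
    (hnW : n + 2 ≤ W) (hc : CntOK n k M) (hy : ∀ u : ℕ, u < n → |M 7 u 0| ≤ (i : ℤ))
    (hi : i + 1 ≤ W) :
    Det W Λ dyC M (fun M' =>
      (∀ u : ℕ, u < n → M' 7 u 0 = M 7 u 0 + dy (cntOf n M) u) ∧
      ((∃ u < n, dy (cntOf n M) u ≠ 0) → M' 50 0 0 = 1) ∧
      ((¬ ∃ u < n, dy (cntOf n M) u ≠ 0) → M' 50 0 0 = 0) ∧ Same [7, 48, 50] M M') := by
  have h1W : |(1 : ℤ)| ≤ (W : ℤ) := by
    rw [abs_one]
    have : 1 ≤ W := by omega
    exact_mod_cast this
  refine Det.seq (R := fun M' => M' = M.write 50 0 0 0) (Det.setv (by simp [Expr.val])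
    (by simp [Expr.val])) ?_
  rintro M1 rfl
  refine Det.forL (fun k M' =>
      (∀ u : ℕ, u < n → M' 7 u 0 = M 7 u 0 + (if u < k then dy (cntOf n M) u else 0)) ∧
      ((∃ u < k, dy (cntOf n M) u ≠ 0) → M' 50 0 0 = 1) ∧
      ((¬ ∃ u < k, dy (cntOf n M) u ≠ 0) → M' 50 0 0 = 0) ∧ Same [7, 48, 50] M M') n
    ?_ (by omega) (by omega) (by decide) ?_ ?_ ?_ ?_
  · simp only [Expr.val]
    rw [Mem.write_arr _ (by norm_num), Mem.write_arr _ (by norm_num), hE.hn]
    simp
  · rintro l M' z ⟨q1, q2, q3, q4⟩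
    refine ⟨fun u hu => ?_, fun h => ?_, fun h => ?_, q4.write (by simp) _ _ _⟩
    · rw [Mem.write_arr _ (by norm_num)]; exact q1 u hu
    · rw [Mem.write_arr _ (by norm_num)]; exact q2 h
    · rw [Mem.write_arr _ (by norm_num)]; exact q3 h
  · refine ⟨fun u hu => ?_, fun h => ?_, fun h => by simp, (Same.refl _ _).write (by simp) _ _ _⟩
    · rw [Mem.write_arr _ (by norm_num)]; simp
    · obtain ⟨u, hu, _⟩ := h
      exact absurd hu (Nat.not_lt_zero _)
  · rintro l hl M' g0 ⟨q1, q2, q3, q4⟩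
    have e10 : M' 10 = M 10 := q4 10 (by simp)
    have en' : M' 0 0 0 = (n : ℤ) := by rw [q4 0 (by simp)]; exact hE.hn
    have cu : M' 10 (l : ℤ) 0 = ((cntOf n M (some ⟨l, by omega⟩) : ℕ) : ℤ) := by
      rw [e10]; exact upd_cnt_vert hc hl
    have cb : M' 10 ((n : ℤ) + 1) 0 = ((cntOf n M (some (vβ n)) : ℕ) : ℤ) := by
      rw [e10]; exact upd_cnt_beta hc
    have y0 : M' 7 (l : ℤ) 0 = M 7 (l : ℤ) 0 := by
      rw [q1 l hl]; simp
    have hyl := abs_le.1 (hy l hl)
    have hiW : ((i : ℤ) + 1) ≤ (W : ℤ) := by exact_mod_cast hi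
    have hv1 : (Expr.sub (.add (.at1 10 (.v 48)) (.lit 1))
        (.mul (.lit 3) (.at1 10 (.add en (.lit 1))))).val M' =
        ((cntOf n M (some ⟨l, by omega⟩) : ℕ) : ℤ) + 1 -
          3 * ((cntOf n M (some (vβ n)) : ℕ) : ℤ) := by
      simp only [Expr.val, g0, en', cu, cb]
    have hv2 : (Expr.sub (.add (.at1 10 (.add en (.lit 1))) (.lit 1))
        (.mul (.lit 3) (.at1 10 (.v 48)))).val M' =
        ((cntOf n M (some (vβ n)) : ℕ) : ℤ) + 1 -
          3 * ((cntOf n M (some ⟨l, by omega⟩) : ℕ) : ℤ) := by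
      simp only [Expr.val, g0, en', cu, cb]
    -- the value of `dy`
    have hdy : dy (cntOf n M) l =
        if 3 * cntOf n M (some (vβ n)) ≤ cntOf n M (some ⟨l, by omega⟩) then 1
        else if 3 * cntOf n M (some ⟨l, by omega⟩) ≤ cntOf n M (some (vβ n)) then -1 else 0 := by
      unfold dy
      rw [dif_pos hl]
    -- a change by `d ≠ 0`
    have hchange : ∀ (d : ℤ) (e : Expr), dy (cntOf n M) l = d → d ≠ 0 →
        e.val M' = M' 7 (l : ℤ) 0 + d → |M' 7 (l : ℤ) 0 + d| ≤ (W : ℤ) →
        Det W Λ (.seq (.set 7 (.v 48) (.lit 0) e) (.setv 50 (.lit 1))) M' (fun M' =>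
          (∀ u : ℕ, u < n → M' 7 u 0 = M 7 u 0 + (if u < l + 1 then dy (cntOf n M) u else 0)) ∧
          ((∃ u < l + 1, dy (cntOf n M) u ≠ 0) → M' 50 0 0 = 1) ∧
          ((¬ ∃ u < l + 1, dy (cntOf n M) u ≠ 0) → M' 50 0 0 = 0) ∧ Same [7, 48, 50] M M') := by
      intro d e hd hd0 hev hbd
      refine Det.seq (R := fun M'' => M'' = M'.write 7 (l : ℤ) 0 (M' 7 (l : ℤ) 0 + d))
        (Det.set (by rw [hev]; exact hbd) (by
          rw [hev]
          simp only [Expr.val, g0])) ?_
      rintro M'' rfl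
      refine Det.setv (by simp only [Expr.val]; exact h1W) ?_
      simp only [Expr.val]
      refine ⟨fun u hu => ?_, fun _ => by simp, fun h => ?_, ?_⟩
      · rw [Mem.write_arr _ (by norm_num)]
        by_cases hul : u = l
        · subst hul
          rw [Mem.write_self, y0, if_pos (by omega), hd]
        · rw [Mem.write_cell _ _ (by
            rintro ⟨h1, -⟩
            exact hul (by exact_mod_cast h1)), q1 u hu]
          by_cases h2 : u < l
          · rw [if_pos h2, if_pos (by omega)]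
          · rw [if_neg h2, if_neg (by omega)]
      · exact absurd ⟨l, by omega, by rw [hd]; exact hd0⟩ h
      · exact (q4.write (by simp) _ _ _).write (by simp) _ _ _
    refine Det.ite ?_ ?_
    · intro hpos
      rw [hv1] at hpos
      have hd : dy (cntOf n M) l = 1 := by
        rw [hdy, if_pos (by omega)]
      refine hchange 1 _ hd one_ne_zero ?_ ?_
      · simp only [Expr.val, g0]
      · rw [y0, abs_le]
        constructor <;> linarith
    · intro hneg
      rw [hv1] at hneg
      refine Det.when ?_ ?_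
      · intro hpos
        rw [hv2] at hpos
        have hd : dy (cntOf n M) l = -1 := by
          rw [hdy, if_neg (by omega), if_pos (by omega)]
        refine hchange (-1) _ hd (by norm_num) ?_ ?_
        · simp only [Expr.val, g0]
          ring
        · rw [y0, abs_le]
          constructor <;> linarith
      · intro hneg2
        rw [hv2] at hneg2
        have hd : dy (cntOf n M) l = 0 := by
          rw [hdy, if_neg (by omega), if_neg (by omega)]
        have hex : (∃ u < l + 1, dy (cntOf n M) u ≠ 0) ↔ ∃ u < l, dy (cntOf n M) u ≠ 0 := by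
          constructor
          · rintro ⟨u, hu, hu2⟩
            have : u ≠ l := by
              rintro rfl
              exact hu2 hd
            exact ⟨u, by omega, hu2⟩
          · rintro ⟨u, hu, hu2⟩
            exact ⟨u, by omega, hu2⟩
        refine ⟨fun u hu => ?_, fun h => q2 (hex.1 h), fun h => q3 fun h' => h (hex.2 h'), q4⟩
        rw [q1 u hu]
        by_cases hul : u = l
        · subst hul
          rw [if_neg (by omega), if_pos (by omega), hd]
        · by_cases h2 : u < l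
          · rw [if_pos h2, if_pos (by omega)]
          · rw [if_neg h2, if_neg (by omega)]
  · rintro M' _ ⟨q1, q2, q3, q4⟩
    exact ⟨fun u hu => by rw [q1 u hu, if_pos hu], q2, q3, q4⟩

theorem dltC_det {M : Mem} {p : Par} {G : SimpleGraph (Fin n)} {e : ℕ × ℕ} (hE : Env0 n p M)
    (hG : AdjIs G M) (h33 : M 33 0 0 = e.1) (h34 : M 34 0 0 = e.2) (he : e.1 < n ∧ e.2 < n)
    (hW : 1 ≤ W) (hLW : p.L ≤ W) :
    Det W Λ dltC M (fun M' => M' 51 0 0 = dlt p.L G (fun u v => M 4 u v) e ∧
      Same [39, 51, 52] M M') := by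
  have h1W : (1 : ℤ) ≤ W := by exact_mod_cast hW
  have hLW' : (p.L : ℤ) ≤ W := by exact_mod_cast hLW
  refine Det.seq (R := fun M' => M' = M.write 51 0 0 0) (Det.setv (by simp [Expr.val])
    (by simp [Expr.val])) ?_
  rintro M1 rfl
  have w33 : (M.write 51 0 0 0) 33 0 0 = (e.1 : ℤ) := by
    rw [Mem.write_arr _ (by norm_num)]; exact h33
  have w34 : (M.write 51 0 0 0) 34 0 0 = (e.2 : ℤ) := by
    rw [Mem.write_arr _ (by norm_num)]; exact h34
  have w32 : (M.write 51 0 0 0) 32 0 0 = (p.L : ℤ) := by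
    rw [Mem.write_arr _ (by norm_num)]; exact hE.hL
  refine Det.when ?_ ?_
  · intro hpos
    simp only [Expr.val, w33, w34] at hpos
    have hlt : e.1 < e.2 := by omega
    refine Det.seq (R := fun M' => M' 52 0 0 = -(p.L : ℤ) ∧ M' 51 0 0 = 0 ∧ Same [51, 52] M M')
      (Det.setv ?_ ?_) ?_
    · simp only [Expr.val, w32, zero_sub, abs_neg]
      rw [abs_of_nonneg (by positivity)]
      exact hLW'
    · simp only [Expr.val, w32, zero_sub]
      refine ⟨by simp, ?_, ((Same.refl _ _).write (by simp) _ _ _).write (by simp) _ _ _⟩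
      rw [Mem.write_arr _ (by norm_num)]
      simp
    rintro M2 ⟨a52, a51, s2⟩
    have hadj : (Expr.get 1 (.v 33) (.v 34)).val M2 = M 1 (e.1 : ℤ) (e.2 : ℤ) := by
      simp only [Expr.val]
      rw [s2 33 (by simp), s2 34 (by simp), s2 1 (by simp), h33, h34]
    have hG' := hG ⟨e.1, he.1⟩ ⟨e.2, he.2⟩
    refine Det.seq (R := fun M' => M' 52 0 0 = tgt p.L G e.1 e.2 ∧ M' 51 0 0 = 0 ∧
      Same [51, 52] M M') (Det.when ?_ ?_) ?_
    · intro hp
      rw [hadj] at hp
      have hA : G.Adj ⟨e.1, he.1⟩ ⟨e.2, he.2⟩ := by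
        by_contra hcon
        have := hG'.2 hcon
        have h3 : M 1 (e.1 : ℤ) (e.2 : ℤ) = 0 := this
        omega
      have ht : tgt p.L G e.1 e.2 = 0 := by
        unfold tgt
        rw [if_pos ⟨he, hA⟩]
      refine Det.setv (by simp [Expr.val]) ?_
      simp only [Expr.val]
      rw [ht]
      refine ⟨by simp, ?_, s2.write (by simp) _ _ _⟩
      rw [Mem.write_arr _ (by norm_num)]
      exact a51
    · intro hp
      rw [hadj] at hp
      have hA : ¬ G.Adj ⟨e.1, he.1⟩ ⟨e.2, he.2⟩ := by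
        intro hcon
        have := hG'.1 hcon
        have h3 : M 1 (e.1 : ℤ) (e.2 : ℤ) = 1 := this
        omega
      have ht : tgt p.L G e.1 e.2 = -(p.L : ℤ) := by
        unfold tgt
        rw [if_neg]
        rintro ⟨h, h'⟩
        exact hA h'
      exact ⟨by rw [ht]; exact a52, a51, s2⟩
    rintro M3 ⟨b52, b51, s3⟩
    have hd : dlt p.L G (fun u v => M 4 u v) e =
        if M 4 (e.1 : ℤ) (e.2 : ℤ) < tgt p.L G e.1 e.2 then 1
        else if tgt p.L G e.1 e.2 < M 4 (e.1 : ℤ) (e.2 : ℤ) then -1 else 0 := by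
      unfold dlt
      rw [if_pos hlt]
    have r33 : M3 33 0 0 = (e.1 : ℤ) := by rw [s3 33 (by simp)]; exact h33
    have r34 : M3 34 0 0 = (e.2 : ℤ) := by rw [s3 34 (by simp)]; exact h34
    have r4 : M3 4 = M 4 := s3 4 (by simp)
    refine Det.ite ?_ ?_
    · intro hp
      simp only [Expr.val, r33, r34, r4, b52] at hp
      refine Det.setv (by simp only [Expr.val, abs_one]; exact h1W) ?_
      simp only [Expr.val]
      rw [hd, if_pos (by omega)]
      exact ⟨by simp, (s3.write (by simp) _ _ _).mono (by simp)⟩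
    · intro hp
      simp only [Expr.val, r33, r34, r4, b52] at hp
      refine Det.when ?_ ?_
      · intro hp2
        simp only [Expr.val, r33, r34, r4, b52] at hp2
        refine Det.setv (by simp only [Expr.val, abs_neg, abs_one]; exact h1W) ?_
        simp only [Expr.val]
        rw [hd, if_neg (by omega), if_pos (by omega)]
        exact ⟨by simp, (s3.write (by simp) _ _ _).mono (by simp)⟩
      · intro hp2
        simp only [Expr.val, r33, r34, r4, b52] at hp2
        rw [hd, if_neg (by omega), if_neg (by omega)]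
        exact ⟨b51, s3.mono (by simp)⟩
  · intro hneg
    simp only [Expr.val, w33, w34] at hneg
    have hd : dlt p.L G (fun u v => M 4 u v) e = 0 := by
      unfold dlt
      rw [if_neg (by omega)]
    rw [hd]
    exact ⟨by simp, (Same.refl _ _).write (by simp) _ _ _⟩

/-! ### the operation -/

theorem dlt_abs (L : ℕ) (G : SimpleGraph (Fin n)) (a : ℕ → ℕ → ℤ) (e : ℕ × ℕ) :
    |dlt L G a e| ≤ 1 := by
  unfold dlt
  split_ifs <;> simp

theorem dlt_cases (L : ℕ) (G : SimpleGraph (Fin n)) (a : ℕ → ℕ → ℤ) (e : ℕ × ℕ) :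
    dlt L G a e = 1 ∨ dlt L G a e = -1 ∨ dlt L G a e = 0 := by
  unfold dlt
  split_ifs <;> simp

theorem dlt_diag (L : ℕ) (G : SimpleGraph (Fin n)) (a : ℕ → ℕ → ℤ) (e : ℕ × ℕ)
    (h : e.1 = e.2) : dlt L G a e = 0 := by
  unfold dlt
  rw [if_neg (by omega)]

/-- factor of the numerator -/
def fnum (d : ℤ) (c : Cnt n) : ℕ :=
  if d = 1 then 2 * (c (some (vβ n)) + c none)
  else if d = -1 then 2 * c (some (vβ n)) - c none else 1

/-- factor of the denominator -/
def fden (d : ℤ) (c : Cnt n) : ℕ := if d = 0 then 1 else 2 * c (some (vβ n))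

theorem fnum_le {d : ℤ} {c : Cnt n} {S : ℕ} (hS : 1 ≤ S) (hc : ∀ o, c o ≤ S) :
    fnum d c ≤ 4 * S := by
  have h1 := hc (some (vβ n))
  have h2 := hc none
  unfold fnum
  split_ifs <;> omega

theorem fden_le {d : ℤ} {c : Cnt n} {S : ℕ} (hS : 1 ≤ S) (hc : ∀ o, c o ≤ S) :
    fden d c ≤ 4 * S := by
  have h1 := hc (some (vβ n))
  unfold fden
  split_ifs <;> omega

theorem opC_det {M : Mem} {p : Par} {G : SimpleGraph (Fin n)} {e : ℕ × ℕ} {A B S Q : ℕ}
    {N D : ℕ} (hE : Env0 n p M) (hG : AdjIs G M) (hc : CntOK n S M) (hS : 1 ≤ S)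
    (h33 : M 33 0 0 = e.1) (h34 : M 34 0 0 = e.2) (he : e.1 < n ∧ e.2 < n)
    (h35 : M 35 0 0 = N) (h36 : M 36 0 0 = D) (h37 : M 37 0 0 = Q) (hQ : Q + 1 ≤ W)
    (hN : N ≤ B) (hD : D ≤ B) (hB : B * (4 * S) ≤ W) (hSW : 4 * S ≤ W)
    (ha : ∀ u v : ℕ, u < n → v < n → |M 4 u v| ≤ (A : ℤ)) (hA : A + 1 ≤ W)
    (hW : 1 ≤ W) (hLW : p.L ≤ W) :
    Det W Λ opC M (fun M' =>
      M' 35 0 0 = ((N * fnum (dlt p.L G (fun u v => M 4 u v) e) (cntOf n M) : ℕ) : ℤ) ∧
      M' 36 0 0 = ((D * fden (dlt p.L G (fun u v => M 4 u v) e) (cntOf n M) : ℕ) : ℤ) ∧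
      M' 37 0 0 = ((Q + 1 : ℕ) : ℤ) ∧
      (∀ u v : ℕ, M' 4 u v = M 4 u v +
        if (u = e.1 ∧ v = e.2) ∨ (u = e.2 ∧ v = e.1) then
          dlt p.L G (fun u v => M 4 u v) e else 0) ∧
      Same [4, 35, 36, 37, 39, 51, 52] M M') := by
  set d := dlt p.L G (fun u v => M 4 u v) e with hd
  set c := cntOf n M with hcdef
  have hcS : ∀ o, c o ≤ S := fun o => upd_cnt_le hc o
  have hfn : fnum d c ≤ 4 * S := fnum_le hS hcS
  have hfd : fden d c ≤ 4 * S := fden_le hS hcS
  have hNW : N * fnum d c ≤ W := le_trans (Nat.mul_le_mul hN hfn) hB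
  have hDW : D * fden d c ≤ W := le_trans (Nat.mul_le_mul hD hfd) hB
  have hb1 := hcS (some (vβ n))
  have hb2 := hcS none
  refine Det.seq (dltC_det hE hG h33 h34 he hW hLW) ?_
  rintro M1 ⟨a51, s1⟩
  rw [← hd] at a51
  have r35 : M1 35 0 0 = (N : ℤ) := by rw [s1 35 (by simp)]; exact h35
  have r36 : M1 36 0 0 = (D : ℤ) := by rw [s1 36 (by simp)]; exact h36
  have r11 : M1 11 0 0 = ((c none : ℕ) : ℤ) := by rw [s1 11 (by simp)]; exact upd_cnt_none hc
  have r0 : M1 0 0 0 = (n : ℤ) := by rw [s1 0 (by simp)]; exact hE.hn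
  have r10 : M1 10 ((n : ℤ) + 1) 0 = ((c (some (vβ n)) : ℕ) : ℤ) := by
    rw [s1 10 (by simp)]; exact upd_cnt_beta hc
  -- numerator and denominator
  refine Det.seq (R := fun M' => M' 35 0 0 = ((N * fnum d c : ℕ) : ℤ) ∧
    M' 36 0 0 = ((D * fden d c : ℕ) : ℤ) ∧ M' 51 0 0 = d ∧ Same [35, 36, 39, 51, 52] M M') ?_ ?_
  · have s1' : Same [35, 36, 39, 51, 52] M M1 := s1.mono (by simp)
    refine Det.ite ?_ ?_
    · intro hp
      have hd1 : d = 1 := by
        have h1 : 0 < M1 51 0 0 := hp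
        rw [a51] at h1
        rcases dlt_cases p.L G (fun u v => M 4 u v) e with h | h | h <;> rw [← hd] at h <;> omega
      have hf1 : fnum d c = 2 * (c (some (vβ n)) + c none) := by unfold fnum; rw [if_pos hd1]
      have hf2 : fden d c = 2 * c (some (vβ n)) := by
        unfold fden; rw [if_neg (by omega)]
      have hv1 : (Expr.mul (.v 35) (.mul (.lit 2) (.add (.at1 10 (.add en (.lit 1))) (.v 11)))).val M1
          = ((N * fnum d c : ℕ) : ℤ) := by
        simp only [Expr.val, r35, r0, r10, r11]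
        rw [hf1]
        push_cast
        ring
      refine Det.seq (R := fun M' => M' = M1.write 35 0 0 ((N * fnum d c : ℕ) : ℤ))
        (Det.setv ?_ (by rw [hv1])) ?_
      · rw [hv1, abs_of_nonneg (by positivity)]
        exact_mod_cast hNW
      rintro M' rfl
      have hv2 : (Expr.mul (.v 36) (.mul (.lit 2) (.at1 10 (.add en (.lit 1))))).val
          (M1.write 35 0 0 ((N * fnum d c : ℕ) : ℤ)) = ((D * fden d c : ℕ) : ℤ) := by
        simp only [Expr.val]
        rw [Mem.write_arr _ (by norm_num), Mem.write_arr _ (by norm_num),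
          Mem.write_arr _ (by norm_num), r36, r0, r10, hf2]
        push_cast
        ring
      refine Det.setv ?_ ?_
      · rw [hv2, abs_of_nonneg (by positivity)]
        exact_mod_cast hDW
      · rw [hv2]
        refine ⟨?_, by simp, ?_, (s1'.write (by simp) _ _ _).write (by simp) _ _ _⟩
        · rw [Mem.write_arr _ (by norm_num)]; simp
        · rw [Mem.write_arr _ (by norm_num), Mem.write_arr _ (by norm_num)]; exact a51
    · intro hp
      have h1 : M1 51 0 0 ≤ 0 := hp
      rw [a51] at h1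
      refine Det.when ?_ ?_
      · intro hp2
        simp only [Expr.val, a51] at hp2
        have hd1 : d = -1 := by
          rcases dlt_cases p.L G (fun u v => M 4 u v) e with h | h | h <;> rw [← hd] at h <;> omega
        have hf1 : fnum d c = 2 * c (some (vβ n)) - c none := by
          unfold fnum; rw [if_neg (by omega), if_pos hd1]
        have hf2 : fden d c = 2 * c (some (vβ n)) := by
          unfold fden; rw [if_neg (by omega)]
        have hv0 : max ((Expr.lit 0).val M1)
            ((Expr.sub (.mul (.lit 2) (.at1 10 (.add en (.lit 1)))) (.v 11)).val M1) =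
            ((fnum d c : ℕ) : ℤ) := by
          simp only [Expr.val, r0, r10, r11]
          rw [hf1]
          omega
        refine Det.seq (R := fun M' => M' = M1.write 52 0 0 ((fnum d c : ℕ) : ℤ))
          (Det.maxv ?_ (by rw [hv0])) ?_
        · rw [hv0, abs_of_nonneg (by positivity)]
          exact_mod_cast hfn.trans hSW
        rintro M' rfl
        set M2 := M1.write 52 0 0 ((fnum d c : ℕ) : ℤ) with hM2
        have t52 : M2 52 0 0 = ((fnum d c : ℕ) : ℤ) := by rw [hM2]; simp
        have t35 : M2 35 0 0 = (N : ℤ) := by rw [hM2, Mem.write_arr _ (by norm_num)]; exact r35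
        have t36 : M2 36 0 0 = (D : ℤ) := by rw [hM2, Mem.write_arr _ (by norm_num)]; exact r36
        have t0 : M2 0 0 0 = (n : ℤ) := by rw [hM2, Mem.write_arr _ (by norm_num)]; exact r0
        have t10 : M2 10 ((n : ℤ) + 1) 0 = ((c (some (vβ n)) : ℕ) : ℤ) := by
          rw [hM2, Mem.write_arr _ (by norm_num)]; exact r10
        have t51 : M2 51 0 0 = d := by rw [hM2, Mem.write_arr _ (by norm_num)]; exact a51
        have s2 : Same [35, 36, 39, 51, 52] M M2 := s1'.write (by simp) _ _ _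
        have hv1 : (Expr.mul (.v 35) (.v 52)).val M2 = ((N * fnum d c : ℕ) : ℤ) := by
          simp only [Expr.val, t35, t52]
          push_cast
          ring
        refine Det.seq (R := fun M' => M' = M2.write 35 0 0 ((N * fnum d c : ℕ) : ℤ))
          (Det.setv ?_ (by rw [hv1])) ?_
        · rw [hv1, abs_of_nonneg (by positivity)]
          exact_mod_cast hNW
        rintro M' rfl
        have hv2 : (Expr.mul (.v 36) (.mul (.lit 2) (.at1 10 (.add en (.lit 1))))).val
            (M2.write 35 0 0 ((N * fnum d c : ℕ) : ℤ)) = ((D * fden d c : ℕ) : ℤ) := by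
          simp only [Expr.val]
          rw [Mem.write_arr _ (by norm_num), Mem.write_arr _ (by norm_num),
            Mem.write_arr _ (by norm_num), t36, t0, t10, hf2]
          push_cast
          ring
        refine Det.setv ?_ ?_
        · rw [hv2, abs_of_nonneg (by positivity)]
          exact_mod_cast hDW
        · rw [hv2]
          refine ⟨?_, by simp, ?_, (s2.write (by simp) _ _ _).write (by simp) _ _ _⟩
          · rw [Mem.write_arr _ (by norm_num)]; simp
          · rw [Mem.write_arr _ (by norm_num), Mem.write_arr _ (by norm_num)]; exact t51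
      · intro hp2
        simp only [Expr.val, a51] at hp2
        have hd1 : d = 0 := by omega
        have hf1 : fnum d c = 1 := by
          unfold fnum; rw [if_neg (by omega), if_neg (by omega)]
        have hf2 : fden d c = 1 := by
          unfold fden; rw [if_pos hd1]
        exact ⟨by rw [r35, hf1, mul_one], by rw [r36, hf2, mul_one], a51, s1'⟩
  rintro M2 ⟨b35, b36, b51, s2⟩
  -- the edge exponents
  have t33 : M2 33 0 0 = (e.1 : ℤ) := by rw [s2 33 (by simp)]; exact h33
  have t34 : M2 34 0 0 = (e.2 : ℤ) := by rw [s2 34 (by simp)]; exact h34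
  have t4 : M2 4 = M 4 := s2 4 (by simp)
  have t37 : M2 37 0 0 = (Q : ℤ) := by rw [s2 37 (by simp)]; exact h37
  have hdabs : |d| ≤ 1 := dlt_abs _ _ _ _
  have hAW : ((A : ℤ) + 1) ≤ (W : ℤ) := by exact_mod_cast hA
  have hv1 : (Expr.add (.get 4 (.v 33) (.v 34)) (.v 51)).val M2 =
      M 4 (e.1 : ℤ) (e.2 : ℤ) + d := by
    simp only [Expr.val, t33, t34, t4, b51]
  refine Det.seq (R := fun M' => M' = M2.write 4 (e.1 : ℤ) (e.2 : ℤ)
    (M 4 (e.1 : ℤ) (e.2 : ℤ) + d)) (Det.set ?_ ?_) ?_
  · rw [hv1]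
    refine (abs_add_le _ _).trans ?_
    have := ha e.1 e.2 he.1 he.2
    linarith
  · rw [hv1]
    simp only [Expr.val, t33, t34]
  rintro M3 rfl
  set M3 := M2.write 4 (e.1 : ℤ) (e.2 : ℤ) (M 4 (e.1 : ℤ) (e.2 : ℤ) + d) with hM3
  have u33 : M3 33 0 0 = (e.1 : ℤ) := by rw [hM3, Mem.write_arr _ (by norm_num)]; exact t33
  have u34 : M3 34 0 0 = (e.2 : ℤ) := by rw [hM3, Mem.write_arr _ (by norm_num)]; exact t34
  have u37 : M3 37 0 0 = (Q : ℤ) := by rw [hM3, Mem.write_arr _ (by norm_num)]; exact t37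
  have u35 : M3 35 0 0 = ((N * fnum d c : ℕ) : ℤ) := by
    rw [hM3, Mem.write_arr _ (by norm_num)]; exact b35
  have u36 : M3 36 0 0 = ((D * fden d c : ℕ) : ℤ) := by
    rw [hM3, Mem.write_arr _ (by norm_num)]; exact b36
  have u51 : M3 51 0 0 = d := by rw [hM3, Mem.write_arr _ (by norm_num)]; exact b51
  have s3 : Same [4, 35, 36, 37, 39, 51, 52] M M3 := (s2.mono (by simp)).write (by simp) _ _ _
  have hcell : M3 4 (e.2 : ℤ) (e.1 : ℤ) = M 4 (e.2 : ℤ) (e.1 : ℤ) + (if e.1 = e.2 then d else 0) := by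
    by_cases h12 : e.1 = e.2
    · rw [hM3, if_pos h12, ← h12, Mem.write_self]
    · rw [hM3, if_neg h12, Mem.write_cell _ _ (by
        rintro ⟨h1, -⟩
        exact h12 (by exact_mod_cast h1.symm)), t4, add_zero]
  have hd12 : e.1 = e.2 → d = 0 := fun h => dlt_diag _ _ _ _ h
  have hcell' : M3 4 (e.2 : ℤ) (e.1 : ℤ) = M 4 (e.2 : ℤ) (e.1 : ℤ) := by
    rw [hcell]
    split_ifs with h12
    · rw [hd12 h12, add_zero]
    · rw [add_zero]
  have hv2 : (Expr.add (.get 4 (.v 34) (.v 33)) (.v 51)).val M3 =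
      M 4 (e.2 : ℤ) (e.1 : ℤ) + d := by
    simp only [Expr.val, u33, u34, u51, hcell']
  refine Det.seq (R := fun M' => M' = M3.write 4 (e.2 : ℤ) (e.1 : ℤ)
    (M 4 (e.2 : ℤ) (e.1 : ℤ) + d)) (Det.set ?_ ?_) ?_
  · rw [hv2]
    refine (abs_add_le _ _).trans ?_
    have := ha e.2 e.1 he.2 he.1
    linarith
  · rw [hv2]
    simp only [Expr.val, u33, u34]
  rintro M4 rfl
  set M4 := M3.write 4 (e.2 : ℤ) (e.1 : ℤ) (M 4 (e.2 : ℤ) (e.1 : ℤ) + d) with hM4
  have v37 : M4 37 0 0 = (Q : ℤ) := by rw [hM4, Mem.write_arr _ (by norm_num)]; exact u37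
  have hv3 : (Expr.add (.v 37) (.lit 1)).val M4 = ((Q + 1 : ℕ) : ℤ) := by
    simp only [Expr.val, v37]
    push_cast
    ring
  refine Det.setv ?_ ?_
  · rw [hv3, abs_of_nonneg (by positivity)]
    exact_mod_cast hQ
  · rw [hv3]
    refine ⟨?_, ?_, by simp, ?_, (s3.write (by simp) _ _ _).write (by simp) _ _ _⟩
    · rw [Mem.write_arr _ (by norm_num), hM4, Mem.write_arr _ (by norm_num)]; exact u35
    · rw [Mem.write_arr _ (by norm_num), hM4, Mem.write_arr _ (by norm_num)]; exact u36
    · intro u v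
      rw [Mem.write_arr _ (by norm_num)]
      by_cases h21 : u = e.2 ∧ v = e.1
      · obtain ⟨rfl, rfl⟩ := h21
        rw [hM4, Mem.write_self, if_pos (Or.inr ⟨rfl, rfl⟩)]
      · rw [hM4, Mem.write_cell _ _ (by
          rintro ⟨h1, h2⟩
          exact h21 ⟨by exact_mod_cast h1, by exact_mod_cast h2⟩)]
        by_cases h12 : u = e.1 ∧ v = e.2
        · obtain ⟨rfl, rfl⟩ := h12
          rw [hM3, Mem.write_self, if_pos (Or.inl ⟨rfl, rfl⟩)]
        · rw [hM3, Mem.write_cell _ _ (by
            rintro ⟨h1, h2⟩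
            exact h12 ⟨by exact_mod_cast h1, by exact_mod_cast h2⟩), t4, if_neg (by
            rintro (h | h)
            · exact h12 h
            · exact h21 h), add_zero]

/-! ### the whole update -/

theorem al_ext {x y : Al n} (h1 : x.hist = y.hist) (h2 : x.a = y.a) (h3 : x.y = y.y)
    (h4 : x.q = y.q) (h5 : x.num = y.num) (h6 : x.den = y.den) : x = y := by
  cases x
  cases y
  simp only at h1 h2 h3 h4 h5 h6
  subst h1 h2 h3 h4 h5 h6
  rfl

theorem scl_abs {a : ℕ → ℕ → ℤ} {y : ℕ → ℤ} {A B C : ℕ} (ha : ∀ u v, |a u v| ≤ (A : ℤ))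
    (hy : ∀ u, |y u| ≤ (B : ℤ)) (hC : A + 2 * B ≤ C) (u v : Fin (n + 2)) :
    |scl n a y u v| ≤ (C : ℤ) := by
  have hC' : (A : ℤ) + 2 * B ≤ C := by exact_mod_cast hC
  unfold scl
  split_ifs
  · have h1 := ha u v
    have h2 := hy u
    have h3 := hy v
    have h4 := abs_add_le (a u v + y u) (y v)
    have h5 := abs_add_le (a u v) (y u)
    linarith
  · simp

theorem histIs_obsA (p : Par) (M : Mem) : HistIs (obsA n p M).hist p.R M := by
  intro j hj u v
  simp only [obsA]
  rw [if_pos hj]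

/-- the last part of the update: the new stage of the history -/
theorem upd_scl {M : Mem} {p : Par} {i : ℕ} (hE : Env0 n p M) (hnΛ : n + 2 ≤ Λ) (hnW : n + 2 ≤ W)
    (hi : i < p.R) (h61 : M 61 0 0 = i) (ha : ∀ u v, |(obsA n p M).a u v| ≤ ((p.L + (i + 1) : ℕ) : ℤ))
    (hy : ∀ u, |(obsA n p M).y u| ≤ ((i + 1 : ℕ) : ℤ)) (hW : p.L + 3 * p.R ≤ W) :
    Det W Λ (sclC (.add (.v 61) (.lit 1))) M (fun M' =>
      obsA n p M' = ⟨Function.update (obsA n p M).hist (i + 1)
        (scl n (obsA n p M).a (obsA n p M).y), (obsA n p M).a, (obsA n p M).y, (obsA n p M).q,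
        (obsA n p M).num, (obsA n p M).den⟩ ∧
      (∀ u v : Fin (n + 2), |scl n (obsA n p M).a (obsA n p M).y u v| ≤
        ((p.L + 3 * p.R : ℕ) : ℤ)) ∧ Same [8, 40, 41] M M') := by
  have hscl : ∀ u v : Fin (n + 2), |scl n (obsA n p M).a (obsA n p M).y u v| ≤
      ((p.L + 3 * p.R : ℕ) : ℤ) := fun u v => scl_abs ha hy (by omega) u v
  have hW' : ((p.L + 3 * p.R : ℕ) : ℤ) ≤ (W : ℤ) := by exact_mod_cast hW
  have h := sclC_det (W := W) (Λ := Λ) (M := M) (h := (obsA n p M).hist) (m := p.R) (j := i + 1)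
    (je := .add (.v 61) (.lit 1)) (a := (obsA n p M).a) (y := (obsA n p M).y) hE.hn hE.hN
    (by omega) (histIs_obsA p M) ?_ ?_ ?_ hnΛ hnW (fun u v => (hscl u v).trans hW')
  · refine h.mono ?_
    rintro M' ⟨g1, g2⟩
    refine ⟨?_, hscl, g2⟩
    refine al_ext ?_ ?_ ?_ ?_ ?_ ?_
    · funext j
      by_cases hj : j ≤ p.R
      · funext u v
        have h1 := g1 j hj u v
        simp only
        rw [← h1]
        simp only [obsA]
        rw [if_pos hj]
      · simp only
        rw [Function.update_of_ne (by omega)]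
        simp only [obsA]
        rw [if_neg hj, if_neg hj]
    · simp only [obsA]
      rw [g2 4 (by simp)]
    · simp only [obsA]
      rw [g2 7 (by simp)]
    · simp only [obsA]
      rw [g2 37 (by simp)]
    · simp only [obsA]
      rw [g2 35 (by simp)]
    · simp only [obsA]
      rw [g2 36 (by simp)]
  · intro M' hM'
    simp only [Expr.val]
    rw [hM' 61 (by simp), h61]
    push_cast
    rfl
  · intro u v hu hv
    simp only [obsA]
    rw [if_pos ⟨hu, hv⟩]
  · intro u hu
    simp only [obsA]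
    rw [if_pos hu]

theorem opE_lt {q L : ℕ} (h : q < L * (n * n)) : (opE n q).1 < n ∧ (opE n q).2 < n := by
  have hn : 0 < n := by
    rcases Nat.eq_zero_or_pos n with h0 | h0
    · subst h0; simp at h
    · exact h0
  have h1 : q % (n * n) < n * n := Nat.mod_lt _ (Nat.mul_pos hn hn)
  unfold opE
  exact ⟨Nat.div_lt_of_lt_mul h1, Nat.mod_lt _ hn⟩

theorem dlt_congr_at {L : ℕ} (G : SimpleGraph (Fin n)) {a b : ℕ → ℕ → ℤ} (e : ℕ × ℕ)
    (h : a e.1 e.2 = b e.1 e.2) : dlt L G a e = dlt L G b e := by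
  unfold dlt
  rw [h]

/-- the deterministic update -/
theorem updC_det {M : Mem} {p : Par} {G : SimpleGraph (Fin n)} {i E : ℕ}
    (hE : Env0 n p M) (hB : Bnd W Λ n p E) (hG : AdjIs G M) (hS : 1 ≤ p.S)
    (hEE : p.L + 3 * p.R ≤ E) (hW : (4 * p.S) ^ p.R ≤ W)
    (hi : i < p.R) (h61 : M 61 0 0 = i) (hc : CntOK n p.S M) (hA : AlB p i (obsA n p M))
    (h0 : NN0 M) (hq : (obsA n p M).q < p.L * (n * n))
    (h33 : M 33 0 0 = (opE n (obsA n p M).q).1) (h34 : M 34 0 0 = (opE n (obsA n p M).q).2) :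
    Det W Λ updC M (fun M' => obsA n p M' = updA p G i (obsA n p M) (cntOf n M) ∧
      AlB p (i + 1) (obsA n p M') ∧ NN0 M' ∧ Same updL M M') := by
  have h1W : 1 ≤ W := by have := hB.nW; omega
  have hEW := hB.EW
  have hRW := hB.RW
  have hpow : ∀ k ≤ p.R, (4 * p.S) ^ k ≤ W := fun k hk =>
    (Nat.pow_le_pow_right (by omega) hk).trans hW
  have hyM : ∀ u : ℕ, u < n → |M 7 u 0| ≤ (i : ℤ) := by
    intro u hu
    have := hA.y u
    simp only [obsA] at this
    rw [if_pos hu] at this
    exact this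
  have haM : ∀ u v : ℕ, u < n → v < n → |M 4 u v| ≤ ((p.L + i : ℕ) : ℤ) := by
    intro u v hu hv
    have := hA.a u v
    simp only [obsA] at this
    rw [if_pos ⟨hu, hv⟩] at this
    exact this
  have hnotq : ¬ p.L * (n * n) ≤ (obsA n p M).q := by omega
  refine Det.seq (dyC_det hE hB.nΛ hB.nW hc hyM (by omega)) ?_
  rintro M1 ⟨y1, y2, y3, s1⟩
  have hE1 : Env0 n p M1 := hE.same s1 (by simp)
  have m4 : M1 4 = M 4 := s1 4 (by simp)
  have m8 : M1 8 = M 8 := s1 8 (by simp)
  have m35 : M1 35 = M 35 := s1 35 (by simp)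
  have m36 : M1 36 = M 36 := s1 36 (by simp)
  have m37 : M1 37 = M 37 := s1 37 (by simp)
  have m61 : M1 61 0 0 = i := by rw [s1 61 (by simp)]; exact h61
  have hobs1 : obsA n p M1 = ⟨(obsA n p M).hist, (obsA n p M).a,
      (fun u => (obsA n p M).y u + dy (cntOf n M) u), (obsA n p M).q, (obsA n p M).num,
      (obsA n p M).den⟩ := by
    refine al_ext ?_ ?_ ?_ ?_ ?_ ?_
    · simp only [obsA, m8]
    · simp only [obsA, m4]
    · funext u
      simp only [obsA]
      by_cases hu : u < n
      · rw [if_pos hu, if_pos hu, y1 u hu]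
      · rw [if_neg hu, if_neg hu]
        unfold dy
        rw [dif_neg hu, add_zero]
    · simp only [obsA, m37]
    · simp only [obsA, m35]
    · simp only [obsA, m36]
  by_cases hex : ∃ u < n, dy (cntOf n M) u ≠ 0
  · -- update of the vertex exponents
    have h50 : M1 50 0 0 = 1 := y2 hex
    refine Det.seq (R := fun M' => M' = M1) ?_ ?_
    · refine Det.ite (fun _ => Det.rep_zero rfl) (fun h => ?_)
      have : M1 50 0 0 ≤ 0 := h
      omega
    rintro M' rfl
    have ha1 : ∀ u v, |(obsA n p M').a u v| ≤ ((p.L + (i + 1) : ℕ) : ℤ) := by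
      intro u v
      rw [hobs1]
      refine (hA.a u v).trans ?_
      push_cast
      omega
    have hy1 : ∀ u, |(obsA n p M').y u| ≤ ((i + 1 : ℕ) : ℤ) := by
      intro u
      rw [hobs1]
      have h1 := hA.y u
      have h2 := dy_abs (cntOf n M) u
      have h3 := abs_add_le ((obsA n p M).y u) (dy (cntOf n M) u)
      push_cast
      linarith
    refine (upd_scl hE1 hB.nΛ hB.nW hi m61 ha1 hy1 (by omega)).mono ?_
    rintro M2 ⟨f1, f2, f3⟩
    have hfin : obsA n p M2 = updA p G i (obsA n p M) (cntOf n M) := by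
      rw [f1, hobs1]
      unfold updA
      rw [if_neg hnotq, if_pos hex]
    have s2 : Same updL M M2 := (s1.mono (by simp [updL])).trans (f3.mono (by simp [updL]))
    refine ⟨hfin, ?_, ?_, s2⟩
    · rw [f1]
      have hp1 : (4 * p.S) ^ i ≤ (4 * p.S) ^ (i + 1) := Nat.pow_le_pow_right (by omega) (by omega)
      refine ⟨?_, ha1, hy1, ?_, ?_, ?_⟩
      · intro j u v
        simp only
        by_cases hj : j = i + 1
        · subst hj
          rw [Function.update_self]
          exact f2 u v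
        · rw [Function.update_of_ne hj, hobs1]
          exact hA.hist j u v
      · rw [hobs1]
        have := hA.q
        simp only
        omega
      · rw [hobs1]
        exact hA.num.trans hp1
      · rw [hobs1]
        exact hA.den.trans hp1
    · exact ⟨by rw [f3 37 (by simp), m37]; exact h0.q, by rw [f3 35 (by simp), m35]; exact h0.num,
        by rw [f3 36 (by simp), m36]; exact h0.den⟩
  · -- operation
    have h50 : M1 50 0 0 = 0 := y3 hex
    have hdy0 : ∀ u, dy (cntOf n M) u = 0 := by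
      intro u
      by_cases hu : u < n
      · by_contra hcon
        exact hex ⟨u, hu, hcon⟩
      · unfold dy
        rw [dif_neg hu]
    have hobs1' : obsA n p M1 = obsA n p M := by
      rw [hobs1]
      refine al_ext rfl rfl ?_ rfl rfl rfl
      funext u
      simp only
      rw [hdy0 u, add_zero]
    have hG1 : AdjIs G M1 := by
      unfold AdjIs
      rw [s1 1 (by simp)]
      exact hG
    have hc1 : CntOK n p.S M1 := by
      unfold CntOK
      rw [s1 11 (by simp), s1 10 (by simp)]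
      exact hc
    have hcnt1 : cntOf n M1 = cntOf n M := by
      unfold cntOf
      rw [s1 11 (by simp), s1 10 (by simp)]
    have hlt := opE_lt hq
    have q35 : M1 35 0 0 = (((obsA n p M).num : ℕ) : ℤ) := by
      rw [m35]
      simp only [obsA]
      rw [Int.toNat_of_nonneg h0.num]
    have q36 : M1 36 0 0 = (((obsA n p M).den : ℕ) : ℤ) := by
      rw [m36]
      simp only [obsA]
      rw [Int.toNat_of_nonneg h0.den]
    have q37 : M1 37 0 0 = (((obsA n p M).q : ℕ) : ℤ) := by
      rw [m37]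
      simp only [obsA]
      rw [Int.toNat_of_nonneg h0.q]
    have hqi := hA.q
    have h4S : (4 * p.S) ^ i * (4 * p.S) ≤ W := by
      rw [← pow_succ]
      exact hpow (i + 1) (by omega)
    have h4S' : 4 * p.S ≤ W := by
      have := hpow 1 (by omega)
      rwa [pow_one] at this
    have hop := opC_det (W := W) (Λ := Λ) (M := M1) (p := p) (G := G) (e := opE n (obsA n p M).q)
      (A := p.L + i) (B := (4 * p.S) ^ i) (S := p.S) (Q := (obsA n p M).q)
      (N := (obsA n p M).num) (D := (obsA n p M).den) hE1 hG1 hc1 hS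
      (by rw [s1 33 (by simp)]; exact h33) (by rw [s1 34 (by simp)]; exact h34) hlt q35 q36 q37
      (by omega) hA.num hA.den h4S h4S' (fun u v hu hv => by rw [m4]; exact haM u v hu hv)
      (by omega) h1W hB.LW
    have hdlt : dlt p.L G (fun u v => M1 4 u v) (opE n (obsA n p M).q) =
        dlt p.L G (obsA n p M).a (opE n (obsA n p M).q) := by
      refine dlt_congr_at _ _ ?_
      rw [m4]
      exact (if_pos hlt).symm
    rw [hdlt, hcnt1] at hop
    refine Det.seq (Det.ite (fun h => ?_) (fun _ => hop)) ?_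
    · have : 0 < M1 50 0 0 := h
      omega
    rintro M2 ⟨g35, g36, g37, g4, g⟩
    set e := opE n (obsA n p M).q with he
    set d := dlt p.L G (obsA n p M).a e with hd
    have hE2 : Env0 n p M2 := hE1.same g (by simp)
    have hda : |d| ≤ 1 := dlt_abs _ _ _ _
    have hobs2 : obsA n p M2 = ⟨(obsA n p M).hist, addE (obsA n p M).a e d, (obsA n p M).y,
        (obsA n p M).q + 1, (obsA n p M).num * fnum d (cntOf n M),
        (obsA n p M).den * fden d (cntOf n M)⟩ := by
      refine al_ext ?_ ?_ ?_ ?_ ?_ ?_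
      · simp only [obsA]
        rw [g 8 (by simp), m8]
      · funext u v
        simp only [addE, obsA]
        by_cases huv : u < n ∧ v < n
        · rw [if_pos huv, if_pos huv, g4, m4]
        · rw [if_neg huv, if_neg huv, if_neg, add_zero]
          rintro (⟨h1, h2⟩ | ⟨h1, h2⟩)
          · exact huv ⟨by rw [h1]; exact hlt.1, by rw [h2]; exact hlt.2⟩
          · exact huv ⟨by rw [h1]; exact hlt.2, by rw [h2]; exact hlt.1⟩
      · have h7 : (obsA n p M2).y = (obsA n p M1).y := by
          simp only [obsA]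
          rw [g 7 (by simp)]
        rw [h7, hobs1']
      · simp only [obsA] at g37 ⊢
        rw [g37, Int.toNat_natCast]
      · simp only [obsA] at g35 ⊢
        rw [g35, Int.toNat_natCast]
      · simp only [obsA] at g36 ⊢
        rw [g36, Int.toNat_natCast]
    have ha2 : ∀ u v, |(obsA n p M2).a u v| ≤ ((p.L + (i + 1) : ℕ) : ℤ) := by
      intro u v
      rw [hobs2]
      simp only [addE]
      have h1 := hA.a u v
      push_cast at h1 ⊢
      split_ifs
      · have h3 := abs_add_le ((obsA n p M).a u v) d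
        linarith
      · rw [add_zero]
        linarith
    have hy2 : ∀ u, |(obsA n p M2).y u| ≤ ((i + 1 : ℕ) : ℤ) := by
      intro u
      rw [hobs2]
      refine (hA.y u).trans ?_
      push_cast
      omega
    have m61' : M2 61 0 0 = i := by rw [g 61 (by simp)]; exact m61
    refine (upd_scl hE2 hB.nΛ hB.nW hi m61' ha2 hy2 (by omega)).mono ?_
    rintro M3 ⟨f1, f2, f3⟩
    have hfin : obsA n p M3 = updA p G i (obsA n p M) (cntOf n M) := by
      rw [f1, hobs2]
      unfold updA
      rw [if_neg hnotq, if_neg hex]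
      rfl
    have s3 : Same updL M M3 := ((s1.mono (by simp [updL])).trans (g.mono (by simp [updL]))).trans
      (f3.mono (by simp [updL]))
    have hcS : ∀ o, cntOf n M o ≤ p.S := fun o => upd_cnt_le hc o
    refine ⟨hfin, ?_, ?_, s3⟩
    · rw [f1]
      refine ⟨?_, ha2, hy2, ?_, ?_, ?_⟩
      · intro j u v
        simp only
        by_cases hj : j = i + 1
        · subst hj
          rw [Function.update_self]
          exact f2 u v
        · rw [Function.update_of_ne hj, hobs2]
          exact hA.hist j u v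
      · rw [hobs2]
        simp only
        omega
      · rw [hobs2, pow_succ]
        exact Nat.mul_le_mul hA.num (fnum_le hS hcS)
      · rw [hobs2, pow_succ]
        exact Nat.mul_le_mul hA.den (fden_le hS hcS)
    · refine ⟨?_, ?_, ?_⟩
      · rw [f3 37 (by simp), g37]; positivity
      · rw [f3 35 (by simp), g35]; positivity
      · rw [f3 36 (by simp), g36]; positivity

end Vale.Agent.P308RAM
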