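import Vale.Agent.P308RAM.CntC
import Vale.Agent.P308RAM.UpdC

/-!
# The program for a round
-/

namespace Vale.Agent.P308RAM

open Vale.Agent.P328RAM Vale.Agent.P308Q PMF

variable {W Λ n : ℕ}

/-- the arrays which the program of a round may change -/
def roundL : List ℕ := [33, 34] ++ cntL ++ updL

theorem roundC_Wr : ∀ a ∈ roundC.Wr, a ∈ roundL := by
  decide +kernel

/-- the observation depends only on six arrays -/
theorem rnd_obsA {p : Par} {M M' : Mem} (h4 : M' 4 = M 4) (h7 : M' 7 = M 7) (h8 : M' 8 = M 8)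
    (h35 : M' 35 = M 35) (h36 : M' 36 = M 36) (h37 : M' 37 = M 37) :
    obsA n p M' = obsA n p M := by
  unfold obsA
  rw [h4, h7, h8, h35, h36, h37]

theorem rnd_AlB_succ {p : Par} {i : ℕ} {x : Al n} (hS : 1 ≤ p.S) (h : AlB p i x) :
    AlB p (i + 1) x := by
  have h1 : (4 * p.S) ^ i ≤ (4 * p.S) ^ (i + 1) := Nat.pow_le_pow_right (by omega) (by omega)
  refine ⟨h.hist, fun u v => (h.a u v).trans ?_, fun u => (h.y u).trans ?_, by have := h.q; omega,
    h.num.trans h1, h.den.trans h1⟩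
  · exact_mod_cast (by omega : p.L + i ≤ p.L + (i + 1))
  · exact_mod_cast (by omega : i ≤ i + 1)

/-- the program for the pair of the operation -/
theorem rnd_opEC_det {M : Mem} {q : ℕ} (hn : M 0 0 0 = n) (hq : M 37 0 0 = q) (hqW : q ≤ W) :
    Det W Λ opEC M (fun M' => M' 33 0 0 = ((opE n q).1 : ℕ) ∧ M' 34 0 0 = ((opE n q).2 : ℕ) ∧
      Same [33, 34] M M') := by
  have hcast : ∀ z : ℕ, z ≤ q → |(z : ℤ)| ≤ (W : ℤ) := by
    intro z hz
    rw [abs_of_nonneg (by positivity)]
    exact_mod_cast hz.trans hqW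
  have hr : q % (n * n) ≤ q := Nat.mod_le _ _
  have v1 : (Expr.sub (.v 37) (.mul (.mul en en) (.div (.v 37) (.mul en en)))).val M =
      ((q % (n * n) : ℕ) : ℤ) := by
    simp only [Expr.val, hn, hq]
    rw [Int.natCast_mod, Int.emod_def]
    push_cast
    rfl
  refine Det.seq (R := fun M' => M' = M.write 33 0 0 ((q % (n * n) : ℕ) : ℤ))
    (Det.setv (by rw [v1]; exact hcast _ hr) (by rw [v1])) ?_
  rintro M1 rfl
  set M1 : Mem := M.write 33 0 0 ((q % (n * n) : ℕ) : ℤ) with hM1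
  have n1 : M1 0 0 0 = n := by rw [hM1, Mem.write_arr _ (by norm_num)]; exact hn
  have r1 : M1 33 0 0 = ((q % (n * n) : ℕ) : ℤ) := by rw [hM1, Mem.write_self]
  have v2 : (Expr.sub (.v 33) (.mul en (.div (.v 33) en))).val M1 =
      ((q % (n * n) % n : ℕ) : ℤ) := by
    simp only [Expr.val, n1, r1]
    rw [Int.natCast_mod _ n, Int.emod_def]
  refine Det.seq (R := fun M' => M' = M1.write 34 0 0 ((q % (n * n) % n : ℕ) : ℤ))
    (Det.setv (by rw [v2]; exact hcast _ ((Nat.mod_le _ _).trans hr)) (by rw [v2])) ?_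
  rintro M2 rfl
  set M2 : Mem := M1.write 34 0 0 ((q % (n * n) % n : ℕ) : ℤ) with hM2
  have n2 : M2 0 0 0 = n := by rw [hM2, Mem.write_arr _ (by norm_num)]; exact n1
  have r2 : M2 33 0 0 = ((q % (n * n) : ℕ) : ℤ) := by
    rw [hM2, Mem.write_arr _ (by norm_num)]; exact r1
  have v3 : (Expr.div (.v 33) en).val M2 = ((q % (n * n) / n : ℕ) : ℤ) := by
    simp only [Expr.val, n2, r2]
    rw [Int.natCast_div]
  refine Det.setv (by rw [v3]; exact hcast _ ((Nat.div_le_self _ _).trans hr)) ?_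
  rw [v3]
  refine ⟨by rw [Mem.write_self]; rfl, ?_, ?_⟩
  · rw [Mem.write_arr _ (by norm_num), hM2, Mem.write_self]
    rfl
  · exact (((Same.refl _ _).write (by simp) _ _ _).write (by simp) _ _ _).write (by simp) _ _ _

theorem roundC_sim {M : Mem} {p : Par} {G : SimpleGraph (Fin n)} {i E : ℕ} (hne : n % 2 = 0)
    (hE : Env0 n p M) (hB : Bnd W Λ n p E) (hG : AdjIs G M) (hS : 1 ≤ p.S)
    (hEE : p.L + 3 * p.R ≤ E) (hW : (4 * p.S) ^ p.R ≤ W)
    (hi : i < p.R) (h61 : M 61 0 0 = i) (hA : AlB p i (obsA n p M)) (h0 : NN0 M) :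
    Sim W Λ roundC M (obsA n p) (roundK p G i (obsA n p M))
      (fun M' => AlB p (i + 1) (obsA n p M') ∧ NN0 M' ∧ Same roundL M M') := by
  obtain ⟨q, hq⟩ : ∃ q : ℕ, M 37 0 0 = (q : ℤ) := ⟨(M 37 0 0).toNat, by have := h0.q; omega⟩
  have hqo : (obsA n p M).q = q := by
    show (M 37 0 0).toNat = q
    rw [hq, Int.toNat_natCast]
  have hqi : q ≤ i := by rw [← hqo]; exact hA.q
  have hcond : (Expr.sub (.mul (.v 32) (.mul en en)) (.v 37)).val M =
      ((p.L * (n * n) : ℕ) : ℤ) - q := by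
    simp only [Expr.val, hE.hL, hE.hn, hq]
    push_cast
    rfl
  refine Sim.when (fun h => ?_) (fun h => ?_)
  · rw [hcond] at h
    have hlt : q < p.L * (n * n) := by
      have h1 : (q : ℤ) < ((p.L * (n * n) : ℕ) : ℤ) := by linarith
      exact_mod_cast h1
    have hmu : roundK p G i (obsA n p M) =
        (cntK p (opE n (obsA n p M).q) (obsA n p M).hist i).map (updA p G i (obsA n p M)) := by
      unfold P308Q.roundK
      rw [if_neg (by rw [hqo]; omega)]
    have hnn : 0 < n * n := by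
      rcases Nat.eq_zero_or_pos (n * n) with h1 | h1
      · rw [h1] at hlt
        omega
      · exact h1
    have he1 : (opE n q).1 < n := Nat.div_lt_of_lt_mul (Nat.mod_lt _ hnn)
    rw [hmu, ← PMF.bind_pure_comp, hqo]
    have hRW := hB.RW
    refine Det.seqSim (rnd_opEC_det (q := q) hE.hn hq (by omega)) ?_
    rintro M1 ⟨a1, a2, a3⟩
    have hh : HistIs (obsA n p M).hist p.R M1 := by
      intro j hj u v
      rw [a3 8 (by decide)]
      show _ = (if j ≤ p.R then (fun u v : Fin (n + 2) =>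
        M 8 ((j : ℤ) * ((n : ℤ) + 2) + ((u : ℕ) : ℤ)) ((v : ℕ) : ℤ))
        else scl n (a0 p.L) (fun _ => 0)) u v
      rw [if_pos hj]
    have hb : ∀ j u v, |(obsA n p M).hist j u v| ≤ (E : ℤ) := fun j u v =>
      (hA.hist j u v).trans (by exact_mod_cast hEE)
    have hc := cntC_sim (e := opE n q) hne (hE.same a3 (by decide)) hB hh hi.le hi
      (by rw [a3 61 (by decide)]; exact h61) a1 a2 (by omega) hb
    refine Sim.seq hc ?_
    rintro M3 ⟨c1, c2⟩
    have s3 : Same ([33, 34] ++ cntL) M M3 := (a3.mono (by decide)).trans (c2.mono (by decide))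
    have hobs : obsA n p M3 = obsA n p M :=
      rnd_obsA (s3 4 (by decide)) (s3 7 (by decide)) (s3 8 (by decide)) (s3 35 (by decide))
        (s3 36 (by decide)) (s3 37 (by decide))
    have hG3 : AdjIs G M3 := by
      intro u v
      rw [s3 1 (by decide)]
      exact hG u v
    have h03 : NN0 M3 := by
      refine ⟨?_, ?_, ?_⟩
      · rw [s3 37 (by decide)]; exact h0.q
      · rw [s3 35 (by decide)]; exact h0.num
      · rw [s3 36 (by decide)]; exact h0.den
    have hd := updC_det (W := W) (Λ := Λ) (M := M3) (p := p) (G := G) (i := i) (E := E)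
      (hE.same s3 (by decide)) hB hG3 hS hEE hW hi
      (by rw [s3 61 (by decide)]; exact h61) c1 (by rw [hobs]; exact hA) h03
      (by rw [hobs, hqo]; exact hlt)
      (by rw [hobs, hqo, c2 33 (by decide)]; exact a1)
      (by rw [hobs, hqo, c2 34 (by decide)]; exact a2)
    rw [hobs] at hd
    refine (hd.sim (f := obsA n p) fun M' h => h.1).mono ?_
    rintro M' ⟨-, q2, q3, q4⟩
    exact ⟨q2, q3, (s3.mono (by decide)).trans (q4.mono (by decide))⟩
  · rw [hcond] at h
    have hge : p.L * (n * n) ≤ q := by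
      have h1 : ((p.L * (n * n) : ℕ) : ℤ) ≤ (q : ℤ) := by linarith
      exact_mod_cast h1
    refine ⟨⟨rnd_AlB_succ hS hA, h0, Same.refl _ _⟩, ?_⟩
    unfold P308Q.roundK
    rw [if_pos (by rw [hqo]; exact hge)]

end Vale.Agent.P308RAM
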