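import Vale.Agent.P308RAM.Spec

/-!
# The program for the scaled exponents
-/

namespace Vale.Agent.P308RAM

open Vale.Agent.P328RAM Vale.Agent.P308Q PMF

variable {W Λ n : ℕ}

/-- scaled exponents on natural numbers -/
private def sclN (n : ℕ) (a : ℕ → ℕ → ℤ) (y : ℕ → ℤ) (u v : ℕ) : ℤ :=
  if u < n ∧ v < n ∧ u ≠ v then a u v + y u + y v else 0

private theorem scl_row_ne {i j u k : ℕ} (hij : i ≠ j) (hu : u < n + 2) (hk : k < n + 2) :
    (i : ℤ) * ((n : ℤ) + 2) + (u : ℤ) ≠ (j : ℤ) * ((n : ℤ) + 2) + (k : ℤ) := by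
  intro h
  have h1 : i * (n + 2) + u = j * (n + 2) + k := by exact_mod_cast h
  have hi : (i * (n + 2) + u) / (n + 2) = i := by
    rw [Nat.add_comm, Nat.add_mul_div_right _ _ (by omega), Nat.div_eq_of_lt hu, Nat.zero_add]
  have hj : (j * (n + 2) + k) / (n + 2) = j := by
    rw [Nat.add_comm, Nat.add_mul_div_right _ _ (by omega), Nat.div_eq_of_lt hk, Nat.zero_add]
  rw [h1, hj] at hi
  exact hij hi.symm

/-- the invariant -/
private def SclInv (n : ℕ) (h : ℕ → Ext n) (m j : ℕ) (F : ℕ → ℕ → ℤ) (M : Mem) (k r : ℕ)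
    (M' : Mem) : Prop :=
  (∀ i ≤ m, i ≠ j → ∀ u v : Fin (n + 2),
    M' 8 ((i : ℤ) * ((n : ℤ) + 2) + ((u : ℕ) : ℤ)) ((v : ℕ) : ℤ) = h i u v) ∧
  (∀ u v : ℕ, (u < k ∧ v < n + 2) ∨ (u = k ∧ v < r) →
    M' 8 ((j : ℤ) * ((n : ℤ) + 2) + (u : ℤ)) (v : ℤ) = F u v) ∧
  Same [8, 40, 41] M M'

private theorem SclInv.write8 {h : ℕ → Ext n} {m j : ℕ} {F : ℕ → ℕ → ℤ} {M M' : Mem} {k r : ℕ}
    (hI : SclInv n h m j F M k r M') (hk : k < n + 2) (z : ℤ) :
    SclInv n h m j F M k r
      (M'.write 8 ((j : ℤ) * ((n : ℤ) + 2) + (k : ℤ)) (r : ℤ) z) := by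
  obtain ⟨h1, h2, h3⟩ := hI
  refine ⟨?_, ?_, h3.write (by simp) _ _ _⟩
  · intro i hi hij u v
    rw [Mem.write_cell]
    · exact h1 i hi hij u v
    · rintro ⟨h4, -⟩
      exact scl_row_ne hij u.2 hk h4
  · intro u v huv
    rw [Mem.write_cell]
    · exact h2 u v huv
    · rintro ⟨h4, h5⟩
      have h6 : u = k := by
        have := add_left_cancel h4
        exact_mod_cast this
      have h7 : v = r := by exact_mod_cast h5
      omega

private theorem SclInv.next {h : ℕ → Ext n} {m j : ℕ} {F : ℕ → ℕ → ℤ} {M M' : Mem} {k r : ℕ}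
    (hI : SclInv n h m j F M k r M')
    (hc : M' 8 ((j : ℤ) * ((n : ℤ) + 2) + (k : ℤ)) (r : ℤ) = F k r) :
    SclInv n h m j F M k (r + 1) M' := by
  obtain ⟨h1, h2, h3⟩ := hI
  refine ⟨h1, ?_, h3⟩
  intro u v huv
  by_cases hc' : u = k ∧ v = r
  · obtain ⟨rfl, rfl⟩ := hc'
    exact hc
  · refine h2 u v ?_
    rcases huv with h | ⟨h4, h5⟩
    · exact Or.inl h
    · refine Or.inr ⟨h4, ?_⟩
      have : v ≠ r := fun h6 => hc' ⟨h4, h6⟩
      omega

/-- `je` is an expression for the stage number `j`, which does not use the arrays `8, 40, 41` -/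
theorem sclC_det {M : Mem} {h : ℕ → Ext n} {m j : ℕ} {je : Expr} {a : ℕ → ℕ → ℤ} {y : ℕ → ℤ}
    (hn : M 0 0 0 = n) (hN : M 12 0 0 = (n : ℤ) + 2) (hj : j ≤ m) (hh : HistIs h m M)
    (hje : ∀ M', Same [8, 40, 41] M M' → je.val M' = (j : ℤ))
    (ha : ∀ u v : ℕ, u < n → v < n → M 4 u v = a u v) (hy : ∀ u : ℕ, u < n → M 7 u 0 = y u)
    (hnΛ : n + 2 ≤ Λ) (hnW : n + 2 ≤ W)
    (hb : ∀ u v : Fin (n + 2), |scl n a y u v| ≤ (W : ℤ)) :
    Det W Λ (sclC je) M (fun M' => HistIs (Function.update h j (scl n a y)) m M' ∧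
      Same [8, 40, 41] M M') := by
  have hF : ∀ (u v : ℕ) (hu : u < n + 2) (hv : v < n + 2),
      sclN n a y u v = scl n a y ⟨u, hu⟩ ⟨v, hv⟩ := by
    intro u v hu hv
    simp only [sclN, scl, ne_eq, Fin.mk.injEq]
  have hFb : ∀ u v : ℕ, u < n + 2 → v < n + 2 → |sclN n a y u v| ≤ (W : ℤ) := by
    intro u v hu hv
    rw [hF u v hu hv]
    exact hb ⟨u, hu⟩ ⟨v, hv⟩
  have hN' : ∀ M', Same [8, 40, 41] M M' → (Expr.v 12).val M' = (n : ℤ) + 2 := by
    intro M' h
    have h12 : M' 12 = M 12 := h 12 (by simp)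
    simp [Expr.val, h12, hN]
  have hN'' : ∀ M', Same [8, 40, 41] M M' → ((Expr.v 12).val M').toNat = n + 2 := by
    intro M' h
    rw [hN' M' h]
    omega
  have key : Det W Λ (sclC je) M (SclInv n h m j (sclN n a y) M (n + 2) 0) := by
    refine Det.for2 (n + 2) (n + 2) (fun k r M' => SclInv n h m j (sclN n a y) M k r M')
      (by decide) (by simp [Cmd.Wr_when, Cmd.Wr]) (by simp [Cmd.Wr_when, Cmd.Wr]) hnΛ hnW hnΛ hnW
      (fun M' h => hN'' M' h.2.2) (fun k _ M' h => hN'' M' h.2.2) ?_ ?_ ?_ ?_ ?_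
    · rintro k r M' z ⟨h1, h2, h3⟩
      refine ⟨fun i hi hij u v => ?_, fun u v huv => ?_, h3.write (by simp) _ _ _⟩
      · rw [Mem.write_arr _ (by decide)]
        exact h1 i hi hij u v
      · rw [Mem.write_arr _ (by decide)]
        exact h2 u v huv
    · rintro k r M' z ⟨h1, h2, h3⟩
      refine ⟨fun i hi hij u v => ?_, fun u v huv => ?_, h3.write (by simp) _ _ _⟩
      · rw [Mem.write_arr _ (by decide)]
        exact h1 i hi hij u v
      · rw [Mem.write_arr _ (by decide)]
        exact h2 u v huv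
    · refine ⟨fun i hi hij u v => hh i hi u v, fun u v huv => ?_, Same.refl _ _⟩
      omega
    · rintro k _ M' ⟨h1, h2, h3⟩
      refine ⟨h1, fun u v huv => h2 u v ?_, h3⟩
      omega
    · rintro k hk r hr M' h40 h41 hI
      -- the row and the column
      have erow : ∀ M'' : Mem, Same [8, 40, 41] M M'' → M'' 40 0 0 = (k : ℤ) →
          (hrow je (.v 40)).val M'' = (j : ℤ) * ((n : ℤ) + 2) + (k : ℤ) := by
        intro M'' hS hk'
        have e1 := hje M'' hS
        have e2 := hN' M'' hS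
        simp only [Expr.val] at e2
        simp only [Expr.val, e1, e2, hk']
      have ecol : ∀ M'' : Mem, M'' 41 0 0 = (r : ℤ) → (Expr.v 41).val M'' = (r : ℤ) := by
        intro M'' h
        simp [Expr.val, h]
      refine Det.seq (R := fun M'' => SclInv n h m j (sclN n a y) M k r M'' ∧
        M'' 8 ((j : ℤ) * ((n : ℤ) + 2) + (k : ℤ)) (r : ℤ) = 0 ∧ M'' 40 0 0 = (k : ℤ) ∧
        M'' 41 0 0 = (r : ℤ)) ?_ ?_
      · refine Det.set (by simp [Expr.val]) ?_
        rw [erow M' hI.2.2 h40, ecol M' h41]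
        refine ⟨hI.write8 hk _, ?_, ?_, ?_⟩
        · rw [Mem.write_self]
          rfl
        · rw [Mem.write_arr _ (by decide)]
          exact h40
        · rw [Mem.write_arr _ (by decide)]
          exact h41
      rintro M'' ⟨hJ, hc, h40', h41'⟩
      have h0 : M'' 0 = M 0 := hJ.2.2 0 (by simp)
      have h4 : M'' 4 = M 4 := hJ.2.2 4 (by simp)
      have h7 : M'' 7 = M 7 := hJ.2.2 7 (by simp)
      have ek : (Expr.sub en (Expr.v 40)).val M'' = (n : ℤ) - k := by
        simp [Expr.val, h40', h0, hn]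
      have er : (Expr.sub en (Expr.v 41)).val M'' = (n : ℤ) - r := by
        simp [Expr.val, h41', h0, hn]
      have es : (sqd (Expr.v 40) (Expr.v 41)).val M'' = ((k : ℤ) - r) * ((k : ℤ) - r) := by
        simp [Expr.val, h40', h41']
      have hz : ¬ (k < n ∧ r < n ∧ k ≠ r) → SclInv n h m j (sclN n a y) M k (r + 1) M'' := by
        intro hkr
        refine hJ.next ?_
        rw [hc]
        simp only [sclN, if_neg hkr]
      refine Det.when (fun h1 => ?_) (fun h1 => hz ?_)
      · rw [ek] at h1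
        refine Det.when (fun h2 => ?_) (fun h2 => hz ?_)
        · rw [er] at h2
          refine Det.when (fun h3 => ?_) (fun h3 => hz ?_)
          · rw [es] at h3
            have hkr : k < n ∧ r < n ∧ k ≠ r := by
              refine ⟨by omega, by omega, ?_⟩
              rintro rfl
              simp at h3
            have hv : (Expr.add (.add (.get 4 (.v 40) (.v 41)) (.at1 7 (.v 40)))
                (.at1 7 (.v 41))).val M'' = sclN n a y k r := by
              have e4 : M 4 (k : ℤ) (r : ℤ) = a k r := ha k r hkr.1 hkr.2.1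
              have e7 : M 7 (k : ℤ) 0 = y k := hy k hkr.1
              have e7' : M 7 (r : ℤ) 0 = y r := hy r hkr.2.1
              simp only [Expr.val, h40', h41', h4, h7, e4, e7, e7', sclN, if_pos hkr]
            refine Det.set ?_ ?_
            · rw [hv]
              exact hFb k r hk hr
            · rw [hv, erow M'' hJ.2.2 h40', ecol M'' h41']
              exact (hJ.write8 hk _).next (Mem.write_self _ _ _ _ _)
          · rw [es] at h3
            rintro ⟨-, -, hne⟩
            have h5 : ((k : ℤ) - r) ≠ 0 := by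
              intro h6
              exact hne (by omega)
            have := mul_self_pos.2 h5
            omega
        · rw [er] at h2
          omega
      · rw [ek] at h1
        omega
  refine key.mono ?_
  rintro M' ⟨h1, h2, h3⟩
  refine ⟨fun i hi u v => ?_, h3⟩
  by_cases hij : i = j
  · subst hij
    rw [Function.update_self]
    have := h2 (u : ℕ) (v : ℕ) (Or.inl ⟨u.2, v.2⟩)
    rw [this]
    exact hF _ _ u.2 v.2
  · rw [Function.update_of_ne hij]
    exact h1 i hi hij u v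

end Vale.Agent.P308RAM
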