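import Vale.Agent.P308RAM.HolesC

/-!
# The program for the pairing weight of a set
-/

namespace Vale.Agent.P308RAM

open Vale.Agent.P328RAM Vale.Agent.P308Q PMF

variable {W Λ n : ℕ}

/-- one round of the partial sums -/
def sigR (s : Ext n) (U : Finset (Fin (n + 2))) (t : ℕ) : ℕ :=
  (U.filter fun u : Fin (n + 2) =>
    (U.filter fun v : Fin (n + 2) => v < u ∧ (t : ℤ) + 1 ≤ s u v).card % 2 = 1).card

/-- partial counts of the outer loop -/
def sigA (s : Ext n) (U : Finset (Fin (n + 2))) (k l : ℕ) : ℕ :=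
  (∑ t ∈ Finset.range k, sigR s U t) + (U.filter fun u : Fin (n + 2) => (u : ℕ) < l ∧
    (U.filter fun v : Fin (n + 2) => v < u ∧ (k : ℤ) + 1 ≤ s u v).card % 2 = 1).card

/-- partial counts of the inner loop -/
def sigI (s : Ext n) (U : Finset (Fin (n + 2))) (k : ℕ) (u : Fin (n + 2)) (j : ℕ) : ℕ :=
  (U.filter fun v : Fin (n + 2) => (v : ℕ) < j ∧ (k : ℤ) + 1 ≤ s u v).card

private theorem sig_eq (B : ℕ) (s : Ext n) (U : Finset (Fin (n + 2))) :
    sigF B s U = ∑ t ∈ Finset.range B, sigR s U t := rfl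

private theorem sigR_le (s : Ext n) (U : Finset (Fin (n + 2))) (t : ℕ) : sigR s U t ≤ n + 2 := by
  unfold sigR
  refine (Finset.card_filter_le _ _).trans ?_
  simpa using Finset.card_le_univ U

theorem sigF_le (B : ℕ) (s : Ext n) (U : Finset (Fin (n + 2))) : sigF B s U ≤ B * (n + 2) := by
  rw [sig_eq]
  calc ∑ t ∈ Finset.range B, sigR s U t ≤ ∑ _t ∈ Finset.range B, (n + 2) :=
        Finset.sum_le_sum fun t _ => sigR_le s U t
    _ = B * (n + 2) := by simp

private theorem sigC_card_succ (U : Finset (Fin (n + 2))) (R : Fin (n + 2) → Prop) [DecidablePred R]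
    {l : ℕ} (hl : l < n + 2) :
    (U.filter fun v : Fin (n + 2) => (v : ℕ) < l + 1 ∧ R v).card =
      (U.filter fun v : Fin (n + 2) => (v : ℕ) < l ∧ R v).card +
        if (⟨l, hl⟩ : Fin (n + 2)) ∈ U ∧ R ⟨l, hl⟩ then 1 else 0 := by
  by_cases h : (⟨l, hl⟩ : Fin (n + 2)) ∈ U ∧ R ⟨l, hl⟩
  · rw [if_pos h]
    have h1 : (U.filter fun v : Fin (n + 2) => (v : ℕ) < l + 1 ∧ R v) =
        insert (⟨l, hl⟩ : Fin (n + 2)) (U.filter fun v : Fin (n + 2) => (v : ℕ) < l ∧ R v) := by
      ext v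
      simp only [Finset.mem_filter, Finset.mem_insert]
      constructor
      · rintro ⟨h2, h3, h4⟩
        by_cases h5 : (v : ℕ) = l
        · left; exact Fin.ext h5
        · right; exact ⟨h2, by omega, h4⟩
      · rintro (rfl | ⟨h2, h3, h4⟩)
        · exact ⟨h.1, by simp, h.2⟩
        · exact ⟨h2, by omega, h4⟩
    rw [h1, Finset.card_insert_of_notMem]
    simp
  · rw [if_neg h, add_zero]
    congr 1
    ext v
    simp only [Finset.mem_filter]
    constructor
    · rintro ⟨h2, h3, h4⟩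
      refine ⟨h2, ?_, h4⟩
      by_contra h5
      have h6 : v = ⟨l, hl⟩ := Fin.ext (by simp only; omega)
      subst h6
      exact h ⟨h2, h4⟩
    · rintro ⟨h2, h3, h4⟩
      exact ⟨h2, by omega, h4⟩

private theorem sigA_row (s : Ext n) (U : Finset (Fin (n + 2))) (k : ℕ) :
    sigA s U k (n + 2) = sigA s U (k + 1) 0 := by
  unfold sigA
  rw [Finset.sum_range_succ]
  have h1 : (U.filter fun u : Fin (n + 2) => (u : ℕ) < n + 2 ∧
      (U.filter fun v : Fin (n + 2) => v < u ∧ (k : ℤ) + 1 ≤ s u v).card % 2 = 1) =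
      (U.filter fun u : Fin (n + 2) => (U.filter fun v : Fin (n + 2) => v < u ∧ (k : ℤ) + 1 ≤ s u v).card % 2 = 1) := by
    ext u
    simp only [Finset.mem_filter]
    exact ⟨fun h => ⟨h.1, h.2.2⟩, fun h => ⟨h.1, u.2, h.2⟩⟩
  rw [h1]
  simp [sigR]

private theorem sigA_zero (s : Ext n) (U : Finset (Fin (n + 2))) (k : ℕ) :
    sigA s U k 0 = ∑ t ∈ Finset.range k, sigR s U t := by
  simp [sigA]

private theorem sigI_self (s : Ext n) (U : Finset (Fin (n + 2))) (k : ℕ) (u : Fin (n + 2)) :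
    sigI s U k u u = (U.filter fun v : Fin (n + 2) => v < u ∧ (k : ℤ) + 1 ≤ s u v).card := by
  unfold sigI
  rfl

private theorem sigI_succ (s : Ext n) (U : Finset (Fin (n + 2))) (k : ℕ) (u : Fin (n + 2)) {j : ℕ}
    (hj : j < n + 2) :
    sigI s U k u (j + 1) = sigI s U k u j +
      if (⟨j, hj⟩ : Fin (n + 2)) ∈ U ∧ (k : ℤ) + 1 ≤ s u ⟨j, hj⟩ then 1 else 0 :=
  sigC_card_succ U (fun v => (k : ℤ) + 1 ≤ s u v) hj

private theorem sigA_succ (s : Ext n) (U : Finset (Fin (n + 2))) (k : ℕ) {l : ℕ} (hl : l < n + 2) :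
    sigA s U k (l + 1) = sigA s U k l +
      if (⟨l, hl⟩ : Fin (n + 2)) ∈ U ∧ sigI s U k ⟨l, hl⟩ l % 2 = 1 then 1 else 0 := by
  have h := sigC_card_succ U
    (fun u => (U.filter fun v : Fin (n + 2) => v < u ∧ (k : ℤ) + 1 ≤ s u v).card % 2 = 1) hl
  unfold sigA
  rw [h, ← add_assoc]
  rfl

private theorem sigA_le (s : Ext n) (U : Finset (Fin (n + 2))) {B k l : ℕ} (hk : k < B)
    (hl : l ≤ n + 2) : sigA s U k l ≤ B * (n + 2) := by
  have h1 : sigA s U k l ≤ sigA s U k (n + 2) := by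
    unfold sigA
    refine Nat.add_le_add_left (Finset.card_le_card ?_) _
    intro u
    simp only [Finset.mem_filter]
    exact fun h => ⟨h.1, by omega, h.2.2⟩
  refine h1.trans ?_
  rw [sigA_row, sigA_zero]
  calc ∑ t ∈ Finset.range (k + 1), sigR s U t ≤ ∑ _t ∈ Finset.range (k + 1), (n + 2) :=
        Finset.sum_le_sum fun t _ => sigR_le s U t
    _ = (k + 1) * (n + 2) := by simp
    _ ≤ B * (n + 2) := Nat.mul_le_mul_right _ hk

theorem sigC_det {M : Mem} {B : ℕ} {s : Ext n} {U : Finset (Fin (n + 2))}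
    (hN : M 12 0 0 = (n : ℤ) + 2) (hB : M 17 0 0 = B) (hs : TabIs 9 s M) (hU : IndIs U M)
    (hnΛ : n + 2 ≤ Λ) (hnW : n + 2 ≤ W) (hBΛ : B ≤ Λ) (hBW : B ≤ W)
    (hW : B * (n + 2) ≤ W) :
    Det W Λ sigC M (fun M' => M' 21 0 0 = sigF B s U ∧ Same [21, 44, 45, 46, 47] M M') := by
  have hW1 : (1 : ℤ) ≤ W := by
    have : 1 ≤ W := by omega
    exact_mod_cast this
  have e9 : ∀ {M' : Mem}, Same [21, 44, 45, 46, 47] M M' → M' 9 = M 9 := fun h => h 9 (by simp)
  have e20 : ∀ {M' : Mem}, Same [21, 44, 45, 46, 47] M M' → M' 20 = M 20 :=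
    fun h => h 20 (by simp)
  have e12 : ∀ {M' : Mem}, Same [21, 44, 45, 46, 47] M M' → M' 12 = M 12 :=
    fun h => h 12 (by simp)
  have e17 : ∀ {M' : Mem}, Same [21, 44, 45, 46, 47] M M' → M' 17 = M 17 :=
    fun h => h 17 (by simp)
  unfold sigC
  refine Det.seq (R := fun M' => M' 21 0 0 = 0 ∧ Same [21, 44, 45, 46, 47] M M')
    (Det.setv (by simp [Expr.val]) ⟨by simp [Expr.val], (Same.refl _ _).write (by simp) _ _ _⟩) ?_
  rintro M1 ⟨a1, a2⟩
  refine (Det.for2 B (n + 2)
    (fun k l M' => M' 21 0 0 = (sigA s U k l : ℤ) ∧ Same [21, 44, 45, 46, 47] M M')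
    (by decide) (by decide) (by decide) hBΛ hBW hnΛ hnW ?_ ?_ ?_ ?_ ?_ ?_ ?_).mono ?_
  · rintro M' ⟨_, q⟩
    simp only [Expr.val]
    rw [e17 q, hB]
    simp
  · rintro k _ M' ⟨_, q⟩
    simp only [Expr.val]
    rw [e12 q, hN]
    omega
  · rintro k l M' z ⟨q1, q2⟩
    exact ⟨by rw [Mem.write_arr _ (by decide)]; exact q1, q2.write (by simp) _ _ _⟩
  · rintro k l M' z ⟨q1, q2⟩
    exact ⟨by rw [Mem.write_arr _ (by decide)]; exact q1, q2.write (by simp) _ _ _⟩
  · exact ⟨by rw [a1, sigA_zero]; simp, a2⟩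
  · rintro k _ M' ⟨q1, q2⟩
    exact ⟨by rw [q1, sigA_row], q2⟩
  · rintro k hk l hl M' q3 q4 ⟨q1, q2⟩
    have hUl : M' 20 (l : ℤ) 0 = if (⟨l, hl⟩ : Fin (n + 2)) ∈ U then 1 else 0 := by
      rw [e20 q2]
      exact hU ⟨l, hl⟩
    refine Det.when ?_ ?_
    · intro h
      simp only [Expr.val] at h
      rw [q4, hUl] at h
      have hlU : (⟨l, hl⟩ : Fin (n + 2)) ∈ U := by
        by_contra h'
        rw [if_neg h'] at h
        exact absurd h (lt_irrefl _)
      refine Det.seq (R := fun M2 => M2 46 0 0 = 0 ∧ M2 21 0 0 = (sigA s U k l : ℤ) ∧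
        M2 44 0 0 = (k : ℤ) ∧ M2 45 0 0 = (l : ℤ) ∧ Same [21, 44, 45, 46, 47] M M2)
        (Det.setv (by simp [Expr.val]) ⟨by simp [Expr.val], ?_, ?_, ?_,
          q2.write (by simp) _ _ _⟩) ?_
      · rw [Mem.write_arr _ (by decide)]; exact q1
      · rw [Mem.write_arr _ (by decide)]; exact q3
      · rw [Mem.write_arr _ (by decide)]; exact q4
      rintro M2 ⟨b1, b2, b3, b4, b5⟩
      refine Det.seq (R := fun M3 => M3 46 0 0 = ((sigI s U k ⟨l, hl⟩ l % 2 : ℕ) : ℤ) ∧
        M3 21 0 0 = (sigA s U k l : ℤ) ∧ Same [21, 44, 45, 46, 47] M M3) ?_ ?_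
      · refine Det.forL (fun j M3 => M3 46 0 0 = ((sigI s U k ⟨l, hl⟩ j % 2 : ℕ) : ℤ) ∧
          M3 21 0 0 = (sigA s U k l : ℤ) ∧ M3 44 0 0 = (k : ℤ) ∧ M3 45 0 0 = (l : ℤ) ∧
          Same [21, 44, 45, 46, 47] M M3) l ?_ (by omega) (by omega) (by decide) ?_ ?_ ?_ ?_
        · simp only [Expr.val]
          rw [Mem.write_arr _ (by decide), b4]
          simp
        · rintro j M3 z ⟨c1, c2, c3, c4, c5⟩
          exact ⟨by rw [Mem.write_arr _ (by decide)]; exact c1,
            by rw [Mem.write_arr _ (by decide)]; exact c2,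
            by rw [Mem.write_arr _ (by decide)]; exact c3,
            by rw [Mem.write_arr _ (by decide)]; exact c4, c5.write (by simp) _ _ _⟩
        · exact ⟨by rw [b1]; simp [sigI], b2, b3, b4, b5⟩
        · rintro j hj M3 c0 ⟨c1, c2, c3, c4, c5⟩
          have hjn : j < n + 2 := by omega
          have hUj : M3 20 (j : ℤ) 0 = if (⟨j, hjn⟩ : Fin (n + 2)) ∈ U then 1 else 0 := by
            rw [e20 c5]
            exact hU ⟨j, hjn⟩
          have hsj : M3 9 (l : ℤ) (j : ℤ) = s ⟨l, hl⟩ ⟨j, hjn⟩ := by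
            rw [e9 c5]
            exact hs ⟨l, hl⟩ ⟨j, hjn⟩
          have hsucc := sigI_succ s U k ⟨l, hl⟩ hjn
          refine Det.when ?_ ?_
          · intro g
            simp only [Expr.val] at g
            rw [c0, hUj] at g
            have hjU : (⟨j, hjn⟩ : Fin (n + 2)) ∈ U := by
              by_contra h'
              rw [if_neg h'] at g
              exact absurd g (lt_irrefl _)
            refine Det.when ?_ ?_
            · intro g2
              simp only [Expr.val] at g2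
              rw [c4, c0, c3, hsj] at g2
              have g3 : (k : ℤ) + 1 ≤ s ⟨l, hl⟩ ⟨j, hjn⟩ := by omega
              rw [if_pos ⟨hjU, g3⟩] at hsucc
              have hv : (Expr.sub (.lit 1) (.v 46)).val M3 =
                  ((sigI s U k ⟨l, hl⟩ (j + 1) % 2 : ℕ) : ℤ) := by
                simp only [Expr.val]
                rw [c1, hsucc]
                omega
              refine Det.setv ?_ ?_
              · rw [hv, abs_of_nonneg (by positivity)]
                refine le_trans ?_ hW1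
                have : sigI s U k ⟨l, hl⟩ (j + 1) % 2 < 2 := Nat.mod_lt _ (by norm_num)
                omega
              · rw [hv]
                exact ⟨by simp, by rw [Mem.write_arr _ (by decide)]; exact c2,
                  by rw [Mem.write_arr _ (by decide)]; exact c3,
                  by rw [Mem.write_arr _ (by decide)]; exact c4, c5.write (by simp) _ _ _⟩
            · intro g2
              simp only [Expr.val] at g2
              rw [c4, c0, c3, hsj] at g2
              have g3 : ¬ (k : ℤ) + 1 ≤ s ⟨l, hl⟩ ⟨j, hjn⟩ := by omega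
              rw [if_neg (fun h => g3 h.2), add_zero] at hsucc
              exact ⟨by rw [c1, hsucc], c2, c3, c4, c5⟩
          · intro g
            simp only [Expr.val] at g
            rw [c0, hUj] at g
            have hjU : (⟨j, hjn⟩ : Fin (n + 2)) ∉ U := by
              intro h'
              rw [if_pos h'] at g
              omega
            rw [if_neg (fun h => hjU h.1), add_zero] at hsucc
            exact ⟨by rw [c1, hsucc], c2, c3, c4, c5⟩
        · rintro M3 _ ⟨c1, c2, c3, c4, c5⟩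
          exact ⟨c1, c2, c5⟩
      · rintro M3 ⟨c1, c2, c5⟩
        have hsucc := sigA_succ s U k hl
        have hv : (Expr.add (.v 21) (.v 46)).val M3 = (sigA s U k (l + 1) : ℤ) := by
          simp only [Expr.val]
          rw [c1, c2, hsucc]
          rcases Nat.mod_two_eq_zero_or_one (sigI s U k ⟨l, hl⟩ l) with h0 | h0
          · rw [h0, if_neg (by simp)]
            simp
          · rw [h0, if_pos ⟨hlU, rfl⟩]
            simp
        refine Det.setv ?_ ?_
        · rw [hv, abs_of_nonneg (by positivity)]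
          exact_mod_cast (sigA_le s U hk (by omega)).trans hW
        · rw [hv]
          exact ⟨by simp, c5.write (by simp) _ _ _⟩
    · intro h
      simp only [Expr.val] at h
      rw [q4, hUl] at h
      have hlU : (⟨l, hl⟩ : Fin (n + 2)) ∉ U := by
        intro h'
        rw [if_pos h'] at h
        omega
      have hsucc := sigA_succ s U k hl
      rw [if_neg (fun h => hlU h.1), add_zero] at hsucc
      exact ⟨by rw [q1, hsucc], q2⟩
  · rintro M' ⟨q1, q2⟩
    exact ⟨by rw [q1, sigA_zero, sig_eq], q2⟩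

end Vale.Agent.P308RAM
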