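import Vale.Agent.P308RAM.Spec

/-!
# The program for the similarity
-/

namespace Vale.Agent.P308RAM

open Vale.Agent.P328RAM Vale.Agent.P308Q PMF

variable {W Λ n : ℕ}

/-- the similarities are at most the bound of the exponents -/
theorem fw_le {b : Ext n} {E : ℕ} (hb : ∀ u v, |b u v| ≤ (E : ℤ)) (k : ℕ) (u v : Fin (n + 2)) :
    0 ≤ fw b k u v ∧ fw b k u v ≤ (E : ℤ) := by
  induction k generalizing u v with
  | zero =>
      simp only [fw]
      have h := abs_le.1 (hb u v)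
      have hE : (0 : ℤ) ≤ E := by positivity
      exact ⟨le_max_left _ _, max_le hE h.2⟩
  | succ k ih =>
      simp only [fw]
      split_ifs with hk
      · exact ⟨le_max_of_le_left (ih u v).1, max_le (ih u v).2
          (le_trans (min_le_left _ _) (ih u ⟨k, hk⟩).2)⟩
      · exact ih u v

/-- the column of the pivot does not change -/
theorem fw_col (b : Ext n) {k : ℕ} (hk : k < n + 2) (u : Fin (n + 2)) :
    fw b (k + 1) u ⟨k, hk⟩ = fw b k u ⟨k, hk⟩ := by
  simp only [fw]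
  rw [dif_pos hk]
  exact max_eq_left (min_le_left _ _)

/-- the row of the pivot does not change -/
theorem fw_row (b : Ext n) {k : ℕ} (hk : k < n + 2) (v : Fin (n + 2)) :
    fw b (k + 1) ⟨k, hk⟩ v = fw b k ⟨k, hk⟩ v := by
  simp only [fw]
  rw [dif_pos hk]
  exact max_eq_left (min_le_right _ _)

/-- the partially updated table: cells before `(i, l)` are taken from `F'`, the others from `F` -/
def mixT (F' F : Ext n) (i l : ℕ) : Ext n := fun u v =>
  if (u : ℕ) < i ∨ ((u : ℕ) = i ∧ (v : ℕ) < l) then F' u v else F u v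

theorem mixT_zero (F' F : Ext n) : mixT F' F 0 0 = F := by
  funext u v
  simp [mixT]

theorem mixT_last (F' F : Ext n) : mixT F' F (n + 2) 0 = F' := by
  funext u v
  have := u.2
  simp [mixT]

theorem mixT_row (F' F : Ext n) (i : ℕ) : mixT F' F i (n + 2) = mixT F' F (i + 1) 0 := by
  funext u v
  unfold mixT
  have h1 : ((u : ℕ) < i ∨ ((u : ℕ) = i ∧ (v : ℕ) < n + 2)) ↔
      ((u : ℕ) < i + 1 ∨ ((u : ℕ) = i + 1 ∧ (v : ℕ) < 0)) := by
    have := v.2
    omega
  simp only [h1]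

/-- writing one cell -/
theorem mixT_write {M : Mem} {F' F : Ext n} {i l : ℕ} (hi : i < n + 2) (hl : l < n + 2)
    (h : TabIs 9 (mixT F' F i l) M) :
    TabIs 9 (mixT F' F i (l + 1)) (M.write 9 (i : ℤ) (l : ℤ) (F' ⟨i, hi⟩ ⟨l, hl⟩)) := by
  intro u v
  by_cases huv : (u : ℕ) = i ∧ (v : ℕ) = l
  · obtain ⟨h1, h2⟩ := huv
    have e1 : u = ⟨i, hi⟩ := Fin.ext h1
    have e2 : v = ⟨l, hl⟩ := Fin.ext h2
    subst e1 e2
    simp [mixT]
  · rw [Mem.write_cell _ _ (by
      rintro ⟨h1, h2⟩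
      exact huv ⟨by exact_mod_cast h1, by exact_mod_cast h2⟩), h u v]
    unfold mixT
    have h1 : ((u : ℕ) < i ∨ ((u : ℕ) = i ∧ (v : ℕ) < l)) ↔
        ((u : ℕ) < i ∨ ((u : ℕ) = i ∧ (v : ℕ) < l + 1)) := by omega
    simp only [h1]

/-- a cell which is already right -/
theorem mixT_keep {M : Mem} {F' F : Ext n} {i l : ℕ} (hi : i < n + 2) (hl : l < n + 2)
    (h : TabIs 9 (mixT F' F i l) M) (hF : F' ⟨i, hi⟩ ⟨l, hl⟩ = F ⟨i, hi⟩ ⟨l, hl⟩) :
    TabIs 9 (mixT F' F i (l + 1)) M := by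
  intro u v
  rw [h u v]
  unfold mixT
  by_cases huv : (u : ℕ) = i ∧ (v : ℕ) = l
  · obtain ⟨h1, h2⟩ := huv
    have e1 : u = ⟨i, hi⟩ := Fin.ext h1
    have e2 : v = ⟨l, hl⟩ := Fin.ext h2
    subst e1 e2
    simp [hF]
  · have h1 : ((u : ℕ) < i ∨ ((u : ℕ) = i ∧ (v : ℕ) < l)) ↔
        ((u : ℕ) < i ∨ ((u : ℕ) = i ∧ (v : ℕ) < l + 1)) := by omega
    simp only [h1]

theorem simC_det {M : Mem} {h : ℕ → Ext n} {m j E : ℕ} (hN : M 12 0 0 = (n : ℤ) + 2)
    (hh : HistIs h m M) (hj : j ≤ m) (h60 : M 60 0 0 = j)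
    (hnΛ : n + 2 ≤ Λ) (hnW : n + 2 ≤ W) (hb : ∀ u v, |h j u v| ≤ (E : ℤ)) (hEW : E ≤ W) :
    Det W Λ simC M (fun M' => TabIs 9 (fw (h j) (n + 2)) M' ∧ Same [9, 40, 41, 42, 43] M M') := by
  have hEW' : (E : ℤ) ≤ W := by exact_mod_cast hEW
  have hfW : ∀ k u v, |fw (h j) k u v| ≤ (W : ℤ) := by
    intro k u v
    obtain ⟨h1, h2⟩ := fw_le hb k u v
    rw [abs_of_nonneg h1]
    exact h2.trans hEW'
  have hval12 : ∀ M' : Mem, Same [9, 40, 41, 42, 43] M M' → ((Expr.v 12).val M').toNat = n + 2 := by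
    intro M' hM'
    simp only [Expr.val]
    rw [hM' 12 (by simp), hN]
    omega
  refine Det.seq (R := fun M' => TabIs 9 (fw (h j) 0) M' ∧ Same [9, 40, 41, 42, 43] M M') ?_ ?_
  · refine (Det.for2 (n + 2) (n + 2) (fun i l M' => TabIs 9 (mixT (fw (h j) 0)
      (fun u v => M 9 (u : ℕ) (v : ℕ)) i l) M' ∧ Same [9, 40, 41, 42, 43] M M')
      (by norm_num) (by decide) (by decide) hnΛ hnW hnΛ hnW (fun M' q => hval12 M' q.2)
      (fun _ _ M' q => hval12 M' q.2) ?_ ?_ ?_ ?_ ?_).mono ?_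
    · rintro k l M' z ⟨q1, q2⟩
      exact ⟨q1.congr (Mem.write_arr _ (by norm_num) _ _ _), q2.write (by simp) _ _ _⟩
    · rintro k l M' z ⟨q1, q2⟩
      exact ⟨q1.congr (Mem.write_arr _ (by norm_num) _ _ _), q2.write (by simp) _ _ _⟩
    · refine ⟨?_, Same.refl _ _⟩
      rw [mixT_zero]
      intro u v
      rfl
    · rintro k _ M' ⟨q1, q2⟩
      exact ⟨by rw [← mixT_row]; exact q1, q2⟩
    · rintro k hk l hl M' g40 g41 ⟨q1, q2⟩
      have h8 : M' 8 = M 8 := q2 8 (by simp)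
      have hrd : (Expr.get 8 (hrow (.v 60) (.v 40)) (.v 41)).val M' = h j ⟨k, hk⟩ ⟨l, hl⟩ := by
        simp only [Expr.val, g40, g41]
        rw [q2 60 (by simp), q2 12 (by simp), h60, hN, h8]
        exact hh j hj ⟨k, hk⟩ ⟨l, hl⟩
      have hv0 : max ((Expr.lit 0).val M') ((Expr.get 8 (hrow (.v 60) (.v 40)) (.v 41)).val M') =
          fw (h j) 0 ⟨k, hk⟩ ⟨l, hl⟩ := by
        rw [hrd]
        rfl
      refine Det.seq (R := fun M'' => M'' = M'.write 43 0 0 (fw (h j) 0 ⟨k, hk⟩ ⟨l, hl⟩))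
        (Det.maxv (by rw [hv0]; exact hfW _ _ _) (by rw [hv0])) ?_
      rintro M'' rfl
      have e40 : (Expr.v 40).val (M'.write 43 0 0 (fw (h j) 0 ⟨k, hk⟩ ⟨l, hl⟩)) = (k : ℤ) := by
        simp only [Expr.val]
        rw [Mem.write_arr _ (by norm_num)]
        exact g40
      have e41 : (Expr.v 41).val (M'.write 43 0 0 (fw (h j) 0 ⟨k, hk⟩ ⟨l, hl⟩)) = (l : ℤ) := by
        simp only [Expr.val]
        rw [Mem.write_arr _ (by norm_num)]
        exact g41
      have e43 : (Expr.v 43).val (M'.write 43 0 0 (fw (h j) 0 ⟨k, hk⟩ ⟨l, hl⟩)) =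
          fw (h j) 0 ⟨k, hk⟩ ⟨l, hl⟩ := by
        simp [Expr.val]
      refine Det.set (by rw [e43]; exact hfW _ _ _) ?_
      rw [e40, e41, e43]
      refine ⟨mixT_write hk hl (q1.congr (Mem.write_arr _ (by norm_num) _ _ _)), ?_⟩
      exact (q2.write (by simp) _ _ _).write (by simp) _ _ _
    · rintro M' ⟨q1, q2⟩
      rw [mixT_last] at q1
      exact ⟨q1, q2⟩
  · rintro M1 ⟨g1, g2⟩
    refine Det.forL (fun k M' => TabIs 9 (fw (h j) k) M' ∧ Same [9, 40, 41, 42, 43] M M') (n + 2)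
      ?_ hnΛ hnW (by decide) ?_ ⟨g1, g2⟩ ?_ (fun M' _ q => q)
    · exact hval12 _ (g2.write (by simp) _ _ _)
    · rintro k M' z ⟨q1, q2⟩
      exact ⟨q1.congr (Mem.write_arr _ (by norm_num) _ _ _), q2.write (by simp) _ _ _⟩
    · rintro k hk M2 g42 ⟨f1, f2⟩
      refine (Det.for2 (n + 2) (n + 2) (fun i l M' => TabIs 9 (mixT (fw (h j) (k + 1))
        (fw (h j) k) i l) M' ∧ M' 42 0 0 = (k : ℤ) ∧ Same [9, 40, 41, 42, 43] M M')
        (by norm_num) (by decide) (by decide) hnΛ hnW hnΛ hnW (fun M' q => hval12 M' q.2.2)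
        (fun _ _ M' q => hval12 M' q.2.2) ?_ ?_ ?_ ?_ ?_).mono ?_
      · rintro i l M' z ⟨q1, q2, q3⟩
        exact ⟨q1.congr (Mem.write_arr _ (by norm_num) _ _ _),
          by rw [Mem.write_arr _ (by norm_num)]; exact q2, q3.write (by simp) _ _ _⟩
      · rintro i l M' z ⟨q1, q2, q3⟩
        exact ⟨q1.congr (Mem.write_arr _ (by norm_num) _ _ _),
          by rw [Mem.write_arr _ (by norm_num)]; exact q2, q3.write (by simp) _ _ _⟩
      · rw [mixT_zero]
        exact ⟨f1, g42, f2⟩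
      · rintro i _ M' ⟨q1, q2, q3⟩
        exact ⟨by rw [← mixT_row]; exact q1, q2, q3⟩
      · rintro i hi l hl M' g40 g41 ⟨q1, q2, q3⟩
        -- the three cells
        have hik : M' 9 (i : ℤ) (k : ℤ) = fw (h j) k ⟨i, hi⟩ ⟨k, hk⟩ := by
          have := q1 ⟨i, hi⟩ ⟨k, hk⟩
          rw [show ((((⟨i, hi⟩ : Fin (n + 2)) : ℕ) : ℤ)) = (i : ℤ) from rfl,
            show ((((⟨k, hk⟩ : Fin (n + 2)) : ℕ) : ℤ)) = (k : ℤ) from rfl] at this
          rw [this]
          unfold mixT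
          split_ifs
          · exact fw_col _ hk _
          · rfl
        have hkl : M' 9 (k : ℤ) (l : ℤ) = fw (h j) k ⟨k, hk⟩ ⟨l, hl⟩ := by
          have := q1 ⟨k, hk⟩ ⟨l, hl⟩
          rw [show ((((⟨k, hk⟩ : Fin (n + 2)) : ℕ) : ℤ)) = (k : ℤ) from rfl,
            show ((((⟨l, hl⟩ : Fin (n + 2)) : ℕ) : ℤ)) = (l : ℤ) from rfl] at this
          rw [this]
          unfold mixT
          split_ifs
          · exact fw_row _ hk _
          · rfl
        have hil : M' 9 (i : ℤ) (l : ℤ) = fw (h j) k ⟨i, hi⟩ ⟨l, hl⟩ := by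
          have := q1 ⟨i, hi⟩ ⟨l, hl⟩
          rw [show ((((⟨i, hi⟩ : Fin (n + 2)) : ℕ) : ℤ)) = (i : ℤ) from rfl,
            show ((((⟨l, hl⟩ : Fin (n + 2)) : ℕ) : ℤ)) = (l : ℤ) from rfl] at this
          rw [this]
          simp [mixT]
        set mm := min (fw (h j) k ⟨i, hi⟩ ⟨k, hk⟩) (fw (h j) k ⟨k, hk⟩ ⟨l, hl⟩) with hmm
        have hmW : |mm| ≤ (W : ℤ) := by
          have a1 := fw_le hb k ⟨i, hi⟩ ⟨k, hk⟩
          have a2 := fw_le hb k ⟨k, hk⟩ ⟨l, hl⟩
          rw [hmm, abs_of_nonneg (le_min a1.1 a2.1)]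
          exact (min_le_left _ _).trans (a1.2.trans hEW')
        have hv0 : min ((Expr.get 9 (.v 40) (.v 42)).val M') ((Expr.get 9 (.v 42) (.v 41)).val M') =
            mm := by
          simp only [Expr.val, g40, g41, q2]
          rw [hik, hkl]
        refine Det.seq (R := fun M'' => M'' = M'.write 43 0 0 mm)
          (Det.minv (by rw [hv0]; exact hmW) (by rw [hv0])) ?_
        rintro M'' rfl
        have w9 : (M'.write 43 0 0 mm) 9 = M' 9 := Mem.write_arr _ (by norm_num) _ _ _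
        have w40 : (M'.write 43 0 0 mm) 40 0 0 = (i : ℤ) := by
          rw [Mem.write_arr _ (by norm_num)]; exact g40
        have w41 : (M'.write 43 0 0 mm) 41 0 0 = (l : ℤ) := by
          rw [Mem.write_arr _ (by norm_num)]; exact g41
        have w42 : (M'.write 43 0 0 mm) 42 0 0 = (k : ℤ) := by
          rw [Mem.write_arr _ (by norm_num)]; exact q2
        have w43 : (M'.write 43 0 0 mm) 43 0 0 = mm := by simp
        have hval : (Expr.sub (.v 43) (.get 9 (.v 40) (.v 41))).val (M'.write 43 0 0 mm) =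
            mm - fw (h j) k ⟨i, hi⟩ ⟨l, hl⟩ := by
          simp only [Expr.val, w40, w41, w43]
          rw [w9, hil]
        have hfw : fw (h j) (k + 1) ⟨i, hi⟩ ⟨l, hl⟩ = max (fw (h j) k ⟨i, hi⟩ ⟨l, hl⟩) mm := by
          simp only [fw]
          rw [dif_pos hk]
        refine Det.when ?_ ?_
        · intro hpos
          rw [hval] at hpos
          have hm' : fw (h j) (k + 1) ⟨i, hi⟩ ⟨l, hl⟩ = mm := by
            rw [hfw]
            exact max_eq_right (by omega)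
          have e1 : (Expr.v 43).val (M'.write 43 0 0 mm) = mm := w43
          refine Det.set (by rw [e1]; exact hmW) ?_
          rw [e1, show (Expr.v 40).val (M'.write 43 0 0 mm) = (i : ℤ) from w40,
            show (Expr.v 41).val (M'.write 43 0 0 mm) = (l : ℤ) from w41]
          refine ⟨?_, ?_, ?_⟩
          · rw [← hm']
            exact mixT_write hi hl (q1.congr (Mem.write_arr _ (by norm_num) _ _ _))
          · rw [Mem.write_arr _ (by norm_num)]
            exact w42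
          · exact (q3.write (by simp) _ _ _).write (by simp) _ _ _
        · intro hneg
          rw [hval] at hneg
          have hm' : fw (h j) (k + 1) ⟨i, hi⟩ ⟨l, hl⟩ = fw (h j) k ⟨i, hi⟩ ⟨l, hl⟩ := by
            rw [hfw]
            exact max_eq_left (by omega)
          exact ⟨mixT_keep hi hl (q1.congr w9) hm', w42, q3.write (by simp) _ _ _⟩
      · rintro M' ⟨q1, _, q3⟩
        rw [mixT_last] at q1
        exact ⟨q1, q3⟩

end Vale.Agent.P308RAM
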