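import Vale.Agent.P308Q.Algo
import Vale.Agent.P328RAM.Step
import Vale.Agent.P328RAM.For2

/-!
# P308: the program for the native algorithm, and the memory layout

Arrays: `0` input (`n`, `a`, `b`), `1` adjacency matrix, `3` output, `4` edge exponents `a u v`,
`5` current state (mate function, column `0`), `6` toggled state, `7` vertex exponents `y u`,
`8` history of the scaled exponents (`hist j u v` in the cell `(j * (n + 2) + u, v)`), `9`
similarity of the current stage, `10` counters `c (some u)`, `20` indicator of a set of vertices.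
Scalars: `11` counter `c none`, `12` `N = n + 2`, `13` `Bn`, `14` `H`, `15` coin, `16` number of
random bits, `17` `B`, `18` `g`, `19` `T`, `22` `S`, `23` `R`, `32` `L`, `33`, `34` the edge `e`,
`35` numerator, `36` denominator, `37` `q`; `21` result of `sigC`, `28` number of holes, `38`
result of `phiC`, `25`, `26`, `27`, `30` random draws, `39`, `43`, `46`, `50`, `51`, `52` auxiliary,
`60` stage, `61` round, `40`, `41`, `42`, `44`, `45`, `47`, `48`, `49` loop counters.
-/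

namespace Vale.Agent.P308RAM

open Vale.Agent.P328RAM Vale.Agent.P308Q

/-! ### The programs -/

/-- `n` -/
abbrev en : Expr := .v 0

/-- `(e - f) ^ 2` -/
abbrev sqd (e f : Expr) : Expr := .mul (.sub e f) (.sub e f)

/-- nothing -/
abbrev nop : Cmd := .rep (.lit 0) (.setv 39 (.lit 0))

/-- the row of the array `8` for the stage `j` and the vertex `u` -/
abbrev hrow (j u : Expr) : Expr := .add (.mul j (.v 12)) u

/-- the scaled exponents, stored as stage `j` of the history -/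
def sclC (j : Expr) : Cmd :=
  .for2 40 41 (.v 12) (.v 12)
    (.seq (.set 8 (hrow j (.v 40)) (.v 41) (.lit 0))
      (.when (.sub en (.v 40)) (.when (.sub en (.v 41)) (.when (sqd (.v 40) (.v 41))
        (.set 8 (hrow j (.v 40)) (.v 41)
          (.add (.add (.get 4 (.v 40) (.v 41)) (.at1 7 (.v 40))) (.at1 7 (.v 41))))))))

/-- the similarity of the stage number `60` of the history: array `9` -/
def simC : Cmd :=
  .seq (.for2 40 41 (.v 12) (.v 12)
    (.seq (.maxv 43 (.lit 0) (.get 8 (hrow (.v 60) (.v 40)) (.v 41)))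
      (.set 9 (.v 40) (.v 41) (.v 43))))
  (.forL 42 (.v 12) (.for2 40 41 (.v 12) (.v 12)
    (.seq (.minv 43 (.get 9 (.v 40) (.v 42)) (.get 9 (.v 42) (.v 41)))
      (.when (.sub (.v 43) (.get 9 (.v 40) (.v 41))) (.set 9 (.v 40) (.v 41) (.v 43))))))

/-- indicator of the set of holes of the state in the array `A`, in the array `20`, and number of
holes in `28` -/
def holesC (A : ℕ) : Cmd :=
  .seq (.setv 28 (.lit 0)) (.forL 48 (.v 12)
    (.ite (sqd (.at1 A (.v 48)) (.v 48)) (.set 20 (.v 48) (.lit 0) (.lit 0))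
      (.seq (.set 20 (.v 48) (.lit 0) (.lit 1)) (.setv 28 (.add (.v 28) (.lit 1))))))

/-- `21 := σ` of the set with indicator `20` -/
def sigC : Cmd :=
  .seq (.setv 21 (.lit 0)) (.for2 44 45 (.v 17) (.v 12)
    (.when (.at1 20 (.v 45))
      (.seq (.setv 46 (.lit 0))
      (.seq (.forL 47 (.v 45)
        (.when (.at1 20 (.v 47)) (.when (.sub (.get 9 (.v 45) (.v 47)) (.v 44))
          (.setv 46 (.sub (.lit 1) (.v 46))))))
        (.setv 21 (.add (.v 21) (.v 46)))))))

/-- `38 := phi` of the state in the array `A` (stage number `60`) -/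
def phiC (A : ℕ) : Cmd :=
  .seq (holesC A) (.seq sigC (.seq (.setv 38 (.v 21))
  (.seq (.when (.v 28) (.setv 38 (.sub (.v 38) (.v 18))))
  (.forL 49 (.v 12) (.when (.sub (.at1 A (.v 49)) (.v 49))
    (.setv 38 (.add (.v 38) (.get 8 (hrow (.v 60) (.v 49)) (.at1 A (.v 49))))))))))

/-- copy the array `A` to the array `A'` -/
def copyC (A A' : ℕ) : Cmd := .forL 48 (.v 12) (.set A' (.v 48) (.lit 0) (.at1 A (.v 48)))

/-- array `6` := the state in the array `5` with the edge `26, 27` toggled -/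
def togC : Cmd :=
  .seq (copyC 5 6)
  (.when (.sub (.v 12) (.v 26)) (.when (.sub (.v 12) (.v 27)) (.when (sqd (.v 26) (.v 27))
    (.ite (sqd (.at1 5 (.v 26)) (.v 27))
      (.ite (.add (sqd (.at1 5 (.v 26)) (.v 26)) (sqd (.at1 5 (.v 27)) (.v 27))) nop
        (.seq (.set 6 (.v 26) (.lit 0) (.v 27)) (.set 6 (.v 27) (.lit 0) (.v 26))))
      (.seq (.set 6 (.v 26) (.lit 0) (.v 26)) (.set 6 (.v 27) (.lit 0) (.v 27)))))))

/-- one step of the chain (stage number `60`) -/
def stepC : Cmd :=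
  .seq (.setv 16 (.lit 1)) (.seq (P.rand 25)
  (.seq (.setv 16 (.v 13)) (.seq (P.rand 26) (.seq (P.rand 27)
  (.seq togC (.seq (holesC 6)
  (.when (.v 25) (.when (.sub (.add (.v 14) (.lit 1)) (.v 28))
    (.seq (phiC 5) (.seq (.setv 39 (.v 38)) (.seq (phiC 6)
    (.seq (.maxv 16 (.lit 0) (.sub (.v 39) (.v 38)))
    (.seq (P.rand 30) (.ite (.v 30) nop (copyC 6 5)))))))))))))))

/-- one stage -/
def stageC : Cmd := .seq simC (.rep (.v 19) stepC)

/-- the start of a pass (`n` even) -/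
def m0C : Cmd :=
  .forL 48 (.v 12) (.set 5 (.v 48) (.lit 0)
    (.sub (.add (.v 48) (.lit 1)) (.mul (.lit 2) (.sub (.v 48) (.mul (.lit 2)
      (.div (.v 48) (.lit 2)))))))

/-- a pass, in the round number `61` -/
def passC : Cmd := .seq m0C (.forL 60 (.add (.v 61) (.lit 1)) stageC)

/-- update of the counters -/
def countC : Cmd :=
  .seq (.when (.sub (.sub (.lit 1) (sqd (.at1 5 en) (.add en (.lit 1))))
      (sqd (.at1 5 (.v 33)) (.v 34))) (.setv 11 (.add (.v 11) (.lit 1))))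
    (.set 10 (.at1 5 en) (.lit 0) (.add (.at1 10 (.at1 5 en)) (.lit 1)))

/-- the counters after `S` passes -/
def cntC : Cmd :=
  .seq (.setv 11 (.lit 0)) (.seq (.forL 48 (.v 12) (.set 10 (.v 48) (.lit 0) (.lit 0)))
    (.rep (.v 22) (.seq passC countC)))

/-- update of the vertex exponents; `50` is `1` if something has changed -/
def dyC : Cmd :=
  .seq (.setv 50 (.lit 0)) (.forL 48 en
    (.ite (.sub (.add (.at1 10 (.v 48)) (.lit 1)) (.mul (.lit 3) (.at1 10 (.add en (.lit 1)))))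
      (.seq (.set 7 (.v 48) (.lit 0) (.add (.at1 7 (.v 48)) (.lit 1))) (.setv 50 (.lit 1)))
      (.when (.sub (.add (.at1 10 (.add en (.lit 1))) (.lit 1)) (.mul (.lit 3) (.at1 10 (.v 48))))
        (.seq (.set 7 (.v 48) (.lit 0) (.sub (.at1 7 (.v 48)) (.lit 1))) (.setv 50 (.lit 1))))))

/-- `51 := dlt` of the pair `33, 34` -/
def dltC : Cmd :=
  .seq (.setv 51 (.lit 0)) (.when (.sub (.v 34) (.v 33))
    (.seq (.setv 52 (.sub (.lit 0) (.v 32)))
    (.seq (.when (.get 1 (.v 33) (.v 34)) (.setv 52 (.lit 0)))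
    (.ite (.sub (.v 52) (.get 4 (.v 33) (.v 34))) (.setv 51 (.lit 1))
      (.when (.sub (.get 4 (.v 33) (.v 34)) (.v 52)) (.setv 51 (.lit (-1))))))))

/-- the operation on the pair `33, 34` -/
def opC : Cmd :=
  .seq dltC
  (.seq (.ite (.v 51)
    (.seq (.setv 35 (.mul (.v 35) (.mul (.lit 2) (.add (.at1 10 (.add en (.lit 1))) (.v 11)))))
      (.setv 36 (.mul (.v 36) (.mul (.lit 2) (.at1 10 (.add en (.lit 1)))))))
    (.when (.sub (.lit 0) (.v 51))
      (.seq (.maxv 52 (.lit 0) (.sub (.mul (.lit 2) (.at1 10 (.add en (.lit 1)))) (.v 11)))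
      (.seq (.setv 35 (.mul (.v 35) (.v 52)))
        (.setv 36 (.mul (.v 36) (.mul (.lit 2) (.at1 10 (.add en (.lit 1))))))))))
  (.seq (.set 4 (.v 33) (.v 34) (.add (.get 4 (.v 33) (.v 34)) (.v 51)))
  (.seq (.set 4 (.v 34) (.v 33) (.add (.get 4 (.v 34) (.v 33)) (.v 51)))
    (.setv 37 (.add (.v 37) (.lit 1))))))

/-- the update after the counting -/
def updC : Cmd :=
  .seq dyC (.seq (.ite (.v 50) nop opC) (sclC (.add (.v 61) (.lit 1))))

/-- `33, 34 :=` the pair of the operation number `37` -/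
def opEC : Cmd :=
  .seq (.setv 33 (.sub (.v 37) (.mul (.mul en en) (.div (.v 37) (.mul en en)))))
  (.seq (.setv 34 (.sub (.v 33) (.mul en (.div (.v 33) en))))
    (.setv 33 (.div (.v 33) en)))

/-- the round number `61` -/
def roundC : Cmd :=
  .when (.sub (.mul (.v 32) (.mul en en)) (.v 37)) (.seq opEC (.seq cntC updC))

/-- all rounds -/
def mainC : Cmd := .forL 61 (.v 23) roundC

/-- the initial state -/
def initC : Cmd :=
  .seq (.for2 40 41 en en (.ite (sqd (.div (.v 40) (.lit 2)) (.div (.v 41) (.lit 2)))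
    (.set 4 (.v 40) (.v 41) (.sub (.lit 0) (.v 32))) (.set 4 (.v 40) (.v 41) (.lit 0))))
  (.seq (.setv 35 (.lit 1)) (.seq (.setv 36 (.lit 1))
    (.forL 60 (.add (.v 23) (.lit 1)) (sclC (.v 60)))))

/-- the output -/
def outC : Cmd :=
  .ite (.sub (.v 36) (.mul (.lit 2) (.v 35)))
    (.seq (.set 3 (.lit 0) (.lit 0) (.lit 0)) (.set 3 (.lit 1) (.lit 0) (.lit 1)))
    (.seq (.set 3 (.lit 0) (.lit 0) (.v 35)) (.set 3 (.lit 1) (.lit 0) (.v 36)))

/-! ### The observations -/

variable {n : ℕ}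

/-- the vertex stored as an integer -/
def vert (n : ℕ) (z : ℤ) : Fin (n + 2) :=
  if h : z.toNat < n + 2 then ⟨z.toNat, h⟩ else ⟨0, by omega⟩

/-- the state stored in the array `a` -/
def obs (n a : ℕ) (M : Mem) : Stt n := fun u => vert n (M a (u : ℕ) 0)

/-- all cells of the state are vertices -/
def IsV (n a : ℕ) (M : Mem) : Prop :=
  ∀ u : Fin (n + 2), 0 ≤ M a (u : ℕ) 0 ∧ M a (u : ℕ) 0 < (n : ℤ) + 2

/-- the array `a` contains the table `F` -/
def TabIs (a : ℕ) (F : Ext n) (M : Mem) : Prop := ∀ u v : Fin (n + 2), M a (u : ℕ) (v : ℕ) = F u v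

/-- the array `8` contains the stages `0, …, m` of the history `h` -/
def HistIs (h : ℕ → Ext n) (m : ℕ) (M : Mem) : Prop :=
  ∀ j ≤ m, ∀ u v : Fin (n + 2), M 8 ((j : ℤ) * ((n : ℤ) + 2) + ((u : ℕ) : ℤ)) ((v : ℕ) : ℤ) = h j u v

/-- the scalars -/
structure Env0 (n : ℕ) (p : Par) (M : Mem) : Prop where
  hn : M 0 0 0 = n
  hN : M 12 0 0 = (n : ℤ) + 2
  hBn : M 13 0 0 = p.Bn
  hH : M 14 0 0 = p.H
  hB : M 17 0 0 = p.B
  hg : M 18 0 0 = p.g
  hT : M 19 0 0 = p.T
  hS : M 22 0 0 = p.S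
  hR : M 23 0 0 = p.R
  hL : M 32 0 0 = p.L

/-- the bounds; `E` bounds all scaled exponents -/
structure Bnd (W Λ n : ℕ) (p : Par) (E : ℕ) : Prop where
  nΛ : n + 2 ≤ Λ
  nW : n + 2 ≤ W
  bΛ : p.Bn ≤ Λ
  bW : 2 ^ p.Bn ≤ W
  HW : p.H ≤ W
  BΛ : p.B ≤ Λ
  BW : p.B ≤ W
  gW : p.g ≤ W
  TΛ : p.T ≤ Λ
  SΛ : p.S ≤ Λ
  SW : p.S ≤ W
  RΛ : p.R + 1 ≤ Λ
  RW : p.R + 1 ≤ W
  LW : p.L ≤ W
  EW : E ≤ W
  dΛ : 2 * ((n + 2) * E + p.B * (n + 2) + p.g) ≤ Λ
  dW : 2 ^ (2 * ((n + 2) * E + p.B * (n + 2) + p.g)) ≤ W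

theorem Env0.same {p : Par} {M M' : Mem} (h : Env0 n p M) {L : List ℕ} (hM : Same L M M')
    (hL : ∀ a ∈ [0, 12, 13, 14, 17, 18, 19, 22, 23, 32], a ∉ L) : Env0 n p M' := by
  simp only [List.mem_cons, List.not_mem_nil, or_false, forall_eq_or_imp, forall_eq] at hL
  obtain ⟨l0, l12, l13, l14, l17, l18, l19, l22, l23, l32⟩ := hL
  exact ⟨by rw [hM 0 l0]; exact h.hn, by rw [hM 12 l12]; exact h.hN, by rw [hM 13 l13]; exact h.hBn,
    by rw [hM 14 l14]; exact h.hH, by rw [hM 17 l17]; exact h.hB, by rw [hM 18 l18]; exact h.hg,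
    by rw [hM 19 l19]; exact h.hT, by rw [hM 22 l22]; exact h.hS, by rw [hM 23 l23]; exact h.hR,
    by rw [hM 32 l32]; exact h.hL⟩

theorem TabIs.congr {a : ℕ} {F : Ext n} {M M' : Mem} (h : TabIs a F M) (hM : M' a = M a) :
    TabIs a F M' := by
  intro u v
  rw [hM]
  exact h u v

theorem HistIs.congr {h : ℕ → Ext n} {m : ℕ} {M M' : Mem} (hh : HistIs h m M)
    (hM : M' 8 = M 8) : HistIs h m M' := by
  intro j hj u v
  rw [hM]
  exact hh j hj u v

theorem obs_congr {a a' : ℕ} {M M' : Mem} (h : M' a' = M a) : obs n a' M' = obs n a M := by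
  unfold obs
  rw [h]

theorem IsV_congr {a a' : ℕ} {M M' : Mem} (h : M' a' = M a) (hv : IsV n a M) : IsV n a' M' := by
  unfold IsV
  rw [h]
  exact hv

/-- the value of a cell -/
theorem IsV.cell {a : ℕ} {M : Mem} (h : IsV n a M) (u : Fin (n + 2)) :
    M a (u : ℕ) 0 = ((obs n a M u : ℕ) : ℤ) := by
  obtain ⟨h1, h2⟩ := h u
  unfold obs vert
  have h3 : (M a (u : ℕ) 0).toNat < n + 2 := by omega
  rw [dif_pos h3]
  simp [Int.toNat_of_nonneg h1]

/-- the counters stored in the arrays `10` and `11` -/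
def cntOf (n : ℕ) (M : Mem) : Cnt n := fun o =>
  match o with
  | none => (M 11 0 0).toNat
  | some u => (M 10 (u : ℕ) 0).toNat

/-- the counters are between `0` and `k`, and `c none ≤ c (some β)` -/
def CntOK (n k : ℕ) (M : Mem) : Prop :=
  (0 ≤ M 11 0 0 ∧ M 11 0 0 ≤ k) ∧ ∀ u : Fin (n + 2), 0 ≤ M 10 (u : ℕ) 0 ∧ M 10 (u : ℕ) 0 ≤ k

/-- the state of the algorithm stored in the memory -/
def obsA (n : ℕ) (p : Par) (M : Mem) : Al n where
  hist := fun j => if j ≤ p.R then
    (fun u v => M 8 ((j : ℤ) * ((n : ℤ) + 2) + ((u : ℕ) : ℤ)) ((v : ℕ) : ℤ))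
    else scl n (a0 p.L) (fun _ => 0)
  a := fun u v => if u < n ∧ v < n then M 4 u v else a0 p.L u v
  y := fun u => if u < n then M 7 u 0 else 0
  q := (M 37 0 0).toNat
  num := (M 35 0 0).toNat
  den := (M 36 0 0).toNat

/-- bounds on the state of the algorithm after `i` rounds -/
structure AlB (p : Par) (i : ℕ) (x : Al n) : Prop where
  hist : ∀ j u v, |x.hist j u v| ≤ ((p.L + 3 * p.R : ℕ) : ℤ)
  a : ∀ u v, |x.a u v| ≤ ((p.L + i : ℕ) : ℤ)
  y : ∀ u, |x.y u| ≤ (i : ℤ)
  q : x.q ≤ i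
  num : x.num ≤ (4 * p.S) ^ i
  den : x.den ≤ (4 * p.S) ^ i

/-- the natural numbers of the state of the algorithm are stored as natural numbers -/
structure NN0 (M : Mem) : Prop where
  q : 0 ≤ M 37 0 0
  num : 0 ≤ M 35 0 0
  den : 0 ≤ M 36 0 0

/-- the adjacency matrix is in the array `1` -/
def AdjIs (G : SimpleGraph (Fin n)) (M : Mem) : Prop :=
  ∀ u v : Fin n, (G.Adj u v → M 1 (u : ℕ) (v : ℕ) = 1) ∧ (¬ G.Adj u v → M 1 (u : ℕ) (v : ℕ) = 0)

/-- the arrays which the program for `phi` may change -/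
def phiL : List ℕ := [20, 21, 28, 38, 44, 45, 46, 47, 48, 49]

/-- the arrays which the program of a step may change -/
def stepL : List ℕ := [5, 6, 15, 16, 25, 26, 27, 30, 39] ++ phiL

/-- the arrays which the program of a stage may change -/
def stageL : List ℕ := [9, 40, 41, 42, 43] ++ stepL

/-- the arrays which the program of a pass may change -/
def passL : List ℕ := 60 :: stageL

/-- the arrays which the program of the counting may change -/
def cntL : List ℕ := 10 :: 11 :: passL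

/-- the arrays which the program of the update may change -/
def updL : List ℕ := [4, 7, 8, 35, 36, 37, 39, 40, 41, 48, 50, 51, 52]

end Vale.Agent.P308RAM
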