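import Vale.Agent.P308RAM.StepC
import Vale.Agent.P308RAM.SimC

/-!
# The program for one stage
-/

namespace Vale.Agent.P308RAM

open Vale.Agent.P328RAM Vale.Agent.P308Q PMF

variable {W Λ n : ℕ}

theorem stageC_Wr : ∀ a ∈ stageC.Wr, a ∈ stageL := by
  intro a ha
  have h1 : a ∈ simC.Wr ++ stepC.Wr := ha
  rw [List.mem_append] at h1
  rcases h1 with h1 | h1
  · have h2 : a ∈ [9, 40, 41, 42, 43] := by
      unfold simC at h1
      simp only [Cmd.Wr_seq, Cmd.Wr_for2, Cmd.Wr_forL, Cmd.Wr_maxv, Cmd.Wr_minv, Cmd.Wr_set,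
        Cmd.Wr_when, List.mem_append, List.mem_cons, List.not_mem_nil, or_false] at h1
      simp only [List.mem_cons, List.not_mem_nil, or_false]
      omega
    unfold stageL
    rw [List.mem_append]
    exact Or.inl h2
  · unfold stageL
    rw [List.mem_append]
    exact Or.inr (stepC_Wr a h1)

theorem stageC_sim {M : Mem} {p : Par} {h : ℕ → Ext n} {m j E : ℕ}
    (hE : Env0 n p M) (hB : Bnd W Λ n p E) (hh : HistIs h m M) (hj : j ≤ m) (h60 : M 60 0 0 = j)
    (hb : ∀ u v, |h j u v| ≤ (E : ℤ)) (hv : IsV n 5 M) :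
    Sim W Λ stageC M (obs n 5) (stageK p (h j) (obs n 5 M))
      (fun M' => IsV n 5 M' ∧ Same stageL M M') := by
  refine Det.seqSim (simC_det hE.hN hh hj h60 hB.nΛ hB.nW hb hB.EW) ?_
  rintro M1 ⟨g1, g2⟩
  have h5 : M1 5 = M 5 := g2 5 (by simp)
  have ho : obs n 5 M1 = obs n 5 M := obs_congr h5
  have h19 : (Expr.v 19).val M1 = (p.T : ℤ) := by
    simp only [Expr.val]
    rw [g2 19 (by simp)]
    exact hE.hT
  unfold stageK
  rw [← ho]
  refine Sim.rep (stepK p (h j) (fw (h j) (n + 2)))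
    (fun _ M' => IsV n 5 M' ∧ Same stepL M1 M') p.T (by rw [h19]; simp) hB.TΛ
    ⟨IsV_congr h5 hv, Same.refl _ _⟩ ?_ ?_
  · rintro i _ M' ⟨q1, q2⟩
    have t : Same stageL M M' := (g2.mono (by simp [stageL])).trans (q2.mono (by intro a ha; simp [stageL, ha]))
    have hs := stepC_sim (W := W) (Λ := Λ) (M := M') (p := p) (h := h) (m := m) (j := j) (E := E)
      (s := fw (h j) (n + 2)) (hE.same t (by simp [stageL, stepL, phiL])) hB
      (hh.congr (t 8 (by simp [stageL, stepL, phiL]))) hj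
      (by rw [t 60 (by simp [stageL, stepL, phiL])]; exact h60)
      (g1.congr (q2 9 (by simp [stepL, phiL]))) hb q1
    exact hs.mono fun M'' h => ⟨h.1, q2.trans h.2⟩
  · rintro M' ⟨q1, q2⟩
    exact ⟨q1, (g2.mono (by simp [stageL])).trans (q2.mono (by intro a ha; simp [stageL, ha]))⟩

end Vale.Agent.P308RAM
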