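import Vale.Agent.P308RAM.Spec

/-!
# The programs for copying and toggling
-/

namespace Vale.Agent.P308RAM

open Vale.Agent.P328RAM Vale.Agent.P308Q PMF

variable {W Λ n : ℕ}

theorem copyC_det {M : Mem} {A A' : ℕ} (hAA : A ≠ A') (hA : A ≠ 48) (hA' : A' ≠ 48)
    (hA12 : A' ≠ 12) (hN : M 12 0 0 = (n : ℤ) + 2) (hv : IsV n A M) (hnΛ : n + 2 ≤ Λ)
    (hnW : n + 2 ≤ W) :
    Det W Λ (copyC A A') M (fun M' => IsV n A' M' ∧ obs n A' M' = obs n A M ∧
      Same [A', 48] M M') := by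
  have h := Det.arr1 (W := W) (Λ := Λ) (M := M) (A := A') (i := 48) (en := .v 12)
    (e := .at1 A (.v 48)) (n + 2) (fun k => M A (k : ℤ) 0) hA' hnΛ hnW
    (fun k hk => by
      obtain ⟨h1, h2⟩ : 0 ≤ M A (k : ℤ) 0 ∧ M A (k : ℤ) 0 < (n : ℤ) + 2 := hv ⟨k, hk⟩
      rw [abs_of_nonneg h1]
      have h3 : ((n + 2 : ℕ) : ℤ) ≤ (W : ℤ) := by exact_mod_cast hnW
      push_cast at h3
      omega)
    (fun M' hM' => by
      simp only [Expr.val]
      rw [hM' 12 (by simp [hA12.symm]), hN]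
      omega)
    (fun k hk M' hM' hi _ => by
      simp only [Expr.val]
      rw [hi, hM' A (by simp [hAA, hA])])
  refine Det.mono h ?_
  rintro M' ⟨h1, h2, h3⟩
  have h4 : ∀ u : Fin (n + 2), M' A' (u : ℕ) 0 = M A (u : ℕ) 0 := fun u => h1 u u.2
  refine ⟨fun u => ?_, ?_, h3⟩
  · rw [h4 u]
    exact hv u
  · funext u
    unfold obs
    rw [h4 u]

private theorem tog_vert (x : Fin (n + 2)) : vert n ((x : ℕ) : ℤ) = x := by
  unfold vert
  have h : (((x : ℕ) : ℤ).toNat) < n + 2 := by simp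
  rw [dif_pos h]
  exact Fin.ext (by simp)

private theorem tog_write_obs (M : Mem) (a : ℕ) (x y : Fin (n + 2)) :
    obs n a (M.write a ((x : ℕ) : ℤ) 0 ((y : ℕ) : ℤ)) = Function.update (obs n a M) x y := by
  funext u
  by_cases h : u = x
  · subst h
    rw [Function.update_self]
    unfold obs
    rw [Mem.write_self]
    exact tog_vert y
  · rw [Function.update_of_ne h]
    unfold obs
    rw [Mem.write_cell]
    rintro ⟨h1, _⟩
    exact h (Fin.ext (by exact_mod_cast h1))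

private theorem tog_write_isV {M : Mem} {a : ℕ} (h : IsV n a M) (x y : Fin (n + 2)) :
    IsV n a (M.write a ((x : ℕ) : ℤ) 0 ((y : ℕ) : ℤ)) := by
  intro u
  by_cases hu : u = x
  · subst hu
    rw [Mem.write_self]
    have := y.2
    omega
  · rw [Mem.write_cell]
    · exact h u
    · rintro ⟨h1, _⟩
      exact hu (Fin.ext (by exact_mod_cast h1))

private theorem tog_two {M1 : Mem} {f : Stt n} (hV : IsV n 6 M1) (hf : obs n 6 M1 = f)
    {M : Mem} (hS : Same [6, 48] M M1) (x y x' y' : Fin (n + 2)) {c1 c2 d1 d2 : Expr}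
    (hc1 : ∀ M', Same [6, 48] M M' → c1.val M' = ((x : ℕ) : ℤ))
    (hc2 : ∀ M', Same [6, 48] M M' → c2.val M' = ((x' : ℕ) : ℤ))
    (hd1 : ∀ M', Same [6, 48] M M' → d1.val M' = ((y : ℕ) : ℤ))
    (hd2 : ∀ M', Same [6, 48] M M' → d2.val M' = ((y' : ℕ) : ℤ)) (hnW : n + 2 ≤ W) :
    Det W Λ (.seq (.set 6 c1 (.lit 0) c2) (.set 6 d1 (.lit 0) d2)) M1
      (fun M' => IsV n 6 M' ∧ obs n 6 M' = Function.update (Function.update f x x') y y' ∧
      Same [6, 48] M M') := by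
  have hW : ∀ z : Fin (n + 2), |((z : ℕ) : ℤ)| ≤ (W : ℤ) := by
    intro z
    rw [abs_of_nonneg (by positivity)]
    have := z.2
    exact_mod_cast (by omega : (z : ℕ) ≤ W)
  refine Det.seq (R := fun M2 => IsV n 6 M2 ∧ obs n 6 M2 = Function.update f x x' ∧
    Same [6, 48] M M2) (Det.set ?_ ?_) ?_
  · rw [hc2 M1 hS]
    exact hW x'
  · rw [hc2 M1 hS, hc1 M1 hS]
    simp only [Expr.val]
    exact ⟨tog_write_isV hV x x', by rw [tog_write_obs, hf], hS.write (by simp) _ _ _⟩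
  · rintro M2 ⟨a1, a2, a3⟩
    refine Det.set ?_ ?_
    · rw [hd2 M2 a3]
      exact hW y'
    · rw [hd2 M2 a3, hd1 M2 a3]
      simp only [Expr.val]
      exact ⟨tog_write_isV a1 y y', by rw [tog_write_obs, a2], a3.write (by simp) _ _ _⟩

private theorem tog_sq_pos {a b : ℤ} : 0 < (a - b) * (a - b) ↔ a ≠ b := by
  constructor
  · rintro h rfl
    simp at h
  · intro h
    exact mul_self_pos.2 (sub_ne_zero.2 h)

theorem togC_det {M : Mem} {x y : ℕ} (hN : M 12 0 0 = (n : ℤ) + 2) (hv : IsV n 5 M)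
    (hx : M 26 0 0 = x) (hy : M 27 0 0 = y) (hnΛ : n + 2 ≤ Λ) (hnW : n + 2 ≤ W) :
    Det W Λ togC M (fun M' => IsV n 6 M' ∧ obs n 6 M' = tog x y (obs n 5 M) ∧
      Same [6, 48] M M') := by
  refine Det.seq (copyC_det (by decide) (by decide) (by decide) (by decide) hN hv hnΛ hnW) ?_
  rintro M1 ⟨a1, a2, a3⟩
  have e12 : ∀ {M' : Mem}, Same [6, 48] M M' → M' 12 0 0 = (n : ℤ) + 2 :=
    fun h => by rw [h 12 (by simp)]; exact hN
  have e26 : ∀ {M' : Mem}, Same [6, 48] M M' → M' 26 0 0 = (x : ℤ) :=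
    fun h => by rw [h 26 (by simp)]; exact hx
  have e27 : ∀ {M' : Mem}, Same [6, 48] M M' → M' 27 0 0 = (y : ℤ) :=
    fun h => by rw [h 27 (by simp)]; exact hy
  have e5 : ∀ {M' : Mem}, Same [6, 48] M M' → M' 5 = M 5 := fun h => h 5 (by simp)
  refine Det.when ?_ ?_
  swap
  · intro h
    simp only [Expr.val] at h
    rw [e12 a3, e26 a3] at h
    refine ⟨a1, ?_, a3⟩
    rw [a2]
    unfold tog
    rw [dif_neg (by omega)]
  intro h
  simp only [Expr.val] at h
  rw [e12 a3, e26 a3] at h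
  have hx2 : x < n + 2 := by omega
  refine Det.when ?_ ?_
  swap
  · intro h
    simp only [Expr.val] at h
    rw [e12 a3, e27 a3] at h
    refine ⟨a1, ?_, a3⟩
    rw [a2]
    unfold tog
    rw [dif_neg (by omega)]
  intro h
  simp only [Expr.val] at h
  rw [e12 a3, e27 a3] at h
  have hy2 : y < n + 2 := by omega
  have hcx : M 5 (x : ℤ) 0 = ((obs n 5 M ⟨x, hx2⟩ : ℕ) : ℤ) := hv.cell ⟨x, hx2⟩
  have hcy : M 5 (y : ℤ) 0 = ((obs n 5 M ⟨y, hy2⟩ : ℕ) : ℤ) := hv.cell ⟨y, hy2⟩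
  refine Det.when ?_ ?_
  swap
  · intro h
    simp only [Expr.val] at h
    rw [e26 a3, e27 a3] at h
    have hxy : x = y := by
      by_contra h'
      have := tog_sq_pos.2 (show (x : ℤ) ≠ y by exact_mod_cast h')
      omega
    refine ⟨a1, ?_, a3⟩
    rw [a2]
    unfold tog
    rw [dif_pos ⟨hx2, hy2⟩, if_pos hxy]
  intro h
  simp only [Expr.val] at h
  rw [e26 a3, e27 a3] at h
  have hxy : x ≠ y := by
    have := tog_sq_pos.1 h
    exact_mod_cast this
  refine Det.ite ?_ ?_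
  · intro h
    simp only [Expr.val] at h
    rw [e26 a3, e27 a3, e5 a3, hcx] at h
    have h1 := tog_sq_pos.1 h
    have h2 : obs n 5 M ⟨x, hx2⟩ ≠ ⟨y, hy2⟩ := by
      intro h'
      rw [h'] at h1
      exact h1 rfl
    refine Det.ite ?_ ?_
    · intro h
      simp only [Expr.val] at h
      rw [e26 a3, e27 a3, e5 a3, hcx, hcy] at h
      refine Det.rep_zero ⟨a1, ?_, a3⟩
      rw [a2]
      unfold tog
      rw [dif_pos ⟨hx2, hy2⟩, if_neg hxy, if_neg h2, if_neg]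
      rintro ⟨g1, g2⟩
      rw [g1, g2] at h
      simp at h
    · intro h
      simp only [Expr.val] at h
      rw [e26 a3, e27 a3, e5 a3, hcx, hcy] at h
      have g1 : obs n 5 M ⟨x, hx2⟩ = ⟨x, hx2⟩ := by
        apply Fin.ext
        simp only
        have : ((obs n 5 M ⟨x, hx2⟩ : ℕ) : ℤ) = x := by nlinarith
        exact_mod_cast this
      have g2 : obs n 5 M ⟨y, hy2⟩ = ⟨y, hy2⟩ := by
        apply Fin.ext
        simp only
        have : ((obs n 5 M ⟨y, hy2⟩ : ℕ) : ℤ) = y := by nlinarith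
        exact_mod_cast this
      have ht : tog x y (obs n 5 M) = Function.update (Function.update (obs n 5 M)
          ⟨x, hx2⟩ ⟨y, hy2⟩) ⟨y, hy2⟩ ⟨x, hx2⟩ := by
        unfold tog
        rw [dif_pos ⟨hx2, hy2⟩, if_neg hxy, if_neg h2, if_pos ⟨g1, g2⟩]
      rw [ht]
      exact tog_two a1 a2 a3 ⟨x, hx2⟩ ⟨y, hy2⟩ ⟨y, hy2⟩ ⟨x, hx2⟩
        (fun M' h => by simp only [Expr.val]; exact e26 h)
        (fun M' h => by simp only [Expr.val]; exact e27 h)
        (fun M' h => by simp only [Expr.val]; exact e27 h)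
        (fun M' h => by simp only [Expr.val]; exact e26 h) hnW
  · intro h
    simp only [Expr.val] at h
    rw [e26 a3, e27 a3, e5 a3, hcx] at h
    have g1 : obs n 5 M ⟨x, hx2⟩ = ⟨y, hy2⟩ := by
      apply Fin.ext
      simp only
      have : ((obs n 5 M ⟨x, hx2⟩ : ℕ) : ℤ) = y := by nlinarith
      exact_mod_cast this
    have ht : tog x y (obs n 5 M) = Function.update (Function.update (obs n 5 M)
        ⟨x, hx2⟩ ⟨x, hx2⟩) ⟨y, hy2⟩ ⟨y, hy2⟩ := by
      unfold tog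
      rw [dif_pos ⟨hx2, hy2⟩, if_neg hxy, if_pos g1]
    rw [ht]
    exact tog_two a1 a2 a3 ⟨x, hx2⟩ ⟨y, hy2⟩ ⟨x, hx2⟩ ⟨y, hy2⟩
      (fun M' h => by simp only [Expr.val]; exact e26 h)
      (fun M' h => by simp only [Expr.val]; exact e26 h)
      (fun M' h => by simp only [Expr.val]; exact e27 h)
      (fun M' h => by simp only [Expr.val]; exact e27 h) hnW

end Vale.Agent.P308RAM
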