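import Vale.Agent.P308RAM.PhiC
import Vale.Agent.P308RAM.TogC

/-!
# The program for one step
-/

namespace Vale.Agent.P308RAM

open Vale.Agent.P328RAM Vale.Agent.P308Q PMF

variable {W Λ n : ℕ}

theorem stepC_Wr : ∀ a ∈ stepC.Wr, a ∈ stepL := by
  intro a ha
  simp only [stepC, togC, copyC, phiC, holesC, sigC, nop, P.rand, P.asg, Cmd.for2, Cmd.maxv,
    Cmd.Wr_seq, Cmd.Wr_when, Cmd.Wr_forL, Cmd.Wr_ite, Cmd.Wr_rep, Cmd.Wr_flip, Cmd.Wr_set,
    List.mem_append, List.mem_cons, List.not_mem_nil, or_false] at ha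
  simp only [stepL, phiL, List.mem_append, List.mem_cons, List.not_mem_nil, or_false]
  omega

private theorem st_nat_le_two_pow (k : ℕ) : k ≤ 2 ^ k := (Nat.lt_two_pow_self).le

private theorem st_abs_nat {k : ℕ} (h : k ≤ W) : |((k : ℕ) : ℤ)| ≤ (W : ℤ) := by
  rw [abs_of_nonneg (by positivity)]
  exact_mod_cast h

theorem stepC_sim {M : Mem} {p : Par} {h : ℕ → Ext n} {m j E : ℕ} {s : Ext n}
    (hE : Env0 n p M) (hB : Bnd W Λ n p E) (hh : HistIs h m M) (hj : j ≤ m) (h60 : M 60 0 0 = j)
    (hs : TabIs 9 s M) (hb : ∀ u v, |h j u v| ≤ (E : ℤ)) (hv : IsV n 5 M) :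
    Sim W Λ stepC M (obs n 5) (stepK p (h j) s (obs n 5 M))
      (fun M' => IsV n 5 M' ∧ Same stepL M M') := by
  have hW2 : 2 ≤ W := by have := hB.nW; omega
  have hΛ1 : 1 ≤ Λ := by have := hB.nΛ; omega
  unfold stepC Vale.Agent.P308Q.stepK
  refine Det.seqSim (R := fun M1 => M1 16 0 0 = ((1 : ℕ) : ℤ) ∧ Same [16] M M1) ?_ ?_
  · refine Det.setv ?_ ?_
    · simp only [Expr.val]
      rw [abs_one]
      exact_mod_cast (by omega : 1 ≤ W)
    · exact ⟨by simp [Expr.val], (Same.refl _ _).write (by decide) _ _ _⟩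
  rintro M1 ⟨h16, hS1⟩
  refine st_rand_seq (by decide) (by decide) h16 (by simpa using hW2) hΛ1 ?_
  intro w hw M2 h25 hfr2
  have hS2 : Same [15, 16, 25] M M2 := by
    intro a ha
    simp only [List.mem_cons, List.not_mem_nil, or_false, not_or] at ha
    rw [hfr2 a ha.2.2 ha.1]
    exact hS1 a (by simp only [List.mem_cons, List.not_mem_nil, or_false]; tauto)
  have hsz : p.Bn ≤ W := ((st_nat_le_two_pow _).trans hB.bW)
  refine Det.seqSim (R := fun M3 => M3 16 0 0 = ((p.Bn : ℕ) : ℤ) ∧
      M3 25 0 0 = ((w : ℕ) : ℤ) ∧ Same [15, 16, 25] M M3) ?_ ?_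
  · have e13 : (Expr.v 13).val M2 = ((p.Bn : ℕ) : ℤ) := by
      simp only [Expr.val]
      rw [hS2 13 (by decide)]
      exact hE.hBn
    refine Det.setv ?_ ?_
    · rw [e13]
      exact st_abs_nat hsz
    · rw [e13]
      refine ⟨Mem.write_self _ _ _ _ _, ?_, hS2.write (by decide) _ _ _⟩
      rw [Mem.write_arr _ (by decide)]
      exact h25
  rintro M3 ⟨h16_3, h25_3, hS3⟩
  refine st_rand_seq (by decide) (by decide) h16_3 hB.bW hB.bΛ ?_
  intro x hx M4 h26 hfr4
  have hS4 : Same [15, 16, 25, 26] M M4 := by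
    intro a ha
    simp only [List.mem_cons, List.not_mem_nil, or_false, not_or] at ha
    rw [hfr4 a ha.2.2.2 ha.1]
    exact hS3 a (by simp only [List.mem_cons, List.not_mem_nil, or_false]; tauto)
  have h16_4 : M4 16 0 0 = ((p.Bn : ℕ) : ℤ) := by
    rw [hfr4 16 (by decide) (by decide)]; exact h16_3
  have h25_4 : M4 25 0 0 = ((w : ℕ) : ℤ) := by
    rw [hfr4 25 (by decide) (by decide)]; exact h25_3
  refine st_rand_seq (by decide) (by decide) h16_4 hB.bW hB.bΛ ?_
  intro y hy M5 h27 hfr5
  have hS5 : Same [15, 16, 25, 26, 27] M M5 := by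
    intro a ha
    simp only [List.mem_cons, List.not_mem_nil, or_false, not_or] at ha
    rw [hfr5 a ha.2.2.2.2 ha.1]
    exact hS4 a (by simp only [List.mem_cons, List.not_mem_nil, or_false]; tauto)
  have h25_5 : M5 25 0 0 = ((w : ℕ) : ℤ) := by
    rw [hfr5 25 (by decide) (by decide)]; exact h25_4
  have h26_5 : M5 26 0 0 = ((x : ℕ) : ℤ) := by
    rw [hfr5 26 (by decide) (by decide)]; exact h26
  have h5 : M5 5 = M 5 := hS5 5 (by decide)
  have hobs5 : obs n 5 M5 = obs n 5 M := obs_congr h5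
  have hv5 : IsV n 5 M5 := IsV_congr h5 hv
  have hE5 : Env0 n p M5 := hE.same hS5 (by decide)
  have hSs5 : Same stepL M M5 := hS5.mono (by decide)
  -- toggle
  refine Det.seqSim (R := fun M6 => IsV n 6 M6 ∧ obs n 6 M6 = tog x y (obs n 5 M5) ∧
      Same [6, 48] M5 M6) (togC_det hE5.hN hv5 h26_5 h27 hB.nΛ hB.nW) ?_
  rintro M6 ⟨hv6, ho6, hS6⟩
  have hSs6 : Same stepL M M6 := hSs5.trans (hS6.mono (by decide))
  have hE6 : Env0 n p M6 := hE5.same hS6 (by decide)
  -- number of holes
  refine Det.seqSim (R := fun M7 => IndIs (holes (obs n 6 M6)) M7 ∧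
      M7 28 0 0 = (holes (obs n 6 M6)).card ∧ Same [20, 28, 48] M6 M7)
    (holesC_det (by decide) hE6.hN hv6 hB.nΛ hB.nW) ?_
  rintro M7 ⟨-, hc7, hS7⟩
  have hS57 : Same [6, 20, 28, 48] M5 M7 := (hS6.mono (by decide)).trans (hS7.mono (by decide))
  have hSs7 : Same stepL M M7 := hSs6.trans (hS7.mono (by decide))
  have hE7 : Env0 n p M7 := hE6.same hS7 (by decide)
  have h5_7 : M7 5 = M 5 := by rw [hS57 5 (by decide)]; exact h5
  have hobs7 : obs n 5 M7 = obs n 5 M := obs_congr h5_7
  have hv7 : IsV n 5 M7 := IsV_congr h5_7 hv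
  have h6_7 : M7 6 = M6 6 := hS7 6 (by decide)
  have hobs67 : obs n 6 M7 = tog x y (obs n 5 M) := by
    rw [obs_congr h6_7, ho6, hobs5]
  have hv67 : IsV n 6 M7 := IsV_congr h6_7 hv6
  have h25_7 : M7 25 0 0 = ((w : ℕ) : ℤ) := by rw [hS57 25 (by decide)]; exact h25_5
  have h8_7 : M7 8 = M 8 := by rw [hS57 8 (by decide)]; exact hS5 8 (by decide)
  have h9_7 : M7 9 = M 9 := by rw [hS57 9 (by decide)]; exact hS5 9 (by decide)
  have h60_7 : M7 60 0 0 = j := by rw [hS57 60 (by decide), hS5 60 (by decide)]; exact h60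
  have hcard : M7 28 0 0 = (holes (tog x y (obs n 5 M))).card := by
    rw [hc7, ho6, hobs5]
  set T := tog x y (obs n 5 M) with hT
  set O := obs n 5 M with hO
  have ev25 : (Expr.v 25).val M7 = ((w : ℕ) : ℤ) := by simp only [Expr.val, h25_7]
  have evH : (Expr.sub (.add (.v 14) (.lit 1)) (.v 28)).val M7
      = (p.H : ℤ) + 1 - (holes T).card := by
    simp only [Expr.val, hE7.hH, hcard]
  refine Sim.when (fun h1 => ?_) (fun h1 => ?_)
  · rw [ev25] at h1
    refine Sim.when (fun h2 => ?_) (fun h2 => ?_)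
    · rw [evH] at h2
      have hw1 : w = 1 := by
        have h4 : w < 2 := by simpa using hw
        omega
      have hcH : (holes T).card ≤ p.H := by omega
      set K := (phi p (h j) s O - phi p (h j) s T).toNat with hK
      have htog : (if w = 1 ∧ (holes T).card ≤ p.H then
          (unif K).map (fun z => if z = 0 then T else O) else PMF.pure O)
          = (unif K).bind fun z => PMF.pure (if z = 0 then T else O) := by
        rw [if_pos ⟨hw1, hcH⟩, ← PMF.bind_pure_comp]
        rfl
      rw [htog]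
      set D := (n + 2) * E + p.B * (n + 2) + p.g with hD
      have hphO : |phi p (h j) s O| ≤ ((D : ℕ) : ℤ) := phi_le hb O
      have hphT : |phi p (h j) s T| ≤ ((D : ℕ) : ℤ) := phi_le hb T
      have hDW : D ≤ W := by
        have h3 : D ≤ 2 * D := by omega
        exact (h3.trans (st_nat_le_two_pow _)).trans hB.dW
      have hKle : K ≤ 2 * D := by
        rw [hK]
        have h3 := abs_le.1 hphO
        have h4 := abs_le.1 hphT
        refine Int.toNat_le.2 ?_
        push_cast
        push_cast at h3 h4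
        linarith [h3.2, h4.1]
      have hKW : K ≤ W := (hKle.trans (st_nat_le_two_pow _)).trans hB.dW
      -- phi of the current state
      refine Det.seqSim (R := fun M8 => M8 38 0 0 = phi p (h j) s O ∧ Same phiL M7 M8)
        (by
          have := phiC_det (W := W) (Λ := Λ) (A := 5) (Or.inl rfl) hE7 hB (hh.congr h8_7) hj h60_7
            (hs.congr h9_7) hb hv7
          rw [hobs7] at this
          exact this) ?_
      rintro M8 ⟨h38, hS8⟩
      refine Det.seqSim (R := fun M9 => M9 39 0 0 = phi p (h j) s O ∧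
          Same (39 :: phiL) M7 M9) ?_ ?_
      · have e38 : (Expr.v 38).val M8 = phi p (h j) s O := by simp only [Expr.val, h38]
        refine Det.setv ?_ ?_
        · rw [e38]
          exact hphO.trans (by exact_mod_cast hDW)
        · rw [e38]
          exact ⟨Mem.write_self _ _ _ _ _, (hS8.mono (by decide)).write (by decide) _ _ _⟩
      rintro M9 ⟨h39, hS9⟩
      have hE9 : Env0 n p M9 := hE7.same hS9 (by decide)
      have h8_9 : M9 8 = M 8 := by rw [hS9 8 (by decide)]; exact h8_7
      have h9_9 : M9 9 = M 9 := by rw [hS9 9 (by decide)]; exact h9_7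
      have h60_9 : M9 60 0 0 = j := by rw [hS9 60 (by decide)]; exact h60_7
      have h6_9 : M9 6 = M7 6 := hS9 6 (by decide)
      have hv69 : IsV n 6 M9 := IsV_congr h6_9 hv67
      have hobs69 : obs n 6 M9 = T := by rw [obs_congr h6_9, hobs67]
      -- phi of the toggled state
      refine Det.seqSim (R := fun M10 => M10 38 0 0 = phi p (h j) s T ∧ Same phiL M9 M10)
        (by
          have := phiC_det (W := W) (Λ := Λ) (A := 6) (Or.inr rfl) hE9 hB (hh.congr h8_9) hj h60_9
            (hs.congr h9_9) hb hv69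
          rw [hobs69] at this
          exact this) ?_
      rintro M10 ⟨h38_10, hS10⟩
      have h39_10 : M10 39 0 0 = phi p (h j) s O := by
        rw [hS10 39 (by decide)]; exact h39
      have hS10' : Same (39 :: phiL) M7 M10 := hS9.trans (hS10.mono (by decide))
      have hKval : max ((Expr.lit 0).val M10) ((Expr.sub (.v 39) (.v 38)).val M10)
          = ((K : ℕ) : ℤ) := by
        have : (Expr.sub (.v 39) (.v 38)).val M10 = phi p (h j) s O - phi p (h j) s T := by
          simp only [Expr.val, h39_10, h38_10]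
        rw [this, hK, Int.toNat_eq_max, max_comm]
        rfl
      refine Det.seqSim (R := fun M11 => M11 16 0 0 = ((K : ℕ) : ℤ) ∧
          Same (16 :: 39 :: phiL) M7 M11) ?_ ?_
      · refine Det.maxv ?_ ?_
        · rw [hKval]
          exact st_abs_nat hKW
        · rw [hKval]
          exact ⟨Mem.write_self _ _ _ _ _, (hS10'.mono (by decide)).write (by decide) _ _ _⟩
      rintro M11 ⟨h16_11, hS11⟩
      refine st_rand_seq (by decide) (by decide) h16_11
        ((Nat.pow_le_pow_right (by norm_num) hKle).trans hB.dW) (hKle.trans hB.dΛ) ?_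
      intro z hz M12 h30 hfr
      have hS12 : Same (15 :: 16 :: 30 :: 39 :: phiL) M7 M12 := by
        intro a ha
        simp only [List.mem_cons, not_or] at ha
        rw [hfr a ha.2.2.1 ha.1]
        exact hS11 a (by simp only [List.mem_cons, not_or]; tauto)
      have hSs12 : Same stepL M M12 := hSs7.trans (hS12.mono (by decide))
      have h5_12 : M12 5 = M 5 := by rw [hS12 5 (by decide)]; exact h5_7
      have hobs12 : obs n 5 M12 = O := obs_congr h5_12
      have hv12 : IsV n 5 M12 := IsV_congr h5_12 hv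
      have h6_12 : M12 6 = M7 6 := hS12 6 (by decide)
      have hv6_12 : IsV n 6 M12 := IsV_congr h6_12 hv67
      have hobs6_12 : obs n 6 M12 = T := by rw [obs_congr h6_12, hobs67]
      have hE12 : Env0 n p M12 := hE7.same hS12 (by decide)
      have e30 : (Expr.v 30).val M12 = ((z : ℕ) : ℤ) := by simp only [Expr.val, h30]
      refine Sim.ite (fun hz1 => ?_) (fun hz1 => ?_)
      · rw [e30] at hz1
        rw [if_neg (by omega)]
        refine Det.sim (Det.rep_zero (Q := fun M' => obs n 5 M' = O ∧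
          (IsV n 5 M' ∧ Same stepL M M')) ⟨hobs12, hv12, hSs12⟩) (fun M' hM' => hM'.1)
          |>.mono (fun M' hM' => hM'.2)
      · rw [e30] at hz1
        rw [if_pos (by omega)]
        have hcp := copyC_det (W := W) (Λ := Λ) (A := 6) (A' := 5) (by decide) (by decide)
          (by decide) (by decide) hE12.hN hv6_12 hB.nΛ hB.nW
        refine Det.sim (hcp.mono (Q' := fun M' => obs n 5 M' = T ∧
          (IsV n 5 M' ∧ Same stepL M M')) ?_) (fun M' hM' => hM'.1)
          |>.mono (fun M' hM' => hM'.2)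
        rintro M' ⟨a1, a2, a3⟩
        exact ⟨by rw [a2, hobs6_12], a1, hSs12.trans (a3.mono (by decide))⟩
    · rw [evH] at h2
      rw [if_neg (by omega)]
      exact ⟨⟨hv7, hSs7⟩, by rw [hobs7]⟩
  · rw [ev25] at h1
    rw [if_neg (by omega)]
    exact ⟨⟨hv7, hSs7⟩, by rw [hobs7]⟩

end Vale.Agent.P308RAM
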