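import Vale.Agent.P328RAM.Lang
import Vale.Agent.P308.Defs

/-!
# Perfect matchings, and what a quasi-polynomial randomized approximation scheme is

The programs are those of `P328RAM/Lang.lean`, with their logarithmic (bit) running time.
-/

namespace Vale.Agent.P308RAM

open Vale.Agent.P328RAM Vale.Agent.P308

/-- The initial memory: array `0` contains (in column `0`) the numbers `n`, `a`, `b`, and array `1`
the adjacency matrix of the graph `G`; all other cells are `0`. -/
noncomputable def input {n : ℕ} (G : SimpleGraph (Fin n)) (a b : ℕ) : Mem := fun k i j =>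
  if k = 0 then
    if j = 0 then (if i = 0 then n else if i = 1 then a else if i = 2 then b else 0) else 0
  else if k = 1 then
    (open Classical in
      if ∃ u v : Fin n, ((u : ℕ) : ℤ) = i ∧ ((v : ℕ) : ℤ) = j ∧ G.Adj u v then 1 else 0)
  else 0

/-- The output: a rational number, whose numerator and denominator are the cells `(0, 0)` and
`(1, 0)` of the array `3`. -/
noncomputable def output (M : Mem) : ℝ := (M 3 0 0 : ℝ) / (M 3 1 0 : ℝ)

/-- The program `prog` is a quasi-polynomial randomized approximation scheme for the number `Z(G)`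
of perfect matchings: for some `k` and all finite graphs `G` on `n` vertices and all accuracies
`ε`, `δ` (given to the program as the integers `⌈1/ε⌉`, `⌈1/δ⌉`), it always runs in time at most
`exp (k * (1 + log (n + 1)) ^ k) * (1 + 1/ε + log (1/δ)) ^ k`, that is quasi-polynomial in the size
of the graph and polynomial in `1/ε` and `log (1/δ)`, and its output is, with probability at least
`1 - δ`, within the factors `1 ± ε` of `Z(G)`. -/
def IsQPRAS (prog : Cmd) : Prop :=
  ∃ k : ℕ, ∀ (n : ℕ) (G : SimpleGraph (Fin n)) (ε δ : ℝ), 0 < ε → ε < 1 → 0 < δ → δ < 1 →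
    (∀ s ∈ (prog.run (input G ⌈1 / ε⌉₊ ⌈1 / δ⌉₊, 0)).support,
      (s.2 : ℝ) ≤
        Real.exp (k * (1 + Real.log (n + 1)) ^ k) * (1 + 1 / ε + Real.log (1 / δ)) ^ k) ∧
    ENNReal.ofReal (1 - δ) ≤
      (prog.run (input G ⌈1 / ε⌉₊ ⌈1 / δ⌉₊, 0)).toOuterMeasure
        {s | (1 - ε) * numPerfect G ≤ output s.1 ∧ output s.1 ≤ (1 + ε) * numPerfect G}

end Vale.Agent.P308RAM
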